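import Vale.Agent.P237.Petty.Cor.Grid.Tiny.N16.Cert

/-!
# P237: a cell down to zero in dimension 16, subdivisions
-/

namespace Vale.Agent.P237.Petty.Cor.Grid.Tiny.N16

def covers0 : cell.Covers Vale.Agent.P237.Petty.Cor.Grid.N16.table row0.1 :=
  ⟨(.cut .d 0 (.cut .v 16777216 (.cut .v 8388608 (.cut .v 4194304 (.cut .v 2097152 (.void 6 ⟨⟨0, 0, 100000, 0, 0, 0, 0, 0, 0, ⟨0, 0⟩, 0⟩, 0, 0⟩ 0 0) (.pos 7 .mm ⟨⟨0, 0, 0, 0, 0, 0, 0, 0, 0, ⟨0, 0⟩, 0⟩, 0, 0⟩ 0 0)) (.pos 5 .mm ⟨⟨0, 0, 0, 0, 0, 0, 0, 0, 0, ⟨0, 0⟩, 0⟩, 0, 0⟩ 0 0)) (.cut .v 12582912 (.cut .d (-8388608) (.pos 8 .mm ⟨⟨0, 0, 0, 0, 0, 0, 0, 0, 0, ⟨0, 0⟩, 0⟩, 0, 0⟩ 0 0) (.cut .d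 (-4194304) (.cut .d (-6291456) (.pos 8 .mm ⟨⟨0, 0, 0, 0, 0, 0, 0, 0, 0, ⟨0, 0⟩, 0⟩, 0, 0⟩ 0 0) (.pos 8 .mm ⟨⟨0, 0, 0, 0, 0, 0, 0, 0, 0, ⟨0, 0⟩, 0⟩, 0, 0⟩ 0 0)) (.pos 8 .mm ⟨⟨0, 0, 0, 0, 0, 0, 0, 0, 0, ⟨0, 0⟩, 0⟩, 0, 0⟩ 0 0))) (.cut .d (-8388608) (.pos 9 .mm ⟨⟨0, 0, 0, 0, 0, 0, 0, 0, 0, ⟨0, 0⟩, 0⟩, 0, 0⟩ 0 0) (.cut .d (-4194304) (.cut .v 14680064 (.cut .v 13631488 (.pos 14 .mm ⟨⟨0, 0, 0, 0, 0, 0, 0, 0, 0, ⟨0, 0⟩, 0⟩, 0, 0⟩ 0 0) (.pos 15 .mm ⟨⟨0, 0, 0, 0, 0, 0, 0, 0, 0, ⟨0, 0⟩, 0⟩, 0, 0⟩ 0 0)) (.pos 13 .mm ⟨⟨0, 0, 0, 0, 0, 0, 0, 0, 0, ⟨0, 0⟩, 0⟩, 0, 0⟩ 0 0)) (.cut .v 14680064 (.cut .d (-2097152) (.cut .s 851968 (.cut .s 425984 (.cut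 .v 13631488 (.cut .d (-3145728) (.pos 14 .mm ⟨⟨0, 0, 0, 0, 0, 0, 0, 0, 0, ⟨0, 0⟩, 0⟩, 0, 0⟩ 0 0) (.pos 14 .mm ⟨⟨0, 0, 0, 0, 0, 0, 0, 0, 0, ⟨0, 0⟩, 0⟩, 0, 0⟩ 0 0)) (.cut .d (-3145728) (.pos 15 .mm ⟨⟨0, 0, 0, 0, 0, 0, 0, 0, 0, ⟨0, 0⟩, 0⟩, 0, 0⟩ 0 0) (.cut .d (-2621440) (.pos 15 .mm ⟨⟨0, 0, 0, 0, 0, 0, 0, 0, 0, ⟨0, 0⟩, 0⟩, 0, 0⟩ 0 0) (.pos 15 .mm ⟨⟨0, 0, 0, 0, 0, 0, 0, 0, 0, ⟨0, 0⟩, 0⟩, 0, 0⟩ 0 0)))) (.pos 12 .mm ⟨⟨0, 0, 0, 0, 810590, 8302950, 0, 0, 0, ⟨0, 0⟩, 0⟩, 0, 0⟩ 0 0)) (.void 12 ⟨⟨0, 0, 0, 0, 0, 100000, 0, 0, 0, ⟨0, 0⟩, 0⟩, 0, 0⟩ 0 0)) (.pos 12 .mm ⟨⟨0, 0, 0, 0, 0, 0, 0, 0, 0, ⟨0, 0⟩, 0⟩, 0, 0⟩ 0 0)) (.cut .d (-2097152) (.pos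 13 .mm ⟨⟨0, 0, 0, 0, 0, 0, 0, 0, 0, ⟨0, 0⟩, 0⟩, 0, 0⟩ 0 0) (.cut .d (-1048576) (.cut .v 15728640 (.pos 20 .mm ⟨⟨0, 0, 0, 0, 0, 0, 0, 0, 0, ⟨0, 0⟩, 0⟩, 0, 0⟩ 0 0) (.pos 21 .mm ⟨⟨0, 0, 0, 0, 0, 0, 0, 0, 0, ⟨0, 0⟩, 0⟩, 0, 0⟩ 0 0)) (.pos 13 .mm ⟨⟨0, 0, 0, 0, 0, 200698, 0, 0, 0, ⟨0, 0⟩, 0⟩, 0, 0⟩ 0 0)))))))) (.cut .v 25165824 (.cut .v 20971520 (.cut .v 18874368 (.pos 27 .mp ⟨⟨1486392, 0, 0, 0, 0, 6718, 0, 0, 0, ⟨0, 0⟩, 0⟩, 0, 0⟩ 0 0) (.void 28 ⟨⟨0, 0, 0, 0, 0, 0, 100000, 0, 0, ⟨0, 0⟩, 0⟩, 0, 0⟩ 0 0)) (.void 26 ⟨⟨0, 0, 0, 0, 0, 0, 100000, 0, 0, ⟨0, 0⟩, 0⟩, 0, 0⟩ 0 0)) (.void 24 ⟨⟨0, 0, 0, 0, 0, 0, 100000, 0, 0, ⟨0, 0⟩, 0⟩, 0, 0⟩ 0 0)))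 (.cut .v 16777216 (.cut .v 8388608 (.cut .v 4194304 (.cut .v 2097152 (.void 6 ⟨⟨0, 0, 100000, 0, 0, 0, 0, 0, 0, ⟨0, 0⟩, 0⟩, 0, 0⟩ 0 0) (.pos 7 .pm ⟨⟨0, 0, 0, 0, 836340, 0, 0, 0, 0, ⟨0, 0⟩, 0⟩, 0, 0⟩ 0 0)) (.pos 5 .pm ⟨⟨0, 0, 0, 0, 800987, 0, 0, 0, 0, ⟨0, 0⟩, 0⟩, 0, 0⟩ 0 0)) (.cut .v 12582912 (.pos 8 .pm ⟨⟨0, 0, 0, 0, 779325, 0, 0, 0, 0, ⟨0, 0⟩, 0⟩, 0, 0⟩ 0 0) (.pos 9 .pm ⟨⟨0, 0, 0, 0, 0, 0, 0, 0, 0, ⟨0, 0⟩, 0⟩, 0, 568077⟩ 0 0))) (.cut .v 25165824 (.cut .v 20971520 (.cut .v 18874368 (.cut .v 17825792 (.cut .v 17301504 (.cut .d 354144 (.cut .v 17039360 (.cut .s 851968 (.cut .d 177072 (.pos 33 .pp ⟨⟨680480, 0, 0, 0, 0, 0, 413234,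 0, 0, ⟨0, 0⟩, 0⟩, 0, 190465⟩ 0 0) (.pos 33 .pp ⟨⟨1146514, 0, 0, 0, 0, 0, 258299, 0, 0, ⟨0, 0⟩, 0⟩, 0, 92435⟩ 0 0)) (.cut .d 177072 (.cut .s 1277952 (.pos 33 .pp ⟨⟨1422697, 0, 0, 0, 0, 0, 0, 0, 0, ⟨0, 0⟩, 0⟩, 0, 260844⟩ 0 0) (.cut .s 1490944 (.pos 33 .pp ⟨⟨1279782, 0, 0, 0, 0, 0, 0, 0, 0, ⟨0, 0⟩, 0⟩, 0, 270430⟩ 0 0) (.pos 33 .pp ⟨⟨1174749, 0, 0, 0, 0, 0, 0, 0, 0, ⟨0, 0⟩, 0⟩, 0, 250779⟩ 0 0))) (.cut .s 1277952 (.pos 33 .pp ⟨⟨1359649, 0, 0, 0, 0, 0, 0, 0, 0, ⟨0, 0⟩, 0⟩, 0, 538397⟩ 0 0) (.pos 33 .pp ⟨⟨1132502, 0, 0, 0, 0, 0, 0, 0, 0, ⟨0, 0⟩, 0⟩, 0, 434208⟩ 0 0)))) (.pos 34 .pp ⟨⟨2008912, 0, 0, 0, 0, 0, 0, 0, 0, ⟨0, 0⟩, 0⟩, 0, 180742⟩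 0 0)) (.pos 31 .pp ⟨⟨0, 0, 0, 0, 0, 0, 934017, 0, 0, ⟨0, 0⟩, 0⟩, 0, 1049564⟩ 0 0)) (.void 32 ⟨⟨0, 0, 0, 0, 0, 0, 100000, 0, 0, ⟨0, 0⟩, 0⟩, 0, 0⟩ 0 0)) (.void 30 ⟨⟨0, 0, 0, 0, 0, 0, 100000, 0, 0, ⟨0, 0⟩, 0⟩, 0, 0⟩ 0 0)) (.void 28 ⟨⟨0, 0, 0, 0, 0, 0, 0, 0, 0, ⟨0, 0⟩, 0⟩, 100000, 0⟩ 0 0)) (.void 26 ⟨⟨0, 0, 0, 0, 0, 0, 0, 0, 0, ⟨0, 0⟩, 0⟩, 100000, 0⟩ 0 0)) (.void 24 ⟨⟨0, 0, 0, 0, 0, 0, 0, 0, 0, ⟨0, 0⟩, 0⟩, 100000, 0⟩ 0 0)))),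
    by decide +kernel⟩

def covers1 : cell.Covers Vale.Agent.P237.Petty.Cor.Grid.N16.table row1.1 :=
  ⟨(.cut .d 0 (.cut .v 16777216 (.cut .v 8388608 (.void 2 ⟨⟨0, 0, 0, 0, 50000, 50000, 0, 0, 0, ⟨0, 0⟩, 0⟩, 0, 0⟩ 0 0) (.cut .v 12582912 (.void 8 ⟨⟨0, 0, 0, 0, 50000, 50000, 0, 0, 0, ⟨0, 0⟩, 0⟩, 0, 0⟩ 0 0) (.cut .d (-8388608) (.void 9 ⟨⟨0, 0, 0, 0, 0, 100000, 0, 0, 0, ⟨0, 0⟩, 0⟩, 0, 0⟩ 0 0) (.cut .v 14680064 (.void 12 ⟨⟨0, 0, 0, 0, 0, 64287, 0, 0, 35713, ⟨0, 0⟩, 15100357⟩, 0, 0⟩ 0 0) (.cut .d (-4194304) (.void 13 ⟨⟨0, 0, 0, 0, 0, 100000, 0, 0, 0, ⟨0, 0⟩, 0⟩, 0, 0⟩ 0 0) (.cut .d (-2097152) (.void 13 ⟨⟨0, 0, 0, 0, 0, 100000, 0, 0,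 0, ⟨0, 0⟩, 0⟩, 0, 0⟩ 0 0) (.cut .d (-1048576) (.void 13 ⟨⟨0, 0, 0, 0, 0, 100000, 0, 0, 0, ⟨0, 0⟩, 0⟩, 0, 0⟩ 0 0) (.pos 13 .mm ⟨⟨0, 0, 0, 0, 0, 444580, 0, 0, 0, ⟨0, 0⟩, 0⟩, 0, 0⟩ 0 0)))))))) (.cut .v 25165824 (.cut .d (-8388608) (.void 23 ⟨⟨0, 0, 0, 0, 0, 100000, 0, 0, 0, ⟨0, 0⟩, 0⟩, 0, 0⟩ 0 0) (.cut .v 20971520 (.cut .d (-4194304) (.void 25 ⟨⟨0, 0, 0, 0, 0, 100000, 0, 0, 0, ⟨0, 0⟩, 0⟩, 0, 0⟩ 0 0) (.cut .d (-2097152) (.void 25 ⟨⟨0, 0, 0, 0, 0, 100000, 0, 0, 0, ⟨0, 0⟩, 0⟩, 0, 0⟩ 0 0) (.cut .v 18874368 (.cut .d (-1048576) (.void 27 ⟨⟨0, 0, 0, 0, 0, 100000, 0, 0, 0, ⟨0, 0⟩, 0⟩, 0, 0⟩ 0 0) (.pos 27 .mp ⟨⟨1124439, 0, 0, 0, 0, 0, 0, 0,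 0, ⟨0, 0⟩, 0⟩, 0, 0⟩ 0 0)) (.void 28 ⟨⟨0, 0, 0, 0, 0, 0, 100000, 0, 0, ⟨0, 0⟩, 0⟩, 0, 0⟩ 0 0)))) (.void 26 ⟨⟨0, 0, 0, 0, 0, 0, 100000, 0, 0, ⟨0, 0⟩, 0⟩, 0, 0⟩ 0 0))) (.void 24 ⟨⟨0, 0, 0, 0, 0, 0, 100000, 0, 0, ⟨0, 0⟩, 0⟩, 0, 0⟩ 0 0))) (.cut .v 16777216 (.cut .v 8388608 (.void 2 ⟨⟨0, 0, 0, 0, 100000, 0, 0, 0, 0, ⟨0, 0⟩, 0⟩, 0, 0⟩ 0 0) (.cut .v 12582912 (.void 8 ⟨⟨0, 0, 0, 0, 86163, 0, 0, 0, 13837, ⟨0, 0⟩, 13128881⟩, 0, 0⟩ 0 0) (.cut .v 14680064 (.void 12 ⟨⟨0, 0, 0, 0, 0, 0, 0, 0, 100000, ⟨0, 0⟩, 15100357⟩, 0, 0⟩ 0 0) (.cut .d 845387 (.pos 13 .pm ⟨⟨0, 0, 0, 0, 0, 0, 0, 0, 0, ⟨0, 0⟩, 0⟩, 0, 292072⟩ 0 0) (.void 13 ⟨⟨0, 0, 0, 0, 0,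 0, 0, 0, 0, ⟨0, 0⟩, 0⟩, 0, 100000⟩ 0 0))))) (.cut .v 25165824 (.cut .v 20971520 (.cut .v 18874368 (.cut .d 845387 (.cut .v 17825792 (.cut .d 422693 (.cut .v 17301504 (.cut .s 2359296 (.cut .v 17039360 (.cut .d 211346 (.cut .s 2031616 (.cut .v 16908288 (.cut .s 1867776 (.pos 35 .pp ⟨⟨1053868, 0, 0, 0, 0, 0, 0, 0, 0, ⟨0, 0⟩, 0⟩, 0, 264772⟩ 0 0) (.pos 35 .pp ⟨⟨962341, 0, 0, 0, 0, 0, 0, 0, 0, ⟨0, 0⟩, 0⟩, 0, 263471⟩ 0 0)) (.pos 36 .pp ⟨⟨1168296, 0, 0, 0, 0, 0, 0, 0, 0, ⟨0, 0⟩, 0⟩, 0, 201555⟩ 0 0)) (.cut .v 16908288 (.cut .s 2195456 (.cut .s 2113536 (.pos 35 .pp ⟨⟨886908, 0, 0, 0, 0, 0, 0, 0, 0, ⟨0, 0⟩, 0⟩, 0, 269824⟩ 0 0) (.pos 35 .pp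 ⟨⟨847950, 0, 0, 0, 0, 0, 0, 0, 0, ⟨0, 0⟩, 0⟩, 0, 263908⟩ 0 0)) (.pos 35 .pp ⟨⟨776006, 0, 0, 0, 0, 0, 0, 0, 0, ⟨0, 0⟩, 0⟩, 0, 254476⟩ 0 0)) (.pos 36 .pp ⟨⟨931888, 0, 0, 0, 0, 0, 0, 0, 0, ⟨0, 0⟩, 0⟩, 0, 233864⟩ 0 0))) (.pos 33 .pp ⟨⟨704391, 0, 0, 0, 0, 0, 0, 0, 0, ⟨0, 0⟩, 0⟩, 0, 506852⟩ 0 0)) (.cut .s 2031616 (.pos 34 .pp ⟨⟨1362282, 0, 0, 0, 0, 0, 0, 0, 0, ⟨0, 0⟩, 0⟩, 0, 150940⟩ 0 0) (.pos 34 .pp ⟨⟨1073583, 0, 0, 0, 0, 0, 0, 0, 0, ⟨0, 0⟩, 0⟩, 0, 219240⟩ 0 0))) (.cut .s 2686976 (.cut .d 211346 (.cut .v 17039360 (.cut .s 2523136 (.pos 33 .pp ⟨⟨676846, 0, 0, 0, 0, 0, 0, 0, 0, ⟨0, 0⟩, 0⟩, 0, 251323⟩ 0 0) (.pos 33 .pp ⟨⟨617932, 0, 0,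 0, 0, 0, 0, 0, 0, ⟨0, 0⟩, 0⟩, 0, 231080⟩ 0 0)) (.pos 34 .pp ⟨⟨1377330, 0, 0, 0, 0, 0, 0, 0, 0, ⟨0, 0⟩, 0⟩, 0, 0⟩ 0 0)) (.pos 31 .pp ⟨⟨593269, 0, 0, 0, 0, 0, 0, 0, 0, ⟨0, 0⟩, 0⟩, 0, 344857⟩ 0 0)) (.cut .d 211346 (.cut .s 2850816 (.pos 31 .pp ⟨⟨530050, 0, 0, 0, 0, 0, 0, 0, 0, ⟨0, 0⟩, 0⟩, 0, 224738⟩ 0 0) (.pos 31 .pp ⟨⟨455311, 0, 0, 0, 0, 0, 0, 0, 0, ⟨0, 0⟩, 0⟩, 0, 213005⟩ 0 0)) (.pos 31 .pp ⟨⟨366972, 0, 0, 0, 0, 0, 0, 0, 0, ⟨0, 0⟩, 0⟩, 0, 332327⟩ 0 0)))) (.void 32 ⟨⟨84606, 0, 0, 0, 0, 0, 0, 0, 0, ⟨0, 0⟩, 0⟩, 0, 15394⟩ 0 0)) (.void 29 ⟨⟨0, 0, 0, 0, 0, 0, 652, 0, 0, ⟨0, 0⟩, 0⟩, 0, 99348⟩ 0 0)) (.void 30 ⟨⟨0, 0, 0, 0, 0, 0, 100000,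 0, 0, ⟨0, 0⟩, 0⟩, 0, 0⟩ 0 0)) (.void 27 ⟨⟨0, 0, 0, 0, 0, 0, 652, 0, 0, ⟨0, 0⟩, 0⟩, 0, 99348⟩ 0 0)) (.void 28 ⟨⟨0, 0, 0, 0, 0, 0, 100000, 0, 0, ⟨0, 0⟩, 0⟩, 0, 0⟩ 0 0)) (.void 26 ⟨⟨0, 0, 0, 0, 0, 0, 0, 0, 0, ⟨0, 0⟩, 0⟩, 100000, 0⟩ 0 0)) (.void 24 ⟨⟨0, 0, 0, 0, 0, 0, 0, 0, 0, ⟨0, 0⟩, 0⟩, 100000, 0⟩ 0 0)))),
    by decide +kernel⟩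

def covers2 : cell.Covers Vale.Agent.P237.Petty.Cor.Grid.N16.table row2.1 :=
  ⟨(.cut .d 0 (.cut .v 16777216 (.cut .v 8388608 (.void 2 ⟨⟨0, 0, 0, 0, 50000, 50000, 0, 0, 0, ⟨0, 0⟩, 0⟩, 0, 0⟩ 0 0) (.cut .v 12582912 (.void 8 ⟨⟨0, 0, 0, 0, 0, 61015, 0, 0, 38985, ⟨0, 0⟩, 13128881⟩, 0, 0⟩ 0 0) (.cut .d (-8388608) (.void 9 ⟨⟨0, 0, 0, 0, 0, 100000, 0, 0, 0, ⟨0, 0⟩, 0⟩, 0, 0⟩ 0 0) (.cut .d (-4194304) (.void 9 ⟨⟨0, 0, 0, 0, 0, 100000, 0, 0, 0, ⟨0, 0⟩, 0⟩, 0, 0⟩ 0 0) (.cut .v 14680064 (.pos 12 .mm ⟨⟨0, 0, 0, 0, 0, 4823856, 0, 0, 0, ⟨0, 0⟩, 0⟩, 0, 0⟩ 0 0) (.cut .d (-2097152) (.void 13 ⟨⟨0, 0, 0, 0, 0, 100000, 0, 0, 0, ⟨0, 0⟩, 0⟩, 0, 0⟩ 0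 0) (.cut .d (-1048576) (.void 13 ⟨⟨0, 0, 0, 0, 0, 100000, 0, 0, 0, ⟨0, 0⟩, 0⟩, 0, 0⟩ 0 0) (.cut .d (-524288) (.void 13 ⟨⟨0, 0, 0, 0, 0, 100000, 0, 0, 0, ⟨0, 0⟩, 0⟩, 0, 0⟩ 0 0) (.cut .s 3407872 (.pos 13 .mm ⟨⟨0, 0, 0, 0, 0, 604390, 0, 0, 0, ⟨0, 0⟩, 0⟩, 0, 0⟩ 0 0) (.cut .s 3604480 (.pos 13 .mm ⟨⟨0, 0, 0, 0, 0, 792440, 0, 0, 0, ⟨0, 0⟩, 0⟩, 0, 0⟩ 0 0) (.cut .d (-262144) (.void 13 ⟨⟨0, 0, 0, 0, 0, 100000, 0, 0, 0, ⟨0, 0⟩, 0⟩, 0, 0⟩ 0 0) (.cut .v 15728640 (.pos 20 .mm ⟨⟨0, 0, 0, 0, 0, 80310, 0, 0, 0, ⟨0, 0⟩, 0⟩, 0, 0⟩ 0 0) (.pos 21 .mm ⟨⟨0, 0, 0, 0, 0, 712029, 0, 0, 0, ⟨0, 0⟩, 0⟩, 0, 0⟩ 0 0))))))))))))) (.cut .v 25165824 (.cut .d (-8388608)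 (.void 23 ⟨⟨0, 0, 0, 0, 0, 100000, 0, 0, 0, ⟨0, 0⟩, 0⟩, 0, 0⟩ 0 0) (.cut .d (-4194304) (.void 23 ⟨⟨0, 0, 0, 0, 0, 100000, 0, 0, 0, ⟨0, 0⟩, 0⟩, 0, 0⟩ 0 0) (.cut .v 20971520 (.cut .d (-2097152) (.void 25 ⟨⟨0, 0, 0, 0, 0, 100000, 0, 0, 0, ⟨0, 0⟩, 0⟩, 0, 0⟩ 0 0) (.cut .d (-1048576) (.void 25 ⟨⟨0, 0, 0, 0, 0, 100000, 0, 0, 0, ⟨0, 0⟩, 0⟩, 0, 0⟩ 0 0) (.cut .d (-524288) (.void 25 ⟨⟨0, 0, 0, 0, 0, 100000, 0, 0, 0, ⟨0, 0⟩, 0⟩, 0, 0⟩ 0 0) (.cut .v 18874368 (.cut .d (-262144) (.void 27 ⟨⟨0, 0, 0, 0, 0, 100000, 0, 0, 0, ⟨0, 0⟩, 0⟩, 0, 0⟩ 0 0) (.cut .d (-131072) (.pos 27 .mp ⟨⟨855782, 0, 0, 0, 0, 483348, 0, 0, 0, ⟨0, 0⟩, 0⟩, 0, 0⟩ 0 0) (.pos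 27 .mp ⟨⟨690488, 0, 0, 0, 0, 205895, 0, 0, 0, ⟨0, 0⟩, 0⟩, 0, 0⟩ 0 0))) (.void 28 ⟨⟨0, 0, 0, 0, 0, 0, 100000, 0, 0, ⟨0, 0⟩, 0⟩, 0, 0⟩ 0 0))))) (.void 26 ⟨⟨0, 0, 0, 0, 0, 0, 100000, 0, 0, ⟨0, 0⟩, 0⟩, 0, 0⟩ 0 0)))) (.void 24 ⟨⟨0, 0, 0, 0, 0, 0, 100000, 0, 0, ⟨0, 0⟩, 0⟩, 0, 0⟩ 0 0))) (.cut .v 16777216 (.cut .v 8388608 (.void 2 ⟨⟨0, 0, 0, 0, 100000, 0, 0, 0, 0, ⟨0, 0⟩, 0⟩, 0, 0⟩ 0 0) (.cut .v 12582912 (.void 8 ⟨⟨0, 0, 0, 0, 0, 0, 0, 0, 100000, ⟨0, 0⟩, 13128881⟩, 0, 0⟩ 0 0) (.cut .d 1315979 (.cut .v 14680064 (.pos 12 .pm ⟨⟨0, 0, 0, 0, 0, 0, 0, 0, 1390709, ⟨0, 0⟩, 15100357⟩, 0, 0⟩ 0 0) (.cut .d 657989 (.cut .d 328994 (.cut .v 15728640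 (.pos 20 .pm ⟨⟨0, 0, 0, 0, 0, 0, 0, 0, 0, ⟨0, 0⟩, 0⟩, 0, 397754⟩ 0 0) (.cut .v 16252928 (.pos 41 .pm ⟨⟨0, 0, 0, 0, 0, 0, 0, 0, 0, ⟨0, 0⟩, 0⟩, 0, 277335⟩ 0 0) (.pos 42 .pm ⟨⟨0, 0, 0, 0, 0, 0, 0, 0, 0, ⟨0, 0⟩, 0⟩, 0, 214941⟩ 0 0))) (.void 13 ⟨⟨0, 0, 0, 0, 0, 0, 0, 0, 0, ⟨0, 0⟩, 0⟩, 0, 100000⟩ 0 0)) (.void 13 ⟨⟨0, 0, 0, 0, 0, 0, 0, 0, 0, ⟨0, 0⟩, 0⟩, 0, 100000⟩ 0 0))) (.void 9 ⟨⟨0, 0, 0, 0, 0, 0, 0, 0, 0, ⟨0, 0⟩, 0⟩, 0, 100000⟩ 0 0)))) (.cut .v 25165824 (.cut .v 20971520 (.cut .d 1315979 (.cut .v 18874368 (.cut .d 657989 (.cut .d 328994 (.cut .v 17825792 (.cut .v 17301504 (.cut .d 164497 (.cut .s 3407872 (.pos 31 .pp ⟨⟨356675, 0, 0,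 0, 0, 0, 0, 0, 0, ⟨0, 0⟩, 0⟩, 0, 181741⟩ 0 0) (.pos 31 .pp ⟨⟨261308, 0, 0, 0, 0, 0, 0, 0, 0, ⟨0, 0⟩, 0⟩, 0, 162096⟩ 0 0)) (.pos 31 .pp ⟨⟨153603, 0, 0, 0, 0, 0, 0, 0, 0, ⟨0, 0⟩, 0⟩, 0, 290797⟩ 0 0)) (.void 32 ⟨⟨81381, 0, 0, 0, 0, 0, 0, 0, 0, ⟨0, 0⟩, 0⟩, 0, 18619⟩ 0 0)) (.void 30 ⟨⟨0, 0, 0, 0, 0, 0, 0, 0, 0, ⟨0, 0⟩, 0⟩, 100000, 0⟩ 0 0)) (.void 27 ⟨⟨3358, 0, 0, 0, 0, 0, 0, 0, 0, ⟨0, 0⟩, 0⟩, 0, 96642⟩ 0 0)) (.void 27 ⟨⟨0, 0, 0, 0, 0, 0, 1590, 0, 0, ⟨0, 0⟩, 0⟩, 0, 98410⟩ 0 0)) (.void 28 ⟨⟨0, 0, 0, 0, 0, 0, 0, 0, 0, ⟨0, 0⟩, 0⟩, 19483, 80517⟩ 0 0)) (.void 25 ⟨⟨0, 0, 0, 0, 0, 0, 1590, 0, 0, ⟨0, 0⟩, 0⟩, 0, 98410⟩ 0 0)) (.void 26 ⟨⟨0, 0,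 0, 0, 0, 0, 0, 0, 0, ⟨0, 0⟩, 0⟩, 19483, 80517⟩ 0 0)) (.void 24 ⟨⟨0, 0, 0, 0, 0, 0, 0, 0, 0, ⟨0, 0⟩, 0⟩, 100000, 0⟩ 0 0)))),
    by decide +kernel⟩

def covers3 : cell.Covers Vale.Agent.P237.Petty.Cor.Grid.N16.table row3.1 :=
  ⟨(.cut .d 0 (.cut .v 16777216 (.cut .v 8388608 (.void 2 ⟨⟨0, 0, 0, 0, 50000, 50000, 0, 0, 0, ⟨0, 0⟩, 0⟩, 0, 0⟩ 0 0) (.cut .v 12582912 (.void 8 ⟨⟨0, 0, 0, 0, 0, 61015, 0, 0, 38985, ⟨0, 0⟩, 13128881⟩, 0, 0⟩ 0 0) (.cut .d (-8388608) (.void 9 ⟨⟨0, 0, 0, 0, 0, 100000, 0, 0, 0, ⟨0, 0⟩, 0⟩, 0, 0⟩ 0 0) (.cut .d (-4194304) (.void 9 ⟨⟨0, 0, 0, 0, 0, 100000, 0, 0, 0, ⟨0, 0⟩, 0⟩, 0, 0⟩ 0 0) (.cut .d (-2097152) (.void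 9 ⟨⟨0, 0, 0, 0, 0, 100000, 0, 0, 0, ⟨0, 0⟩, 0⟩, 0, 0⟩ 0 0) (.cut .v 14680064 (.pos 12 .mm ⟨⟨0, 0, 0, 0, 0, 4413214, 0, 0, 0, ⟨0, 0⟩, 0⟩, 0, 0⟩ 0 0) (.cut .d (-1048576) (.void 13 ⟨⟨0, 0, 0, 0, 0, 100000, 0, 0, 0, ⟨0, 0⟩, 0⟩, 0, 0⟩ 0 0) (.cut .d (-524288) (.void 13 ⟨⟨0, 0, 0, 0, 0, 100000, 0, 0, 0, ⟨0, 0⟩, 0⟩, 0, 0⟩ 0 0) (.cut .d (-262144) (.void 13 ⟨⟨0, 0, 0, 0, 0, 100000, 0, 0, 0, ⟨0, 0⟩, 0⟩, 0, 0⟩ 0 0) (.cut .d (-131072) (.pos 13 .mm ⟨⟨0, 0, 0, 0, 0, 1939142, 0, 0, 0, ⟨0, 0⟩, 0⟩, 0, 0⟩ 0 0) (.cut .v 15728640 (.pos 20 .mm ⟨⟨0, 0, 0, 0, 0, 404732, 0, 0, 0, ⟨0, 0⟩, 0⟩, 0, 0⟩ 0 0) (.cut .v 16252928 (.pos 41 .mm ⟨⟨0, 0, 0, 0, 0, 828728,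 0, 0, 0, ⟨0, 0⟩, 0⟩, 0, 0⟩ 0 0) (.cut .s 4161536 (.cut .s 3981312 (.pos 42 .mm ⟨⟨0, 0, 0, 0, 0, 667032, 0, 0, 0, ⟨0, 0⟩, 0⟩, 0, 0⟩ 0 0) (.pos 42 .mm ⟨⟨0, 0, 0, 0, 0, 884118, 0, 0, 0, ⟨0, 0⟩, 0⟩, 0, 0⟩ 0 0)) (.cut .s 4341760 (.pos 42 .mm ⟨⟨0, 0, 0, 0, 0, 1146519, 0, 0, 0, ⟨0, 0⟩, 0⟩, 0, 0⟩ 0 0) (.cut .s 4431872 (.pos 42 .mm ⟨⟨0, 0, 0, 0, 0, 1300637, 0, 0, 0, ⟨0, 0⟩, 0⟩, 0, 0⟩ 0 0) (.pos 42 .mm ⟨⟨0, 0, 0, 0, 0, 1461853, 0, 0, 0, ⟨0, 0⟩, 0⟩, 0, 0⟩ 0 0)))))))))))))))) (.cut .v 25165824 (.cut .d (-8388608) (.void 23 ⟨⟨0, 0, 0, 0, 0, 100000, 0, 0, 0, ⟨0, 0⟩, 0⟩, 0, 0⟩ 0 0) (.cut .d (-4194304) (.void 23 ⟨⟨0, 0, 0, 0, 0, 100000, 0, 0,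 0, ⟨0, 0⟩, 0⟩, 0, 0⟩ 0 0) (.cut .d (-2097152) (.void 23 ⟨⟨0, 0, 0, 0, 0, 100000, 0, 0, 0, ⟨0, 0⟩, 0⟩, 0, 0⟩ 0 0) (.cut .v 20971520 (.cut .d (-1048576) (.void 25 ⟨⟨0, 0, 0, 0, 0, 100000, 0, 0, 0, ⟨0, 0⟩, 0⟩, 0, 0⟩ 0 0) (.cut .d (-524288) (.void 25 ⟨⟨0, 0, 0, 0, 0, 100000, 0, 0, 0, ⟨0, 0⟩, 0⟩, 0, 0⟩ 0 0) (.cut .v 18874368 (.cut .d (-262144) (.void 27 ⟨⟨0, 0, 0, 0, 0, 100000, 0, 0, 0, ⟨0, 0⟩, 0⟩, 0, 0⟩ 0 0) (.cut .v 17825792 (.cut .v 17301504 (.cut .v 17039360 (.cut .d (-131072) (.cut .s 4161536 (.pos 33 .mp ⟨⟨198028, 0, 0, 0, 0, 1453457, 0, 0, 0, ⟨0, 0⟩, 0⟩, 0, 0⟩ 0 0) (.pos 33 .mp ⟨⟨220325, 0, 0, 0, 0, 2250115, 0, 0, 0, ⟨0, 0⟩,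 0⟩, 0, 0⟩ 0 0)) (.cut .v 16908288 (.cut .s 4161536 (.cut .s 3981312 (.pos 35 .mp ⟨⟨366530, 0, 0, 0, 0, 517300, 0, 0, 0, ⟨0, 0⟩, 0⟩, 0, 0⟩ 0 0) (.pos 35 .mp ⟨⟨223275, 0, 0, 0, 0, 783921, 0, 0, 0, ⟨0, 0⟩, 0⟩, 0, 0⟩ 0 0)) (.cut .v 16842752 (.cut .d (-65536) (.pos 37 .mp ⟨⟨102820, 0, 0, 0, 0, 1429057, 0, 0, 0, ⟨0, 0⟩, 0⟩, 0, 0⟩ 0 0) (.cut .s 4341760 (.pos 37 .mp ⟨⟨416042, 0, 0, 0, 0, 806349, 0, 0, 0, ⟨0, 0⟩, 0⟩, 0, 0⟩ 0 0) (.pos 37 .mp ⟨⟨366262, 0, 0, 0, 0, 1081352, 0, 0, 0, ⟨0, 0⟩, 0⟩, 0, 0⟩ 0 0))) (.pos 38 .mp ⟨⟨1975727, 0, 0, 0, 0, 0, 0, 0, 0, ⟨0, 0⟩, 0⟩, 0, 0⟩ 0 0))) (.pos 36 .mp ⟨⟨1818307, 0, 0, 0, 0, 0, 0, 0, 0, ⟨0, 0⟩, 0⟩, 0,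 0⟩ 0 0))) (.void 34 ⟨⟨100000, 0, 0, 0, 0, 0, 0, 0, 0, ⟨0, 0⟩, 0⟩, 0, 0⟩ 0 0)) (.void 32 ⟨⟨100000, 0, 0, 0, 0, 0, 0, 0, 0, ⟨0, 0⟩, 0⟩, 0, 0⟩ 0 0)) (.void 30 ⟨⟨100000, 0, 0, 0, 0, 0, 0, 0, 0, ⟨0, 0⟩, 0⟩, 0, 0⟩ 0 0))) (.void 28 ⟨⟨100000, 0, 0, 0, 0, 0, 0, 0, 0, ⟨0, 0⟩, 0⟩, 0, 0⟩ 0 0)))) (.void 26 ⟨⟨0, 0, 0, 0, 0, 0, 100000, 0, 0, ⟨0, 0⟩, 0⟩, 0, 0⟩ 0 0))))) (.void 24 ⟨⟨0, 0, 0, 0, 0, 0, 100000, 0, 0, ⟨0, 0⟩, 0⟩, 0, 0⟩ 0 0))) (.cut .v 16777216 (.cut .v 8388608 (.void 2 ⟨⟨0, 0, 0, 0, 100000, 0, 0, 0, 0, ⟨0, 0⟩, 0⟩, 0, 0⟩ 0 0) (.cut .v 12582912 (.void 8 ⟨⟨0, 0, 0, 0, 0, 0, 0, 0, 100000, ⟨0, 0⟩, 13128881⟩, 0, 0⟩ 0 0) (.cut .d 1811154 (.cut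 .d 905577 (.cut .d 452788 (.cut .v 14680064 (.pos 12 .pm ⟨⟨0, 0, 0, 0, 0, 0, 0, 0, 0, ⟨0, 0⟩, 0⟩, 0, 785525⟩ 0 0) (.cut .v 15728640 (.cut .d 226394 (.pos 20 .pm ⟨⟨0, 0, 0, 0, 0, 0, 0, 0, 0, ⟨0, 0⟩, 0⟩, 0, 236907⟩ 0 0) (.cut .s 4161536 (.pos 20 .pm ⟨⟨0, 0, 0, 0, 0, 0, 0, 0, 0, ⟨0, 0⟩, 0⟩, 0, 750014⟩ 0 0) (.pos 20 .pm ⟨⟨0, 0, 0, 0, 0, 0, 0, 0, 0, ⟨0, 0⟩, 0⟩, 0, 798367⟩ 0 0))) (.cut .d 226394 (.cut .s 4161536 (.pos 21 .pm ⟨⟨0, 0, 0, 0, 0, 0, 0, 0, 0, ⟨0, 0⟩, 0⟩, 0, 220356⟩ 0 0) (.pos 21 .pm ⟨⟨0, 0, 0, 0, 0, 0, 0, 0, 0, ⟨0, 0⟩, 0⟩, 0, 184003⟩ 0 0)) (.cut .d 339591 (.cut .l 115343 (.void 21 ⟨⟨0, 0, 0, 0, 0, 0, 0, 0, 0, ⟨0, 0⟩, 0⟩, 0,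 100000⟩ 0 0) (.cut .v 16252928 (.cut .s 4161536 (.pos 41 .pm ⟨⟨0, 0, 0, 0, 0, 0, 0, 0, 0, ⟨0, 0⟩, 0⟩, 0, 535617⟩ 0 0) (.pos 41 .pm ⟨⟨0, 0, 0, 0, 0, 0, 0, 0, 0, ⟨0, 0⟩, 0⟩, 0, 571222⟩ 0 0)) (.cut .s 4161536 (.pos 42 .pm ⟨⟨0, 0, 0, 0, 0, 0, 0, 0, 0, ⟨0, 0⟩, 0⟩, 0, 476137⟩ 0 0) (.pos 42 .pm ⟨⟨0, 0, 0, 0, 0, 0, 0, 0, 0, ⟨0, 0⟩, 0⟩, 0, 492031⟩ 0 0)))) (.pos 21 .pm ⟨⟨0, 0, 0, 0, 0, 0, 0, 0, 0, ⟨0, 0⟩, 0⟩, 0, 11958594⟩ 0 0))))) (.void 9 ⟨⟨0, 0, 0, 0, 0, 0, 0, 0, 0, ⟨0, 0⟩, 0⟩, 0, 100000⟩ 0 0)) (.void 9 ⟨⟨0, 0, 0, 0, 0, 0, 0, 0, 0, ⟨0, 0⟩, 0⟩, 0, 100000⟩ 0 0)) (.void 9 ⟨⟨0, 0, 0, 0, 0, 0, 0, 0, 0, ⟨0, 0⟩, 0⟩, 0, 100000⟩ 0 0)))) (.cut .v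 25165824 (.cut .v 20971520 (.cut .d 1811154 (.cut .d 905577 (.cut .v 18874368 (.cut .d 452788 (.cut .v 17825792 (.cut .d 226394 (.pos 29 .pp ⟨⟨256340, 0, 0, 0, 0, 0, 0, 0, 0, ⟨0, 0⟩, 0⟩, 0, 152329⟩ 0 0) (.pos 29 .pp ⟨⟨0, 0, 0, 0, 0, 0, 0, 0, 0, ⟨0, 0⟩, 0⟩, 0, 418533⟩ 0 0)) (.void 30 ⟨⟨78544, 0, 0, 0, 0, 0, 0, 0, 0, ⟨0, 0⟩, 0⟩, 0, 21456⟩ 0 0)) (.void 27 ⟨⟨0, 0, 0, 0, 0, 0, 3710, 0, 0, ⟨0, 0⟩, 0⟩, 0, 96290⟩ 0 0)) (.void 28 ⟨⟨0, 0, 0, 0, 0, 0, 0, 0, 0, ⟨0, 0⟩, 0⟩, 19432, 80568⟩ 0 0)) (.void 25 ⟨⟨0, 0, 0, 0, 0, 0, 0, 0, 0, ⟨0, 0⟩, 0⟩, 392, 99608⟩ 0 0)) (.void 25 ⟨⟨0, 0, 0, 0, 0, 0, 0, 0, 0, ⟨0, 0⟩, 0⟩, 355, 99645⟩ 0 0)) (.void 26 ⟨⟨0,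 0, 0, 0, 0, 0, 0, 0, 0, ⟨0, 0⟩, 0⟩, 19432, 80568⟩ 0 0)) (.void 24 ⟨⟨0, 0, 0, 0, 0, 0, 0, 0, 0, ⟨0, 0⟩, 0⟩, 19432, 80568⟩ 0 0)))),
    by decide +kernel⟩

def covers4 : cell.Covers Vale.Agent.P237.Petty.Cor.Grid.N16.table row4.1 :=
  ⟨(.cut .d 0 (.cut .v 16777216 (.cut .v 8388608 (.void 2 ⟨⟨0, 0, 0, 0, 50000, 50000, 0, 0, 0, ⟨0, 0⟩, 0⟩, 0, 0⟩ 0 0) (.cut .d (-8388608) (.void 3 ⟨⟨0, 0, 0, 0, 0, 100000, 0, 0, 0, ⟨0, 0⟩, 0⟩, 0, 0⟩ 0 0) (.cut .v 12582912 (.pos 8 .mm ⟨⟨0, 0, 0, 0, 0, 23685621, 0, 0, 0, ⟨0, 0⟩, 0⟩, 0, 0⟩ 0 0) (.cut .d (-4194304) (.void 9 ⟨⟨0, 0, 0, 0, 0, 100000, 0, 0, 0, ⟨0, 0⟩, 0⟩, 0, 0⟩ 0 0) (.cut .d (-2097152) (.void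 9 ⟨⟨0, 0, 0, 0, 0, 100000, 0, 0, 0, ⟨0, 0⟩, 0⟩, 0, 0⟩ 0 0) (.cut .d (-1048576) (.void 9 ⟨⟨0, 0, 0, 0, 0, 100000, 0, 0, 0, ⟨0, 0⟩, 0⟩, 0, 0⟩ 0 0) (.cut .v 14680064 (.pos 12 .mm ⟨⟨0, 0, 0, 0, 0, 4058316, 0, 0, 0, ⟨0, 0⟩, 0⟩, 0, 0⟩ 0 0) (.cut .d (-524288) (.void 13 ⟨⟨0, 0, 0, 0, 0, 100000, 0, 0, 0, ⟨0, 0⟩, 0⟩, 0, 0⟩ 0 0) (.cut .d (-262144) (.void 13 ⟨⟨0, 0, 0, 0, 0, 100000, 0, 0, 0, ⟨0, 0⟩, 0⟩, 0, 0⟩ 0 0) (.cut .d (-131072) (.void 13 ⟨⟨0, 0, 0, 0, 0, 100000, 0, 0, 0, ⟨0, 0⟩, 0⟩, 0, 0⟩ 0 0) (.cut .v 15728640 (.pos 20 .mm ⟨⟨0, 0, 0, 0, 0, 978610, 0, 0, 0, ⟨0, 0⟩, 0⟩, 0, 0⟩ 0 0) (.cut .v 16252928 (.pos 41 .mm ⟨⟨0, 0, 0, 0, 0, 1794190,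 0, 0, 0, ⟨0, 0⟩, 0⟩, 0, 0⟩ 0 0) (.cut .s 4882432 (.cut .d (-65536) (.pos 42 .mm ⟨⟨0, 0, 0, 0, 0, 2179916, 0, 0, 0, ⟨0, 0⟩, 0⟩, 0, 0⟩ 0 0) (.cut .s 4702208 (.pos 42 .mm ⟨⟨0, 0, 0, 0, 0, 1646711, 0, 0, 0, ⟨0, 0⟩, 0⟩, 0, 0⟩ 0 0) (.pos 42 .mm ⟨⟨0, 0, 0, 0, 0, 1993365, 0, 0, 0, ⟨0, 0⟩, 0⟩, 0, 0⟩ 0 0))) (.cut .v 16515072 (.pos 43 .mm ⟨⟨0, 0, 0, 0, 0, 2530464, 0, 0, 0, ⟨0, 0⟩, 0⟩, 0, 0⟩ 0 0) (.cut .d (-65536) (.cut .s 5062656 (.pos 44 .mm ⟨⟨0, 0, 0, 0, 0, 2767894, 0, 0, 0, ⟨0, 0⟩, 0⟩, 0, 0⟩ 0 0) (.pos 44 .mm ⟨⟨0, 0, 0, 0, 0, 3324324, 0, 0, 0, ⟨0, 0⟩, 0⟩, 0, 0⟩ 0 0)) (.cut .s 5062656 (.pos 44 .mm ⟨⟨0, 0, 0, 0, 0, 2419035, 0, 0, 0, ⟨0,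 0⟩, 0⟩, 0, 0⟩ 0 0) (.pos 44 .mm ⟨⟨0, 0, 0, 0, 0, 2923955, 0, 0, 0, ⟨0, 0⟩, 0⟩, 0, 0⟩ 0 0))))))))))))))))) (.cut .v 25165824 (.cut .d (-8388608) (.void 23 ⟨⟨0, 0, 0, 0, 0, 100000, 0, 0, 0, ⟨0, 0⟩, 0⟩, 0, 0⟩ 0 0) (.cut .d (-4194304) (.void 23 ⟨⟨0, 0, 0, 0, 0, 100000, 0, 0, 0, ⟨0, 0⟩, 0⟩, 0, 0⟩ 0 0) (.cut .d (-2097152) (.void 23 ⟨⟨0, 0, 0, 0, 0, 100000, 0, 0, 0, ⟨0, 0⟩, 0⟩, 0, 0⟩ 0 0) (.cut .v 20971520 (.cut .d (-1048576) (.void 25 ⟨⟨0, 0, 0, 0, 0, 100000, 0, 0, 0, ⟨0, 0⟩, 0⟩, 0, 0⟩ 0 0) (.cut .d (-524288) (.void 25 ⟨⟨0, 0, 0, 0, 0, 100000, 0, 0, 0, ⟨0, 0⟩, 0⟩, 0, 0⟩ 0 0) (.cut .d (-262144) (.void 25 ⟨⟨0, 0, 0, 0, 0, 100000, 0, 0,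 0, ⟨0, 0⟩, 0⟩, 0, 0⟩ 0 0) (.cut .v 18874368 (.cut .d (-131072) (.void 27 ⟨⟨0, 0, 0, 0, 0, 100000, 0, 0, 0, ⟨0, 0⟩, 0⟩, 0, 0⟩ 0 0) (.cut .v 17825792 (.cut .v 17301504 (.cut .v 17039360 (.cut .v 16908288 (.cut .s 4882432 (.cut .d (-65536) (.cut .s 4702208 (.pos 35 .mp ⟨⟨201156, 0, 0, 0, 0, 1822051, 0, 0, 0, ⟨0, 0⟩, 0⟩, 0, 0⟩ 0 0) (.pos 35 .mp ⟨⟨284760, 0, 0, 0, 0, 2171860, 0, 0, 0, ⟨0, 0⟩, 0⟩, 0, 0⟩ 0 0)) (.cut .s 4702208 (.pos 35 .mp ⟨⟨315378, 0, 0, 0, 0, 1410265, 0, 0, 0, ⟨0, 0⟩, 0⟩, 0, 0⟩ 0 0) (.cut .s 4792320 (.pos 35 .mp ⟨⟨497771, 0, 0, 0, 0, 1539871, 0, 0, 0, ⟨0, 0⟩, 0⟩, 0, 0⟩ 0 0) (.pos 35 .mp ⟨⟨527163, 0, 0, 0, 0, 1708964,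 0, 0, 0, ⟨0, 0⟩, 0⟩, 0, 0⟩ 0 0)))) (.cut .d (-65536) (.cut .s 5062656 (.pos 35 .mp ⟨⟨412259, 0, 0, 0, 0, 2563265, 0, 0, 0, ⟨0, 0⟩, 0⟩, 0, 0⟩ 0 0) (.pos 35 .mp ⟨⟨582257, 0, 0, 0, 0, 2996120, 0, 0, 0, ⟨0, 0⟩, 0⟩, 0, 0⟩ 0 0)) (.cut .v 16842752 (.cut .l 115343 (.cut .s 5062656 (.cut .s 4972544 (.pos 37 .mp ⟨⟨617810, 0, 0, 0, 0, 1836616, 0, 0, 0, ⟨0, 0⟩, 0⟩, 0, 0⟩ 0 0) (.pos 37 .mp ⟨⟨674308, 0, 0, 0, 0, 2024309, 0, 0, 0, ⟨0, 0⟩, 0⟩, 0, 0⟩ 0 0)) (.cut .s 5152768 (.pos 37 .mp ⟨⟨753189, 0, 0, 0, 0, 2212697, 0, 0, 0, ⟨0, 0⟩, 0⟩, 0, 0⟩ 0 0) (.pos 37 .mp ⟨⟨857371, 0, 0, 0, 0, 2398776, 0, 0, 0, ⟨0, 0⟩, 0⟩, 0, 0⟩ 0 0))) (.pos 37 .mp ⟨⟨810750,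 0, 0, 0, 0, 1618650, 0, 0, 0, ⟨0, 0⟩, 0⟩, 0, 0⟩ 0 0)) (.pos 38 .mp ⟨⟨3442658, 0, 0, 0, 0, 0, 0, 0, 0, ⟨0, 0⟩, 0⟩, 0, 0⟩ 0 0)))) (.pos 36 .mp ⟨⟨3762582, 0, 0, 0, 0, 0, 0, 0, 0, ⟨0, 0⟩, 0⟩, 0, 0⟩ 0 0)) (.void 34 ⟨⟨100000, 0, 0, 0, 0, 0, 0, 0, 0, ⟨0, 0⟩, 0⟩, 0, 0⟩ 0 0)) (.void 32 ⟨⟨100000, 0, 0, 0, 0, 0, 0, 0, 0, ⟨0, 0⟩, 0⟩, 0, 0⟩ 0 0)) (.void 30 ⟨⟨100000, 0, 0, 0, 0, 0, 0, 0, 0, ⟨0, 0⟩, 0⟩, 0, 0⟩ 0 0))) (.void 28 ⟨⟨100000, 0, 0, 0, 0, 0, 0, 0, 0, ⟨0, 0⟩, 0⟩, 0, 0⟩ 0 0))))) (.void 26 ⟨⟨100000, 0, 0, 0, 0, 0, 0, 0, 0, ⟨0, 0⟩, 0⟩, 0, 0⟩ 0 0))))) (.void 24 ⟨⟨0, 0, 0, 0, 0, 0, 100000, 0, 0, ⟨0, 0⟩, 0⟩, 0, 0⟩ 0 0))) (.cut .v 16777216 (.cut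 .v 8388608 (.void 2 ⟨⟨0, 0, 0, 0, 100000, 0, 0, 0, 0, ⟨0, 0⟩, 0⟩, 0, 0⟩ 0 0) (.cut .d 2397393 (.cut .v 12582912 (.pos 8 .pm ⟨⟨0, 0, 0, 0, 0, 0, 0, 0, 0, ⟨0, 0⟩, 0⟩, 0, 3678360⟩ 0 0) (.cut .d 1198696 (.cut .d 599348 (.cut .v 14680064 (.pos 12 .pm ⟨⟨0, 0, 0, 0, 0, 0, 0, 0, 0, ⟨0, 0⟩, 0⟩, 0, 964126⟩ 0 0) (.cut .d 299674 (.cut .v 15728640 (.pos 20 .pm ⟨⟨0, 0, 0, 0, 0, 0, 0, 0, 0, ⟨0, 0⟩, 0⟩, 0, 289858⟩ 0 0) (.pos 21 .pm ⟨⟨0, 0, 0, 0, 0, 0, 0, 0, 0, ⟨0, 0⟩, 0⟩, 0, 160907⟩ 0 0)) (.cut .v 15728640 (.pos 20 .pm ⟨⟨0, 0, 0, 0, 0, 0, 0, 0, 0, ⟨0, 0⟩, 0⟩, 0, 1185586⟩ 0 0) (.pos 21 .pm ⟨⟨0, 0, 0, 0, 0, 0, 0, 0, 0, ⟨0, 0⟩, 0⟩, 0, 997809⟩ 0 0))))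 (.void 9 ⟨⟨0, 0, 0, 0, 0, 0, 0, 0, 0, ⟨0, 0⟩, 0⟩, 0, 100000⟩ 0 0)) (.void 9 ⟨⟨0, 0, 0, 0, 0, 0, 0, 0, 0, ⟨0, 0⟩, 0⟩, 0, 100000⟩ 0 0))) (.void 3 ⟨⟨0, 0, 0, 0, 0, 0, 0, 0, 0, ⟨0, 0⟩, 0⟩, 0, 100000⟩ 0 0))) (.cut .v 25165824 (.cut .v 20971520 (.cut .d 2397393 (.cut .d 1198696 (.cut .v 18874368 (.cut .d 599348 (.cut .d 299674 (.cut .v 17825792 (.cut .s 4882432 (.pos 29 .pp ⟨⟨614405, 0, 0, 0, 0, 0, 0, 0, 0, ⟨0, 0⟩, 0⟩, 0, 142205⟩ 0 0) (.pos 29 .pp ⟨⟨1157933, 0, 0, 0, 0, 0, 0, 0, 0, ⟨0, 0⟩, 0⟩, 0, 112184⟩ 0 0)) (.void 30 ⟨⟨100000, 0, 0, 0, 0, 0, 0, 0, 0, ⟨0, 0⟩, 0⟩, 0, 0⟩ 0 0)) (.pos 27 .pp ⟨⟨322161, 0, 0, 0, 0, 0, 0, 0, 0, ⟨0, 0⟩, 0⟩,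 0, 810236⟩ 0 0)) (.void 27 ⟨⟨0, 0, 0, 0, 0, 0, 0, 0, 0, ⟨0, 0⟩, 0⟩, 741, 99259⟩ 0 0)) (.void 28 ⟨⟨0, 0, 0, 0, 0, 0, 0, 0, 0, ⟨0, 0⟩, 0⟩, 19025, 80975⟩ 0 0)) (.void 25 ⟨⟨0, 0, 0, 0, 0, 0, 0, 0, 0, ⟨0, 0⟩, 0⟩, 488, 99512⟩ 0 0)) (.void 25 ⟨⟨0, 0, 0, 0, 0, 0, 0, 0, 0, ⟨0, 0⟩, 0⟩, 0, 100000⟩ 0 0)) (.void 26 ⟨⟨0, 0, 0, 0, 0, 0, 0, 0, 0, ⟨0, 0⟩, 0⟩, 19025, 80975⟩ 0 0)) (.void 24 ⟨⟨0, 0, 0, 0, 0, 0, 0, 0, 0, ⟨0, 0⟩, 0⟩, 19025, 80975⟩ 0 0)))),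
    by decide +kernel⟩

def covers5 : cell.Covers Vale.Agent.P237.Petty.Cor.Grid.N16.table row5.1 :=
  ⟨(.cut .d 0 (.cut .v 16777216 (.cut .d (-8388608) (.void 1 ⟨⟨0, 0, 0, 0, 0, 100000, 0, 0, 0, ⟨0, 0⟩, 0⟩, 0, 0⟩ 0 0) (.cut .d (-4194304) (.void 1 ⟨⟨0, 0, 0, 0, 0, 100000, 0, 0, 0, ⟨0, 0⟩, 0⟩, 0, 0⟩ 0 0) (.cut .d (-2097152) (.void 1 ⟨⟨0, 0, 0, 0, 0, 100000, 0, 0, 0, ⟨0, 0⟩, 0⟩, 0, 0⟩ 0 0) (.cut .d (-1048576) (.void 1 ⟨⟨0, 0, 0, 0, 0, 100000, 0, 0, 0, ⟨0, 0⟩, 0⟩, 0, 0⟩ 0 0) (.cut .d (-524288) (.void 1 ⟨⟨0, 0, 0, 0, 0, 100000, 0, 0, 0, ⟨0, 0⟩, 0⟩, 0, 0⟩ 0 0) (.cut .d (-262144) (.void 1 ⟨⟨0, 0, 0, 0, 0, 100000, 0, 0, 0, ⟨0, 0⟩, 0⟩,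 0, 0⟩ 0 0) (.cut .d (-131072) (.void 1 ⟨⟨0, 0, 0, 0, 0, 100000, 0, 0, 0, ⟨0, 0⟩, 0⟩, 0, 0⟩ 0 0) (.cut .v 8388608 (.cut .v 4194304 (.void 4 ⟨⟨0, 0, 50000, 0, 50000, 0, 0, 0, 0, ⟨0, 0⟩, 0⟩, 0, 0⟩ 0 0) (.void 5 ⟨⟨0, 0, 0, 0, 0, 0, 0, 0, 100000, ⟨0, 0⟩, 9975792⟩, 0, 0⟩ 0 0)) (.cut .v 12582912 (.pos 8 .mm ⟨⟨0, 0, 0, 0, 0, 477045, 0, 0, 0, ⟨0, 0⟩, 0⟩, 0, 0⟩ 0 0) (.cut .v 14680064 (.pos 12 .mm ⟨⟨0, 0, 0, 0, 0, 1232026, 0, 0, 0, ⟨0, 0⟩, 0⟩, 0, 0⟩ 0 0) (.cut .v 15728640 (.pos 20 .mm ⟨⟨0, 0, 0, 0, 0, 2124081, 0, 0, 0, ⟨0, 0⟩, 0⟩, 0, 0⟩ 0 0) (.cut .v 16252928 (.pos 41 .mm ⟨⟨0, 0, 0, 0, 0, 3849293, 0, 0, 0, ⟨0, 0⟩, 0⟩, 0, 0⟩ 0 0) (.cut .s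 5636096 (.cut .d (-65536) (.pos 42 .mm ⟨⟨0, 0, 0, 0, 0, 4682901, 0, 0, 0, ⟨0, 0⟩, 0⟩, 0, 0⟩ 0 0) (.cut .v 16515072 (.pos 43 .mm ⟨⟨0, 0, 0, 0, 0, 3201246, 0, 0, 0, ⟨0, 0⟩, 0⟩, 0, 0⟩ 0 0) (.cut .v 16646144 (.pos 51 .mm ⟨⟨0, 0, 0, 0, 0, 3612762, 0, 0, 0, ⟨0, 0⟩, 0⟩, 0, 0⟩ 0 0) (.cut .l 115343 (.cut .d (-32768) (.pos 52 .mm ⟨⟨0, 0, 0, 0, 0, 4479817, 0, 0, 0, ⟨0, 0⟩, 0⟩, 0, 0⟩ 0 0) (.cut .s 5439488 (.pos 52 .mm ⟨⟨0, 0, 0, 0, 0, 3484436, 0, 0, 0, ⟨0, 0⟩, 0⟩, 0, 0⟩ 0 0) (.pos 52 .mm ⟨⟨0, 0, 0, 0, 0, 4194259, 0, 0, 0, ⟨0, 0⟩, 0⟩, 0, 0⟩ 0 0))) (.pos 52 .mm ⟨⟨0, 0, 0, 0, 0, 3366918, 0, 0, 0, ⟨0, 0⟩, 0⟩, 0, 0⟩ 0 0))))) (.cut .d (-65536) (.pos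 42 .mm ⟨⟨0, 0, 0, 0, 0, 6724887, 0, 0, 0, ⟨0, 0⟩, 0⟩, 0, 0⟩ 0 0) (.cut .v 16515072 (.pos 43 .mm ⟨⟨0, 0, 0, 0, 0, 4770180, 0, 0, 0, ⟨0, 0⟩, 0⟩, 0, 0⟩ 0 0) (.cut .v 16646144 (.pos 51 .mm ⟨⟨0, 0, 0, 0, 0, 5236658, 0, 0, 0, ⟨0, 0⟩, 0⟩, 0, 0⟩ 0 0) (.cut .l 115343 (.cut .d (-32768) (.pos 52 .mm ⟨⟨0, 0, 0, 0, 0, 6521290, 0, 0, 0, ⟨0, 0⟩, 0⟩, 0, 0⟩ 0 0) (.cut .s 5832704 (.cut .s 5734400 (.pos 52 .mm ⟨⟨0, 0, 0, 0, 0, 4884909, 0, 0, 0, ⟨0, 0⟩, 0⟩, 0, 0⟩ 0 0) (.pos 52 .mm ⟨⟨0, 0, 0, 0, 0, 5366769, 0, 0, 0, ⟨0, 0⟩, 0⟩, 0, 0⟩ 0 0)) (.pos 52 .mm ⟨⟨0, 0, 0, 0, 0, 6091990, 0, 0, 0, ⟨0, 0⟩, 0⟩, 0, 0⟩ 0 0))) (.pos 52 .mm ⟨⟨0, 0, 0, 0, 0, 4959494,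 0, 0, 0, ⟨0, 0⟩, 0⟩, 0, 0⟩ 0 0)))))))))))))))))) (.cut .v 25165824 (.cut .d (-8388608) (.void 23 ⟨⟨0, 0, 0, 0, 0, 100000, 0, 0, 0, ⟨0, 0⟩, 0⟩, 0, 0⟩ 0 0) (.cut .d (-4194304) (.void 23 ⟨⟨0, 0, 0, 0, 0, 100000, 0, 0, 0, ⟨0, 0⟩, 0⟩, 0, 0⟩ 0 0) (.cut .d (-2097152) (.void 23 ⟨⟨0, 0, 0, 0, 0, 100000, 0, 0, 0, ⟨0, 0⟩, 0⟩, 0, 0⟩ 0 0) (.cut .v 20971520 (.cut .d (-1048576) (.void 25 ⟨⟨0, 0, 0, 0, 0, 100000, 0, 0, 0, ⟨0, 0⟩, 0⟩, 0, 0⟩ 0 0) (.cut .d (-524288) (.void 25 ⟨⟨0, 0, 0, 0, 0, 100000, 0, 0, 0, ⟨0, 0⟩, 0⟩, 0, 0⟩ 0 0) (.cut .d (-262144) (.void 25 ⟨⟨0, 0, 0, 0, 0, 100000, 0, 0, 0, ⟨0, 0⟩, 0⟩, 0, 0⟩ 0 0) (.cut .v 18874368 (.cut .d (-131072)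 (.void 27 ⟨⟨0, 0, 0, 0, 0, 100000, 0, 0, 0, ⟨0, 0⟩, 0⟩, 0, 0⟩ 0 0) (.cut .v 17825792 (.cut .v 17301504 (.cut .v 17039360 (.cut .v 16908288 (.cut .d (-65536) (.cut .d (-98304) (.void 35 ⟨⟨0, 0, 0, 0, 0, 100000, 0, 0, 0, ⟨0, 0⟩, 0⟩, 0, 0⟩ 0 0) (.cut .l 115343 (.void 35 ⟨⟨0, 0, 0, 0, 0, 100000, 0, 0, 0, ⟨0, 0⟩, 0⟩, 0, 0⟩ 0 0) (.cut .s 5636096 (.cut .s 5439488 (.pos 35 .mp ⟨⟨796315, 0, 0, 0, 0, 3437672, 0, 0, 0, ⟨0, 0⟩, 0⟩, 0, 0⟩ 0 0) (.pos 35 .mp ⟨⟨1089267, 0, 0, 0, 0, 4015060, 0, 0, 0, ⟨0, 0⟩, 0⟩, 0, 0⟩ 0 0)) (.cut .s 5832704 (.pos 35 .mp ⟨⟨1462152, 0, 0, 0, 0, 4668548, 0, 0, 0, ⟨0, 0⟩, 0⟩, 0, 0⟩ 0 0) (.pos 35 .mp ⟨⟨1917429, 0, 0,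 0, 0, 5391075, 0, 0, 0, ⟨0, 0⟩, 0⟩, 0, 0⟩ 0 0))))) (.cut .s 5636096 (.cut .v 16842752 (.cut .s 5439488 (.cut .s 5341184 (.pos 37 .mp ⟨⟨978172, 0, 0, 0, 0, 2613630, 0, 0, 0, ⟨0, 0⟩, 0⟩, 0, 0⟩ 0 0) (.cut .s 5390336 (.pos 37 .mp ⟨⟨1269126, 0, 0, 0, 0, 2618968, 0, 0, 0, ⟨0, 0⟩, 0⟩, 0, 0⟩ 0 0) (.pos 37 .mp ⟨⟨1303311, 0, 0, 0, 0, 2756628, 0, 0, 0, ⟨0, 0⟩, 0⟩, 0, 0⟩ 0 0))) (.cut .s 5537792 (.cut .s 5488640 (.pos 37 .mp ⟨⟨1344103, 0, 0, 0, 0, 2898622, 0, 0, 0, ⟨0, 0⟩, 0⟩, 0, 0⟩ 0 0) (.pos 37 .mp ⟨⟨1392458, 0, 0, 0, 0, 3044074, 0, 0, 0, ⟨0, 0⟩, 0⟩, 0, 0⟩ 0 0)) (.cut .s 5586944 (.pos 37 .mp ⟨⟨1449333, 0, 0, 0, 0, 3192086, 0, 0, 0, ⟨0, 0⟩,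 0⟩, 0, 0⟩ 0 0) (.pos 37 .mp ⟨⟨1516149, 0, 0, 0, 0, 3341355, 0, 0, 0, ⟨0, 0⟩, 0⟩, 0, 0⟩ 0 0)))) (.pos 38 .mp ⟨⟨4904492, 0, 0, 0, 0, 0, 0, 0, 0, ⟨0, 0⟩, 0⟩, 0, 0⟩ 0 0)) (.cut .s 5832704 (.cut .v 16842752 (.cut .s 5734400 (.cut .s 5685248 (.pos 37 .mp ⟨⟨1623980, 0, 0, 0, 0, 3465596, 0, 0, 0, ⟨0, 0⟩, 0⟩, 0, 0⟩ 0 0) (.pos 37 .mp ⟨⟨1737110, 0, 0, 0, 0, 3594478, 0, 0, 0, ⟨0, 0⟩, 0⟩, 0, 0⟩ 0 0)) (.cut .s 5783552 (.pos 37 .mp ⟨⟨1855581, 0, 0, 0, 0, 3727883, 0, 0, 0, ⟨0, 0⟩, 0⟩, 0, 0⟩ 0 0) (.pos 37 .mp ⟨⟨1979436, 0, 0, 0, 0, 3865689, 0, 0, 0, ⟨0, 0⟩, 0⟩, 0, 0⟩ 0 0))) (.pos 38 .mp ⟨⟨6013772, 0, 0, 0, 0, 0, 0, 0, 0, ⟨0, 0⟩, 0⟩, 0, 0⟩ 0 0))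 (.cut .v 16842752 (.cut .s 5931008 (.cut .s 5881856 (.pos 37 .mp ⟨⟨2108722, 0, 0, 0, 0, 4007773, 0, 0, 0, ⟨0, 0⟩, 0⟩, 0, 0⟩ 0 0) (.pos 37 .mp ⟨⟨2243482, 0, 0, 0, 0, 4154006, 0, 0, 0, ⟨0, 0⟩, 0⟩, 0, 0⟩ 0 0)) (.cut .s 5980160 (.pos 37 .mp ⟨⟨2383764, 0, 0, 0, 0, 4304255, 0, 0, 0, ⟨0, 0⟩, 0⟩, 0, 0⟩ 0 0) (.pos 37 .mp ⟨⟨2529616, 0, 0, 0, 0, 4458384, 0, 0, 0, ⟨0, 0⟩, 0⟩, 0, 0⟩ 0 0))) (.pos 38 .mp ⟨⟨7094278, 0, 0, 0, 0, 0, 0, 0, 0, ⟨0, 0⟩, 0⟩, 0, 0⟩ 0 0))))) (.pos 36 .mp ⟨⟨7418937, 0, 0, 0, 0, 0, 0, 0, 0, ⟨0, 0⟩, 0⟩, 0, 0⟩ 0 0)) (.void 34 ⟨⟨100000, 0, 0, 0, 0, 0, 0, 0, 0, ⟨0, 0⟩, 0⟩, 0, 0⟩ 0 0)) (.void 32 ⟨⟨100000, 0, 0, 0, 0, 0, 0, 0,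 0, ⟨0, 0⟩, 0⟩, 0, 0⟩ 0 0)) (.void 30 ⟨⟨100000, 0, 0, 0, 0, 0, 0, 0, 0, ⟨0, 0⟩, 0⟩, 0, 0⟩ 0 0))) (.void 28 ⟨⟨100000, 0, 0, 0, 0, 0, 0, 0, 0, ⟨0, 0⟩, 0⟩, 0, 0⟩ 0 0))))) (.void 26 ⟨⟨100000, 0, 0, 0, 0, 0, 0, 0, 0, ⟨0, 0⟩, 0⟩, 0, 0⟩ 0 0))))) (.void 24 ⟨⟨0, 0, 0, 0, 0, 0, 100000, 0, 0, ⟨0, 0⟩, 0⟩, 0, 0⟩ 0 0))) (.cut .v 16777216 (.cut .d 3208480 (.cut .d 1604240 (.cut .d 802120 (.cut .v 8388608 (.cut .v 4194304 (.void 4 ⟨⟨0, 0, 39215, 0, 60785, 0, 0, 0, 0, ⟨0, 0⟩, 0⟩, 0, 0⟩ 0 0) (.void 5 ⟨⟨0, 0, 0, 0, 0, 0, 0, 0, 100000, ⟨0, 0⟩, 9975792⟩, 0, 0⟩ 0 0)) (.cut .v 12582912 (.pos 8 .pm ⟨⟨0, 0, 0, 0, 0, 0, 0, 0, 0, ⟨0, 0⟩, 0⟩, 0, 1360747⟩ 0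 0) (.cut .v 14680064 (.pos 12 .pm ⟨⟨0, 0, 0, 0, 0, 0, 0, 0, 0, ⟨0, 0⟩, 0⟩, 0, 1015102⟩ 0 0) (.cut .d 401060 (.pos 13 .pm ⟨⟨0, 0, 0, 0, 0, 0, 0, 0, 0, ⟨0, 0⟩, 0⟩, 0, 106511⟩ 0 0) (.pos 13 .pm ⟨⟨0, 0, 0, 0, 0, 0, 0, 0, 0, ⟨0, 0⟩, 0⟩, 0, 8000066⟩ 0 0))))) (.void 1 ⟨⟨0, 0, 0, 0, 0, 0, 0, 0, 0, ⟨0, 0⟩, 0⟩, 0, 100000⟩ 0 0)) (.void 1 ⟨⟨0, 0, 0, 0, 0, 0, 0, 0, 0, ⟨0, 0⟩, 0⟩, 0, 100000⟩ 0 0)) (.void 1 ⟨⟨0, 0, 0, 0, 0, 0, 0, 0, 0, ⟨0, 0⟩, 0⟩, 0, 100000⟩ 0 0)) (.cut .v 25165824 (.cut .d 3208480 (.cut .v 20971520 (.cut .d 1604240 (.cut .d 802120 (.cut .v 18874368 (.cut .d 401060 (.cut .d 200530 (.cut .s 5636096 (.pos 27 .pp ⟨⟨2836031, 0, 0,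 0, 0, 0, 0, 0, 0, ⟨0, 0⟩, 0⟩, 0, 69112⟩ 0 0) (.pos 27 .pp ⟨⟨4267692, 0, 0, 0, 0, 0, 0, 0, 0, ⟨0, 0⟩, 0⟩, 0, 36407⟩ 0 0)) (.pos 27 .pp ⟨⟨2079978, 0, 0, 0, 0, 0, 0, 0, 0, ⟨0, 0⟩, 0⟩, 0, 439540⟩ 0 0)) (.pos 27 .pp ⟨⟨951549, 0, 0, 0, 0, 0, 0, 0, 0, ⟨0, 0⟩, 0⟩, 0, 1421249⟩ 0 0)) (.void 28 ⟨⟨73101, 0, 0, 0, 0, 0, 0, 0, 0, ⟨0, 0⟩, 0⟩, 0, 26899⟩ 0 0)) (.void 25 ⟨⟨0, 0, 0, 0, 0, 0, 0, 0, 0, ⟨0, 0⟩, 0⟩, 979, 99021⟩ 0 0)) (.void 25 ⟨⟨0, 0, 0, 0, 0, 0, 0, 0, 0, ⟨0, 0⟩, 0⟩, 0, 100000⟩ 0 0)) (.void 26 ⟨⟨0, 0, 0, 0, 0, 0, 0, 0, 0, ⟨0, 0⟩, 0⟩, 18362, 81638⟩ 0 0)) (.void 23 ⟨⟨0, 0, 0, 0, 0, 0, 0, 0, 0, ⟨0, 0⟩, 0⟩, 0, 100000⟩ 0 0)) (.void 24 ⟨⟨0,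 0, 0, 0, 0, 0, 0, 0, 0, ⟨0, 0⟩, 0⟩, 18362, 81638⟩ 0 0)))),
    by decide +kernel⟩

def covers6 : cell.Covers Vale.Agent.P237.Petty.Cor.Grid.N16.table row6.1 :=
  ⟨(.cut .d 0 (.cut .v 16777216 (.cut .d (-8388608) (.void 1 ⟨⟨0, 0, 0, 0, 0, 100000, 0, 0, 0, ⟨0, 0⟩, 0⟩, 0, 0⟩ 0 0) (.cut .d (-4194304) (.void 1 ⟨⟨0, 0, 0, 0, 0, 100000, 0, 0, 0, ⟨0, 0⟩, 0⟩, 0, 0⟩ 0 0) (.cut .d (-2097152) (.void 1 ⟨⟨0, 0, 0, 0, 0, 100000, 0, 0, 0, ⟨0, 0⟩, 0⟩, 0, 0⟩ 0 0) (.cut .d (-1048576) (.void 1 ⟨⟨0, 0, 0, 0, 0, 100000, 0, 0, 0, ⟨0, 0⟩, 0⟩, 0, 0⟩ 0 0) (.cut .d (-524288) (.void 1 ⟨⟨0, 0, 0, 0, 0, 100000, 0, 0, 0, ⟨0, 0⟩, 0⟩, 0, 0⟩ 0 0) (.cut .d (-262144)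 (.void 1 ⟨⟨0, 0, 0, 0, 0, 100000, 0, 0, 0, ⟨0, 0⟩, 0⟩, 0, 0⟩ 0 0) (.cut .d (-131072) (.void 1 ⟨⟨0, 0, 0, 0, 0, 100000, 0, 0, 0, ⟨0, 0⟩, 0⟩, 0, 0⟩ 0 0) (.cut .v 8388608 (.cut .v 4194304 (.void 4 ⟨⟨0, 0, 100000, 0, 0, 0, 0, 0, 0, ⟨0, 0⟩, 0⟩, 0, 0⟩ 0 0) (.void 5 ⟨⟨0, 0, 0, 0, 0, 0, 0, 0, 100000, ⟨0, 0⟩, 9975792⟩, 0, 0⟩ 0 0)) (.cut .v 12582912 (.pos 8 .mm ⟨⟨0, 0, 0, 0, 0, 2796631, 0, 0, 0, ⟨0, 0⟩, 0⟩, 0, 0⟩ 0 0) (.cut .d (-65536) (.pos 9 .mm ⟨⟨0, 0, 0, 0, 0, 12883769, 0, 0, 0, ⟨0, 0⟩, 0⟩, 0, 0⟩ 0 0) (.cut .v 14680064 (.pos 12 .mm ⟨⟨0, 0, 0, 0, 0, 4071173, 0, 0, 0, ⟨0, 0⟩, 0⟩, 0, 0⟩ 0 0) (.cut .v 15728640 (.pos 20 .mm ⟨⟨0, 0, 0, 0,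 0, 5083968, 0, 0, 0, ⟨0, 0⟩, 0⟩, 0, 0⟩ 0 0) (.cut .v 16252928 (.pos 41 .mm ⟨⟨0, 0, 0, 0, 0, 5652688, 0, 0, 0, ⟨0, 0⟩, 0⟩, 0, 0⟩ 0 0) (.cut .v 16515072 (.pos 43 .mm ⟨⟨0, 0, 0, 0, 0, 7879895, 0, 0, 0, ⟨0, 0⟩, 0⟩, 0, 0⟩ 0 0) (.cut .s 6422528 (.cut .v 16646144 (.pos 51 .mm ⟨⟨0, 0, 0, 0, 0, 7589085, 0, 0, 0, ⟨0, 0⟩, 0⟩, 0, 0⟩ 0 0) (.cut .v 16711680 (.pos 53 .mm ⟨⟨0, 0, 0, 0, 0, 7833750, 0, 0, 0, ⟨0, 0⟩, 0⟩, 0, 0⟩ 0 0) (.cut .s 6225920 (.cut .s 6127616 (.pos 54 .mm ⟨⟨0, 0, 0, 0, 0, 7055898, 0, 0, 0, ⟨0, 0⟩, 0⟩, 0, 0⟩ 0 0) (.pos 54 .mm ⟨⟨0, 0, 0, 0, 0, 7698668, 0, 0, 0, ⟨0, 0⟩, 0⟩, 0, 0⟩ 0 0)) (.cut .s 6324224 (.pos 54 .mm ⟨⟨0, 0, 0,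 0, 0, 8361120, 0, 0, 0, ⟨0, 0⟩, 0⟩, 0, 0⟩ 0 0) (.pos 54 .mm ⟨⟨0, 0, 0, 0, 0, 9090669, 0, 0, 0, ⟨0, 0⟩, 0⟩, 0, 0⟩ 0 0))))) (.cut .v 16646144 (.pos 51 .mm ⟨⟨0, 0, 0, 0, 0, 10606282, 0, 0, 0, ⟨0, 0⟩, 0⟩, 0, 0⟩ 0 0) (.cut .v 16711680 (.pos 53 .mm ⟨⟨0, 0, 0, 0, 0, 10927055, 0, 0, 0, ⟨0, 0⟩, 0⟩, 0, 0⟩ 0 0) (.cut .s 6619136 (.cut .s 6520832 (.pos 54 .mm ⟨⟨0, 0, 0, 0, 0, 9887111, 0, 0, 0, ⟨0, 0⟩, 0⟩, 0, 0⟩ 0 0) (.pos 54 .mm ⟨⟨0, 0, 0, 0, 0, 10750201, 0, 0, 0, ⟨0, 0⟩, 0⟩, 0, 0⟩ 0 0)) (.cut .s 6717440 (.pos 54 .mm ⟨⟨0, 0, 0, 0, 0, 11679652, 0, 0, 0, ⟨0, 0⟩, 0⟩, 0, 0⟩ 0 0) (.pos 54 .mm ⟨⟨0, 0, 0, 0, 0, 12675139, 0, 0, 0, ⟨0, 0⟩, 0⟩, 0, 0⟩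 0 0)))))))))))))))))))) (.cut .v 25165824 (.cut .d (-8388608) (.void 23 ⟨⟨0, 0, 0, 0, 0, 100000, 0, 0, 0, ⟨0, 0⟩, 0⟩, 0, 0⟩ 0 0) (.cut .d (-4194304) (.void 23 ⟨⟨0, 0, 0, 0, 0, 100000, 0, 0, 0, ⟨0, 0⟩, 0⟩, 0, 0⟩ 0 0) (.cut .d (-2097152) (.void 23 ⟨⟨0, 0, 0, 0, 0, 100000, 0, 0, 0, ⟨0, 0⟩, 0⟩, 0, 0⟩ 0 0) (.cut .v 20971520 (.cut .d (-1048576) (.void 25 ⟨⟨0, 0, 0, 0, 0, 100000, 0, 0, 0, ⟨0, 0⟩, 0⟩, 0, 0⟩ 0 0) (.cut .d (-524288) (.void 25 ⟨⟨0, 0, 0, 0, 0, 100000, 0, 0, 0, ⟨0, 0⟩, 0⟩, 0, 0⟩ 0 0) (.cut .d (-262144) (.void 25 ⟨⟨0, 0, 0, 0, 0, 100000, 0, 0, 0, ⟨0, 0⟩, 0⟩, 0, 0⟩ 0 0) (.cut .v 18874368 (.cut .d (-131072) (.void 27 ⟨⟨0, 0,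 0, 0, 0, 100000, 0, 0, 0, ⟨0, 0⟩, 0⟩, 0, 0⟩ 0 0) (.cut .v 17825792 (.cut .v 17301504 (.cut .v 17039360 (.cut .v 16908288 (.cut .d (-65536) (.cut .s 6422528 (.cut .s 6225920 (.pos 35 .mp ⟨⟨2686148, 0, 0, 0, 0, 6361778, 0, 0, 0, ⟨0, 0⟩, 0⟩, 0, 0⟩ 0 0) (.pos 35 .mp ⟨⟨3421083, 0, 0, 0, 0, 7188925, 0, 0, 0, ⟨0, 0⟩, 0⟩, 0, 0⟩ 0 0)) (.void 35 ⟨⟨0, 0, 0, 0, 0, 100000, 0, 0, 0, ⟨0, 0⟩, 0⟩, 0, 0⟩ 0 0)) (.cut .s 6422528 (.cut .s 6225920 (.cut .v 16842752 (.cut .s 6127616 (.cut .s 6078464 (.pos 37 .mp ⟨⟨2683026, 0, 0, 0, 0, 4618282, 0, 0, 0, ⟨0, 0⟩, 0⟩, 0, 0⟩ 0 0) (.pos 37 .mp ⟨⟨2843096, 0, 0, 0, 0, 4746168, 0, 0, 0, ⟨0, 0⟩, 0⟩, 0, 0⟩ 0 0))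 (.cut .d (-32768) (.pos 37 .mp ⟨⟨2602840, 0, 0, 0, 0, 5706010, 0, 0, 0, ⟨0, 0⟩, 0⟩, 0, 0⟩ 0 0) (.cut .s 6176768 (.pos 37 .mp ⟨⟨3097246, 0, 0, 0, 0, 4736241, 0, 0, 0, ⟨0, 0⟩, 0⟩, 0, 0⟩ 0 0) (.pos 37 .mp ⟨⟨3198490, 0, 0, 0, 0, 4941520, 0, 0, 0, ⟨0, 0⟩, 0⟩, 0, 0⟩ 0 0)))) (.pos 38 .mp ⟨⟨8349300, 0, 0, 0, 0, 0, 0, 0, 0, ⟨0, 0⟩, 0⟩, 0, 0⟩ 0 0)) (.cut .v 16842752 (.cut .s 6324224 (.cut .d (-32768) (.cut .s 6275072 (.pos 37 .mp ⟨⟨2934354, 0, 0, 0, 0, 5815224, 0, 0, 0, ⟨0, 0⟩, 0⟩, 0, 0⟩ 0 0) (.pos 37 .mp ⟨⟨3111958, 0, 0, 0, 0, 5994558, 0, 0, 0, ⟨0, 0⟩, 0⟩, 0, 0⟩ 0 0)) (.cut .s 6275072 (.pos 37 .mp ⟨⟨3310838, 0, 0, 0, 0, 5152970, 0, 0, 0,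 ⟨0, 0⟩, 0⟩, 0, 0⟩ 0 0) (.pos 37 .mp ⟨⟨3435641, 0, 0, 0, 0, 5369270, 0, 0, 0, ⟨0, 0⟩, 0⟩, 0, 0⟩ 0 0))) (.cut .d (-32768) (.cut .s 6373376 (.pos 37 .mp ⟨⟨3297554, 0, 0, 0, 0, 6182491, 0, 0, 0, ⟨0, 0⟩, 0⟩, 0, 0⟩ 0 0) (.pos 37 .mp ⟨⟨3491215, 0, 0, 0, 0, 6378944, 0, 0, 0, ⟨0, 0⟩, 0⟩, 0, 0⟩ 0 0)) (.cut .s 6373376 (.pos 37 .mp ⟨⟨3625414, 0, 0, 0, 0, 5540413, 0, 0, 0, ⟨0, 0⟩, 0⟩, 0, 0⟩ 0 0) (.cut .s 6397952 (.pos 37 .mp ⟨⟨3975868, 0, 0, 0, 0, 5515843, 0, 0, 0, ⟨0, 0⟩, 0⟩, 0, 0⟩ 0 0) (.pos 37 .mp ⟨⟨4063770, 0, 0, 0, 0, 5620554, 0, 0, 0, ⟨0, 0⟩, 0⟩, 0, 0⟩ 0 0))))) (.pos 38 .mp ⟨⟨10190927, 0, 0, 0, 0, 0, 0, 0, 0, ⟨0, 0⟩, 0⟩, 0, 0⟩ 0 0)))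 (.cut .s 6619136 (.cut .v 16842752 (.cut .s 6520832 (.cut .d (-32768) (.cut .s 6471680 (.pos 37 .mp ⟨⟨3693015, 0, 0, 0, 0, 6583829, 0, 0, 0, ⟨0, 0⟩, 0⟩, 0, 0⟩ 0 0) (.pos 37 .mp ⟨⟨3903030, 0, 0, 0, 0, 6797056, 0, 0, 0, ⟨0, 0⟩, 0⟩, 0, 0⟩ 0 0)) (.cut .v 16809984 (.cut .l 115343 (.cut .d (-16384) (.pos 45 .mp ⟨⟨3799063, 0, 0, 0, 0, 6621270, 0, 0, 0, ⟨0, 0⟩, 0⟩, 0, 0⟩ 0 0) (.cut .s 6471680 (.pos 45 .mp ⟨⟨4067624, 0, 0, 0, 0, 5837545, 0, 0, 0, ⟨0, 0⟩, 0⟩, 0, 0⟩ 0 0) (.pos 45 .mp ⟨⟨4258427, 0, 0, 0, 0, 6055392, 0, 0, 0, ⟨0, 0⟩, 0⟩, 0, 0⟩ 0 0))) (.pos 45 .mp ⟨⟨3878456, 0, 0, 0, 0, 5681190, 0, 0, 0, ⟨0, 0⟩, 0⟩, 0, 0⟩ 0 0)) (.pos 46 .mp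 ⟨⟨10030639, 0, 0, 0, 0, 0, 0, 0, 0, ⟨0, 0⟩, 0⟩, 0, 0⟩ 0 0))) (.cut .d (-32768) (.cut .s 6569984 (.pos 37 .mp ⟨⟨4121339, 0, 0, 0, 0, 7018528, 0, 0, 0, ⟨0, 0⟩, 0⟩, 0, 0⟩ 0 0) (.pos 37 .mp ⟨⟨4348022, 0, 0, 0, 0, 7248139, 0, 0, 0, ⟨0, 0⟩, 0⟩, 0, 0⟩ 0 0)) (.cut .l 115343 (.cut .v 16809984 (.cut .d (-16384) (.pos 45 .mp ⟨⟨4097496, 0, 0, 0, 0, 7250411, 0, 0, 0, ⟨0, 0⟩, 0⟩, 0, 0⟩ 0 0) (.cut .s 6569984 (.pos 45 .mp ⟨⟨4468577, 0, 0, 0, 0, 6270901, 0, 0, 0, ⟨0, 0⟩, 0⟩, 0, 0⟩ 0 0) (.pos 45 .mp ⟨⟨4699493, 0, 0, 0, 0, 6482513, 0, 0, 0, ⟨0, 0⟩, 0⟩, 0, 0⟩ 0 0))) (.pos 46 .mp ⟨⟨12202317, 0, 0, 0, 0, 0, 0, 0, 0, ⟨0, 0⟩, 0⟩, 0, 0⟩ 0 0)) (.pos 37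 .mp ⟨⟨4501511, 0, 0, 0, 0, 5932497, 0, 0, 0, ⟨0, 0⟩, 0⟩, 0, 0⟩ 0 0)))) (.pos 38 .mp ⟨⟨11724032, 0, 0, 0, 0, 0, 0, 0, 0, ⟨0, 0⟩, 0⟩, 0, 0⟩ 0 0)) (.cut .v 16842752 (.cut .s 6717440 (.cut .d (-32768) (.cut .s 6668288 (.pos 37 .mp ⟨⟨4583161, 0, 0, 0, 0, 7485782, 0, 0, 0, ⟨0, 0⟩, 0⟩, 0, 0⟩ 0 0) (.pos 37 .mp ⟨⟨4826838, 0, 0, 0, 0, 7731341, 0, 0, 0, ⟨0, 0⟩, 0⟩, 0, 0⟩ 0 0)) (.cut .l 115343 (.cut .v 16809984 (.cut .d (-16384) (.pos 45 .mp ⟨⟨4559817, 0, 0, 0, 0, 7745633, 0, 0, 0, ⟨0, 0⟩, 0⟩, 0, 0⟩ 0 0) (.cut .s 6668288 (.pos 45 .mp ⟨⟨4952611, 0, 0, 0, 0, 6688628, 0, 0, 0, ⟨0, 0⟩, 0⟩, 0, 0⟩ 0 0) (.pos 45 .mp ⟨⟨5229377, 0, 0, 0, 0, 6887605,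 0, 0, 0, ⟨0, 0⟩, 0⟩, 0, 0⟩ 0 0))) (.pos 46 .mp ⟨⟨13072529, 0, 0, 0, 0, 0, 0, 0, 0, ⟨0, 0⟩, 0⟩, 0, 0⟩ 0 0)) (.pos 37 .mp ⟨⟨4986284, 0, 0, 0, 0, 6329477, 0, 0, 0, ⟨0, 0⟩, 0⟩, 0, 0⟩ 0 0))) (.cut .d (-32768) (.cut .s 6766592 (.pos 37 .mp ⟨⟨5079141, 0, 0, 0, 0, 7984692, 0, 0, 0, ⟨0, 0⟩, 0⟩, 0, 0⟩ 0 0) (.pos 37 .mp ⟨⟨5340157, 0, 0, 0, 0, 8245709, 0, 0, 0, ⟨0, 0⟩, 0⟩, 0, 0⟩ 0 0)) (.cut .v 16809984 (.cut .s 6766592 (.cut .s 6742016 (.pos 45 .mp ⟨⟨5815243, 0, 0, 0, 0, 6759087, 0, 0, 0, ⟨0, 0⟩, 0⟩, 0, 0⟩ 0 0) (.pos 45 .mp ⟨⟨5988779, 0, 0, 0, 0, 6836247, 0, 0, 0, ⟨0, 0⟩, 0⟩, 0, 0⟩ 0 0)) (.pos 45 .mp ⟨⟨5604918, 0, 0, 0, 0, 7564691, 0, 0, 0,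 ⟨0, 0⟩, 0⟩, 0, 0⟩ 0 0)) (.pos 46 .mp ⟨⟨8715072, 0, 0, 0, 0, 4213422, 0, 0, 0, ⟨0, 0⟩, 0⟩, 0, 0⟩ 0 0)))) (.pos 38 .mp ⟨⟨13420687, 0, 0, 0, 0, 0, 0, 0, 0, ⟨0, 0⟩, 0⟩, 0, 0⟩ 0 0))))) (.pos 36 .mp ⟨⟨13610965, 0, 0, 0, 0, 0, 0, 0, 0, ⟨0, 0⟩, 0⟩, 0, 0⟩ 0 0)) (.void 34 ⟨⟨100000, 0, 0, 0, 0, 0, 0, 0, 0, ⟨0, 0⟩, 0⟩, 0, 0⟩ 0 0)) (.void 32 ⟨⟨100000, 0, 0, 0, 0, 0, 0, 0, 0, ⟨0, 0⟩, 0⟩, 0, 0⟩ 0 0)) (.void 30 ⟨⟨100000, 0, 0, 0, 0, 0, 0, 0, 0, ⟨0, 0⟩, 0⟩, 0, 0⟩ 0 0))) (.void 28 ⟨⟨100000, 0, 0, 0, 0, 0, 0, 0, 0, ⟨0, 0⟩, 0⟩, 0, 0⟩ 0 0))))) (.void 26 ⟨⟨100000, 0, 0, 0, 0, 0, 0, 0, 0, ⟨0, 0⟩, 0⟩, 0, 0⟩ 0 0))))) (.void 24 ⟨⟨100000, 0, 0, 0, 0, 0,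 0, 0, 0, ⟨0, 0⟩, 0⟩, 0, 0⟩ 0 0))) (.cut .v 16777216 (.cut .d 4222257 (.cut .d 2111128 (.cut .d 1055564 (.cut .v 8388608 (.cut .v 4194304 (.void 4 ⟨⟨0, 0, 92703, 0, 7297, 0, 0, 0, 0, ⟨0, 0⟩, 0⟩, 0, 0⟩ 0 0) (.void 5 ⟨⟨0, 0, 0, 0, 0, 0, 0, 0, 100000, ⟨0, 0⟩, 9975792⟩, 0, 0⟩ 0 0)) (.cut .v 12582912 (.pos 8 .pm ⟨⟨0, 0, 0, 0, 0, 0, 0, 0, 0, ⟨0, 0⟩, 0⟩, 0, 917627⟩ 0 0) (.cut .v 14680064 (.pos 12 .pm ⟨⟨0, 0, 0, 0, 0, 0, 0, 0, 0, ⟨0, 0⟩, 0⟩, 0, 573604⟩ 0 0) (.pos 13 .pm ⟨⟨0, 0, 0, 0, 0, 0, 0, 0, 0, ⟨0, 0⟩, 0⟩, 0, 225820⟩ 0 0)))) (.void 1 ⟨⟨0, 0, 0, 0, 0, 0, 0, 0, 0, ⟨0, 0⟩, 0⟩, 0, 100000⟩ 0 0)) (.void 1 ⟨⟨0, 0, 0, 0, 0, 0, 0, 0, 0, ⟨0,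 0⟩, 0⟩, 0, 100000⟩ 0 0)) (.void 1 ⟨⟨0, 0, 0, 0, 0, 0, 0, 0, 0, ⟨0, 0⟩, 0⟩, 0, 100000⟩ 0 0)) (.cut .v 25165824 (.cut .d 4222257 (.cut .v 20971520 (.cut .d 2111128 (.cut .d 1055564 (.cut .v 18874368 (.cut .d 527782 (.cut .d 263891 (.cut .s 6422528 (.pos 27 .pp ⟨⟨6180649, 0, 0, 0, 0, 0, 0, 0, 0, ⟨0, 0⟩, 0⟩, 0, 61801⟩ 0 0) (.pos 27 .pp ⟨⟨8804081, 0, 0, 0, 0, 0, 0, 0, 0, ⟨0, 0⟩, 0⟩, 0, 29879⟩ 0 0)) (.pos 27 .pp ⟨⟨4015391, 0, 0, 0, 0, 0, 0, 0, 0, ⟨0, 0⟩, 0⟩, 0, 508754⟩ 0 0)) (.pos 27 .pp ⟨⟨2456182, 0, 0, 0, 0, 0, 0, 0, 0, ⟨0, 0⟩, 0⟩, 0, 2229063⟩ 0 0)) (.cut .d 527782 (.void 28 ⟨⟨100000, 0, 0, 0, 0, 0, 0, 0, 0, ⟨0, 0⟩, 0⟩, 0, 0⟩ 0 0)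 (.pos 28 .pp ⟨⟨12166026, 0, 0, 0, 0, 0, 0, 0, 0, ⟨0, 0⟩, 0⟩, 0, 4395623⟩ 0 0))) (.void 25 ⟨⟨0, 0, 0, 0, 0, 0, 0, 0, 0, ⟨0, 0⟩, 0⟩, 0, 100000⟩ 0 0)) (.void 25 ⟨⟨0, 0, 0, 0, 0, 0, 0, 0, 0, ⟨0, 0⟩, 0⟩, 0, 100000⟩ 0 0)) (.void 26 ⟨⟨0, 0, 0, 0, 0, 0, 0, 0, 0, ⟨0, 0⟩, 0⟩, 17594, 82406⟩ 0 0)) (.void 23 ⟨⟨0, 0, 0, 0, 0, 0, 0, 0, 0, ⟨0, 0⟩, 0⟩, 0, 100000⟩ 0 0)) (.void 24 ⟨⟨0, 0, 0, 0, 0, 0, 0, 0, 0, ⟨0, 0⟩, 0⟩, 17594, 82406⟩ 0 0)))),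
    by decide +kernel⟩

def covers7 : cell.Covers Vale.Agent.P237.Petty.Cor.Grid.N16.table row7.1 :=
  ⟨(.cut .d 0 (.cut .v 16777216 (.cut .d (-8388608) (.void 1 ⟨⟨0, 0, 0, 0, 0, 100000, 0, 0, 0, ⟨0, 0⟩, 0⟩, 0, 0⟩ 0 0) (.cut .d (-4194304) (.void 1 ⟨⟨0, 0, 0, 0, 0, 100000, 0, 0, 0, ⟨0, 0⟩, 0⟩, 0, 0⟩ 0 0) (.cut .d (-2097152) (.void 1 ⟨⟨0, 0, 0, 0, 0, 100000, 0, 0, 0, ⟨0, 0⟩, 0⟩, 0, 0⟩ 0 0) (.cut .d (-1048576) (.void 1 ⟨⟨0, 0, 0, 0, 0, 100000, 0, 0, 0, ⟨0, 0⟩, 0⟩, 0, 0⟩ 0 0) (.cut .d (-524288) (.void 1 ⟨⟨0, 0, 0, 0, 0, 100000, 0, 0, 0, ⟨0, 0⟩, 0⟩, 0, 0⟩ 0 0) (.cut .d (-262144) (.void 1 ⟨⟨0, 0, 0, 0, 0, 100000, 0, 0, 0, ⟨0, 0⟩, 0⟩,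 0, 0⟩ 0 0) (.cut .d (-131072) (.void 1 ⟨⟨0, 0, 0, 0, 0, 100000, 0, 0, 0, ⟨0, 0⟩, 0⟩, 0, 0⟩ 0 0) (.cut .d (-65536) (.void 1 ⟨⟨0, 0, 0, 0, 0, 100000, 0, 0, 0, ⟨0, 0⟩, 0⟩, 0, 0⟩ 0 0) (.cut .v 8388608 (.cut .v 4194304 (.void 4 ⟨⟨0, 0, 100000, 0, 0, 0, 0, 0, 0, ⟨0, 0⟩, 0⟩, 0, 0⟩ 0 0) (.pos 5 .mm ⟨⟨0, 0, 0, 0, 0, 6551753, 0, 0, 253328, ⟨0, 0⟩, 9975792⟩, 0, 0⟩ 0 0)) (.cut .v 12582912 (.pos 8 .mm ⟨⟨0, 0, 0, 0, 0, 7628512, 0, 0, 0, ⟨0, 0⟩, 0⟩, 0, 0⟩ 0 0) (.cut .v 14680064 (.pos 12 .mm ⟨⟨0, 0, 0, 0, 0, 9652121, 0, 0, 0, ⟨0, 0⟩, 0⟩, 0, 0⟩ 0 0) (.cut .v 15728640 (.pos 20 .mm ⟨⟨0, 0, 0, 0, 0, 10892738, 0, 0, 0, ⟨0, 0⟩, 0⟩, 0, 0⟩ 0 0) (.cut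 .v 16252928 (.pos 41 .mm ⟨⟨0, 0, 0, 0, 0, 11639655, 0, 0, 0, ⟨0, 0⟩, 0⟩, 0, 0⟩ 0 0) (.cut .v 16515072 (.pos 43 .mm ⟨⟨0, 0, 0, 0, 0, 15442094, 0, 0, 0, ⟨0, 0⟩, 0⟩, 0, 0⟩ 0 0) (.cut .v 16646144 (.pos 51 .mm ⟨⟨0, 0, 0, 0, 0, 16912935, 0, 0, 0, ⟨0, 0⟩, 0⟩, 0, 0⟩ 0 0) (.cut .s 7176192 (.cut .s 6995968 (.pos 52 .mm ⟨⟨0, 0, 0, 0, 0, 14235440, 0, 0, 0, ⟨0, 0⟩, 0⟩, 0, 0⟩ 0 0) (.cut .s 7086080 (.pos 52 .mm ⟨⟨0, 0, 0, 0, 0, 15764240, 0, 0, 0, ⟨0, 0⟩, 0⟩, 0, 0⟩ 0 0) (.pos 52 .mm ⟨⟨0, 0, 0, 0, 0, 16921435, 0, 0, 0, ⟨0, 0⟩, 0⟩, 0, 0⟩ 0 0))) (.cut .s 7356416 (.cut .s 7266304 (.pos 52 .mm ⟨⟨0, 0, 0, 0, 0, 18174890, 0, 0, 0, ⟨0, 0⟩, 0⟩, 0, 0⟩ 0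 0) (.pos 52 .mm ⟨⟨0, 0, 0, 0, 0, 19525365, 0, 0, 0, ⟨0, 0⟩, 0⟩, 0, 0⟩ 0 0)) (.pos 52 .mm ⟨⟨0, 0, 0, 0, 0, 21724458, 0, 0, 0, ⟨0, 0⟩, 0⟩, 0, 0⟩ 0 0)))))))))))))))))) (.cut .v 25165824 (.cut .d (-8388608) (.void 23 ⟨⟨0, 0, 0, 0, 0, 100000, 0, 0, 0, ⟨0, 0⟩, 0⟩, 0, 0⟩ 0 0) (.cut .d (-4194304) (.void 23 ⟨⟨0, 0, 0, 0, 0, 100000, 0, 0, 0, ⟨0, 0⟩, 0⟩, 0, 0⟩ 0 0) (.cut .d (-2097152) (.void 23 ⟨⟨0, 0, 0, 0, 0, 100000, 0, 0, 0, ⟨0, 0⟩, 0⟩, 0, 0⟩ 0 0) (.cut .v 20971520 (.cut .d (-1048576) (.void 25 ⟨⟨0, 0, 0, 0, 0, 100000, 0, 0, 0, ⟨0, 0⟩, 0⟩, 0, 0⟩ 0 0) (.cut .d (-524288) (.void 25 ⟨⟨0, 0, 0, 0, 0, 100000, 0, 0, 0, ⟨0, 0⟩, 0⟩, 0, 0⟩ 0 0)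 (.cut .d (-262144) (.void 25 ⟨⟨0, 0, 0, 0, 0, 100000, 0, 0, 0, ⟨0, 0⟩, 0⟩, 0, 0⟩ 0 0) (.cut .v 18874368 (.cut .d (-131072) (.void 27 ⟨⟨0, 0, 0, 0, 0, 100000, 0, 0, 0, ⟨0, 0⟩, 0⟩, 0, 0⟩ 0 0) (.cut .d (-65536) (.void 27 ⟨⟨0, 0, 0, 0, 0, 100000, 0, 0, 0, ⟨0, 0⟩, 0⟩, 0, 0⟩ 0 0) (.cut .v 17825792 (.cut .v 17301504 (.cut .v 17039360 (.cut .v 16908288 (.cut .s 7176192 (.cut .s 6995968 (.cut .v 16842752 (.cut .s 6905856 (.cut .d (-32768) (.pos 37 .mp ⟨⟨5609730, 0, 0, 0, 0, 8855586, 0, 0, 0, ⟨0, 0⟩, 0⟩, 0, 0⟩ 0 0) (.cut .s 6860800 (.pos 37 .mp ⟨⟨6065260, 0, 0, 0, 0, 7604208, 0, 0, 0, ⟨0, 0⟩, 0⟩, 0, 0⟩ 0 0) (.pos 37 .mp ⟨⟨6336013, 0, 0,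 0, 0, 7771928, 0, 0, 0, ⟨0, 0⟩, 0⟩, 0, 0⟩ 0 0))) (.cut .d (-32768) (.cut .s 6950912 (.pos 37 .mp ⟨⟨6134845, 0, 0, 0, 0, 8893726, 0, 0, 0, ⟨0, 0⟩, 0⟩, 0, 0⟩ 0 0) (.pos 37 .mp ⟨⟨6412360, 0, 0, 0, 0, 9114309, 0, 0, 0, ⟨0, 0⟩, 0⟩, 0, 0⟩ 0 0)) (.cut .l 115343 (.cut .d (-16384) (.pos 37 .mp ⟨⟨6533991, 0, 0, 0, 0, 8734058, 0, 0, 0, ⟨0, 0⟩, 0⟩, 0, 0⟩ 0 0) (.cut .s 6950912 (.pos 37 .mp ⟨⟨6530259, 0, 0, 0, 0, 7997064, 0, 0, 0, ⟨0, 0⟩, 0⟩, 0, 0⟩ 0 0) (.pos 37 .mp ⟨⟨6822276, 0, 0, 0, 0, 8185587, 0, 0, 0, ⟨0, 0⟩, 0⟩, 0, 0⟩ 0 0))) (.pos 37 .mp ⟨⟨6806770, 0, 0, 0, 0, 7464238, 0, 0, 0, ⟨0, 0⟩, 0⟩, 0, 0⟩ 0 0)))) (.pos 38 .mp ⟨⟨15713987, 0, 0, 0,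 0, 0, 0, 0, 0, ⟨0, 0⟩, 0⟩, 0, 0⟩ 0 0)) (.cut .v 16842752 (.cut .s 7086080 (.cut .d (-32768) (.cut .s 7041024 (.pos 37 .mp ⟨⟨6699973, 0, 0, 0, 0, 9346112, 0, 0, 0, ⟨0, 0⟩, 0⟩, 0, 0⟩ 0 0) (.pos 37 .mp ⟨⟨6997781, 0, 0, 0, 0, 9589011, 0, 0, 0, ⟨0, 0⟩, 0⟩, 0, 0⟩ 0 0)) (.cut .l 115343 (.cut .v 16809984 (.cut .d (-16384) (.pos 45 .mp ⟨⟨6677212, 0, 0, 0, 0, 9692152, 0, 0, 0, ⟨0, 0⟩, 0⟩, 0, 0⟩ 0 0) (.cut .l 57671 (.cut .d (-8192) (.pos 45 .mp ⟨⟨7217761, 0, 0, 0, 0, 8941422, 0, 0, 0, ⟨0, 0⟩, 0⟩, 0, 0⟩ 0 0) (.cut .s 7041024 (.pos 45 .mp ⟨⟨7038574, 0, 0, 0, 0, 8451107, 0, 0, 0, ⟨0, 0⟩, 0⟩, 0, 0⟩ 0 0) (.cut .s 7063552 (.pos 45 .mp ⟨⟨7422847,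 0, 0, 0, 0, 8511577, 0, 0, 0, ⟨0, 0⟩, 0⟩, 0, 0⟩ 0 0) (.pos 45 .mp ⟨⟨7564594, 0, 0, 0, 0, 8635312, 0, 0, 0, ⟨0, 0⟩, 0⟩, 0, 0⟩ 0 0)))) (.pos 45 .mp ⟨⟨7339497, 0, 0, 0, 0, 7838000, 0, 0, 0, ⟨0, 0⟩, 0⟩, 0, 0⟩ 0 0))) (.pos 46 .mp ⟨⟨17071243, 0, 0, 0, 0, 0, 0, 0, 0, ⟨0, 0⟩, 0⟩, 0, 0⟩ 0 0)) (.pos 37 .mp ⟨⟨7419574, 0, 0, 0, 0, 7881767, 0, 0, 0, ⟨0, 0⟩, 0⟩, 0, 0⟩ 0 0))) (.cut .d (-32768) (.cut .s 7131136 (.pos 37 .mp ⟨⟨7305883, 0, 0, 0, 0, 9842875, 0, 0, 0, ⟨0, 0⟩, 0⟩, 0, 0⟩ 0 0) (.pos 37 .mp ⟨⟨7624382, 0, 0, 0, 0, 10107564, 0, 0, 0, ⟨0, 0⟩, 0⟩, 0, 0⟩ 0 0)) (.cut .l 115343 (.cut .v 16809984 (.cut .s 7131136 (.cut .s 7108608 (.pos 45 .mp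 ⟨⟨7657918, 0, 0, 0, 0, 8855379, 0, 0, 0, ⟨0, 0⟩, 0⟩, 0, 0⟩ 0 0) (.pos 45 .mp ⟨⟨7753171, 0, 0, 0, 0, 9048421, 0, 0, 0, ⟨0, 0⟩, 0⟩, 0, 0⟩ 0 0)) (.cut .s 7153664 (.pos 45 .mp ⟨⟨7853071, 0, 0, 0, 0, 9242559, 0, 0, 0, ⟨0, 0⟩, 0⟩, 0, 0⟩ 0 0) (.pos 45 .mp ⟨⟨7967110, 0, 0, 0, 0, 9426399, 0, 0, 0, ⟨0, 0⟩, 0⟩, 0, 0⟩ 0 0))) (.pos 46 .mp ⟨⟨18139432, 0, 0, 0, 0, 0, 0, 0, 0, ⟨0, 0⟩, 0⟩, 0, 0⟩ 0 0)) (.pos 37 .mp ⟨⟨8074565, 0, 0, 0, 0, 8327746, 0, 0, 0, ⟨0, 0⟩, 0⟩, 0, 0⟩ 0 0)))) (.pos 38 .mp ⟨⟨17684861, 0, 0, 0, 0, 0, 0, 0, 0, ⟨0, 0⟩, 0⟩, 0, 0⟩ 0 0))) (.cut .s 7356416 (.cut .v 16842752 (.cut .s 7266304 (.cut .d (-32768) (.cut .s 7221248 (.pos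 37 .mp ⟨⟨7953380, 0, 0, 0, 0, 10382934, 0, 0, 0, ⟨0, 0⟩, 0⟩, 0, 0⟩ 0 0) (.pos 37 .mp ⟨⟨8292983, 0, 0, 0, 0, 10668834, 0, 0, 0, ⟨0, 0⟩, 0⟩, 0, 0⟩ 0 0)) (.cut .l 115343 (.cut .v 16809984 (.cut .s 7221248 (.cut .d (-16384) (.pos 45 .mp ⟨⟨7929748, 0, 0, 0, 0, 10289457, 0, 0, 0, ⟨0, 0⟩, 0⟩, 0, 0⟩ 0 0) (.cut .s 7198720 (.pos 45 .mp ⟨⟨8398887, 0, 0, 0, 0, 9220621, 0, 0, 0, ⟨0, 0⟩, 0⟩, 0, 0⟩ 0 0) (.pos 45 .mp ⟨⟨8557509, 0, 0, 0, 0, 9361439, 0, 0, 0, ⟨0, 0⟩, 0⟩, 0, 0⟩ 0 0))) (.cut .d (-16384) (.pos 45 .mp ⟨⟨8269125, 0, 0, 0, 0, 10572755, 0, 0, 0, ⟨0, 0⟩, 0⟩, 0, 0⟩ 0 0) (.cut .s 7243776 (.pos 45 .mp ⟨⟨8722514, 0, 0, 0, 0, 9501069, 0, 0,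 0, ⟨0, 0⟩, 0⟩, 0, 0⟩ 0 0) (.pos 45 .mp ⟨⟨8894126, 0, 0, 0, 0, 9639249, 0, 0, 0, ⟨0, 0⟩, 0⟩, 0, 0⟩ 0 0)))) (.pos 46 .mp ⟨⟨19267669, 0, 0, 0, 0, 0, 0, 0, 0, ⟨0, 0⟩, 0⟩, 0, 0⟩ 0 0)) (.pos 37 .mp ⟨⟨8772593, 0, 0, 0, 0, 8797244, 0, 0, 0, ⟨0, 0⟩, 0⟩, 0, 0⟩ 0 0))) (.cut .d (-32768) (.cut .s 7311360 (.pos 37 .mp ⟨⟨8643300, 0, 0, 0, 0, 10965105, 0, 0, 0, ⟨0, 0⟩, 0⟩, 0, 0⟩ 0 0) (.pos 37 .mp ⟨⟨9004443, 0, 0, 0, 0, 11271580, 0, 0, 0, ⟨0, 0⟩, 0⟩, 0, 0⟩ 0 0)) (.cut .l 115343 (.cut .v 16809984 (.cut .s 7311360 (.cut .d (-16384) (.pos 45 .mp ⟨⟨8619212, 0, 0, 0, 0, 10869990, 0, 0, 0, ⟨0, 0⟩, 0⟩, 0, 0⟩ 0 0) (.cut .s 7288832 (.pos 45 .mp ⟨⟨9072568,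 0, 0, 0, 0, 9775716, 0, 0, 0, ⟨0, 0⟩, 0⟩, 0, 0⟩ 0 0) (.pos 45 .mp ⟨⟨9258067, 0, 0, 0, 0, 9910203, 0, 0, 0, ⟨0, 0⟩, 0⟩, 0, 0⟩ 0 0))) (.cut .d (-16384) (.pos 45 .mp ⟨⟨8980119, 0, 0, 0, 0, 11181425, 0, 0, 0, ⟨0, 0⟩, 0⟩, 0, 0⟩ 0 0) (.cut .s 7333888 (.pos 45 .mp ⟨⟨9450850, 0, 0, 0, 0, 10042438, 0, 0, 0, ⟨0, 0⟩, 0⟩, 0, 0⟩ 0 0) (.pos 45 .mp ⟨⟨9651146, 0, 0, 0, 0, 10172148, 0, 0, 0, ⟨0, 0⟩, 0⟩, 0, 0⟩ 0 0)))) (.pos 46 .mp ⟨⟨20450619, 0, 0, 0, 0, 0, 0, 0, 0, ⟨0, 0⟩, 0⟩, 0, 0⟩ 0 0)) (.pos 37 .mp ⟨⟨9514547, 0, 0, 0, 0, 9285397, 0, 0, 0, ⟨0, 0⟩, 0⟩, 0, 0⟩ 0 0)))) (.pos 38 .mp ⟨⟨19905637, 0, 0, 0, 0, 0, 0, 0, 0, ⟨0, 0⟩, 0⟩, 0, 0⟩ 0 0)) (.cut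 .v 16842752 (.cut .s 7446528 (.cut .d (-32768) (.cut .s 7401472 (.pos 37 .mp ⟨⟨9376523, 0, 0, 0, 0, 11588087, 0, 0, 0, ⟨0, 0⟩, 0⟩, 0, 0⟩ 0 0) (.pos 37 .mp ⟨⟨9759656, 0, 0, 0, 0, 11914445, 0, 0, 0, ⟨0, 0⟩, 0⟩, 0, 0⟩ 0 0)) (.cut .l 115343 (.cut .v 16809984 (.cut .s 7401472 (.cut .s 7378944 (.cut .s 7367680 (.pos 45 .mp ⟨⟨9955587, 0, 0, 0, 0, 10166418, 0, 0, 0, ⟨0, 0⟩, 0⟩, 0, 0⟩ 0 0) (.pos 45 .mp ⟨⟨10065678, 0, 0, 0, 0, 10224586, 0, 0, 0, ⟨0, 0⟩, 0⟩, 0, 0⟩ 0 0)) (.pos 45 .mp ⟨⟨9779778, 0, 0, 0, 0, 10799044, 0, 0, 0, ⟨0, 0⟩, 0⟩, 0, 0⟩ 0 0)) (.cut .s 7424000 (.pos 45 .mp ⟨⟨10031258, 0, 0, 0, 0, 10884602, 0, 0, 0, ⟨0, 0⟩, 0⟩, 0, 0⟩ 0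 0) (.pos 45 .mp ⟨⟨10306161, 0, 0, 0, 0, 10948244, 0, 0, 0, ⟨0, 0⟩, 0⟩, 0, 0⟩ 0 0))) (.pos 46 .mp ⟨⟨21683355, 0, 0, 0, 0, 0, 0, 0, 0, ⟨0, 0⟩, 0⟩, 0, 0⟩ 0 0)) (.pos 37 .mp ⟨⟨10301356, 0, 0, 0, 0, 9787394, 0, 0, 0, ⟨0, 0⟩, 0⟩, 0, 0⟩ 0 0))) (.cut .d (-32768) (.cut .s 7491584 (.pos 37 .mp ⟨⟨10153961, 0, 0, 0, 0, 12250466, 0, 0, 0, ⟨0, 0⟩, 0⟩, 0, 0⟩ 0 0) (.pos 37 .mp ⟨⟨10559559, 0, 0, 0, 0, 12597498, 0, 0, 0, ⟨0, 0⟩, 0⟩, 0, 0⟩ 0 0)) (.cut .l 115343 (.cut .v 16809984 (.cut .d (-16384) (.pos 45 .mp ⟨⟨10128910, 0, 0, 0, 0, 12797291, 0, 0, 0, ⟨0, 0⟩, 0⟩, 0, 0⟩ 0 0) (.cut .l 57671 (.cut .d (-8192) (.pos 45 .mp ⟨⟨10874196, 0, 0, 0, 0, 11714944,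 0, 0, 0, ⟨0, 0⟩, 0⟩, 0, 0⟩ 0 0) (.cut .v 16793600 (.cut .l 28835 (.cut .d (-4096) (.pos 57 .mp ⟨⟨10959886, 0, 0, 0, 0, 11519186, 0, 0, 0, ⟨0, 0⟩, 0⟩, 0, 0⟩ 0 0) (.cut .v 16785408 (.cut .l 14417 (.cut .d (-2048) (.pos 61 .mp ⟨⟨10956938, 0, 0, 0, 0, 11504994, 0, 0, 0, ⟨0, 0⟩, 0⟩, 0, 0⟩ 0 0) (.cut .s 7491584 (.cut .s 7469056 (.pos 61 .mp ⟨⟨10634755, 0, 0, 0, 0, 10913375, 0, 0, 0, ⟨0, 0⟩, 0⟩, 0, 0⟩ 0 0) (.pos 61 .mp ⟨⟨10861753, 0, 0, 0, 0, 11049485, 0, 0, 0, ⟨0, 0⟩, 0⟩, 0, 0⟩ 0 0)) (.pos 61 .mp ⟨⟨10956938, 0, 0, 0, 0, 11424767, 0, 0, 0, ⟨0, 0⟩, 0⟩, 0, 0⟩ 0 0))) (.pos 61 .mp ⟨⟨10952706, 0, 0, 0, 0, 10254185, 0, 0, 0, ⟨0, 0⟩, 0⟩, 0,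 0⟩ 0 0)) (.pos 62 .mp ⟨⟨21023945, 0, 0, 0, 0, 0, 0, 0, 0, ⟨0, 0⟩, 0⟩, 0, 0⟩ 0 0))) (.pos 57 .mp ⟨⟨10978239, 0, 0, 0, 0, 10260790, 0, 0, 0, ⟨0, 0⟩, 0⟩, 0, 0⟩ 0 0)) (.pos 58 .mp ⟨⟨21036035, 0, 0, 0, 0, 0, 0, 0, 0, ⟨0, 0⟩, 0⟩, 0, 0⟩ 0 0))) (.pos 45 .mp ⟨⟨11029666, 0, 0, 0, 0, 10273753, 0, 0, 0, ⟨0, 0⟩, 0⟩, 0, 0⟩ 0 0))) (.pos 46 .mp ⟨⟨22961321, 0, 0, 0, 0, 0, 0, 0, 0, ⟨0, 0⟩, 0⟩, 0, 0⟩ 0 0)) (.pos 37 .mp ⟨⟨11133987, 0, 0, 0, 0, 10298467, 0, 0, 0, ⟨0, 0⟩, 0⟩, 0, 0⟩ 0 0)))) (.pos 38 .mp ⟨⟨22334316, 0, 0, 0, 0, 0, 0, 0, 0, ⟨0, 0⟩, 0⟩, 0, 0⟩ 0 0)))) (.pos 36 .mp ⟨⟨20513182, 0, 0, 0, 0, 0, 0, 0, 0, ⟨0, 0⟩, 0⟩, 0, 0⟩ 0 0)) (.void 34 ⟨⟨100000,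 0, 0, 0, 0, 0, 0, 0, 0, ⟨0, 0⟩, 0⟩, 0, 0⟩ 0 0)) (.void 32 ⟨⟨100000, 0, 0, 0, 0, 0, 0, 0, 0, ⟨0, 0⟩, 0⟩, 0, 0⟩ 0 0)) (.void 30 ⟨⟨100000, 0, 0, 0, 0, 0, 0, 0, 0, ⟨0, 0⟩, 0⟩, 0, 0⟩ 0 0)))) (.void 28 ⟨⟨100000, 0, 0, 0, 0, 0, 0, 0, 0, ⟨0, 0⟩, 0⟩, 0, 0⟩ 0 0))))) (.void 26 ⟨⟨100000, 0, 0, 0, 0, 0, 0, 0, 0, ⟨0, 0⟩, 0⟩, 0, 0⟩ 0 0))))) (.void 24 ⟨⟨100000, 0, 0, 0, 0, 0, 0, 0, 0, ⟨0, 0⟩, 0⟩, 0, 0⟩ 0 0))) (.cut .v 16777216 (.cut .d 5285571 (.cut .d 2642785 (.cut .d 1321392 (.cut .v 8388608 (.cut .v 4194304 (.void 4 ⟨⟨0, 0, 100000, 0, 0, 0, 0, 0, 0, ⟨0, 0⟩, 0⟩, 0, 0⟩ 0 0) (.pos 5 .pm ⟨⟨0, 0, 0, 0, 0, 0, 0, 0, 355970, ⟨0, 0⟩, 9975792⟩, 0, 0⟩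 0 0)) (.cut .v 12582912 (.pos 8 .pm ⟨⟨0, 0, 0, 0, 0, 0, 0, 0, 0, ⟨0, 0⟩, 0⟩, 0, 0⟩ 0 0) (.pos 9 .pm ⟨⟨0, 0, 0, 0, 0, 0, 0, 0, 0, ⟨0, 0⟩, 0⟩, 0, 0⟩ 0 0))) (.void 1 ⟨⟨0, 0, 0, 0, 0, 0, 0, 0, 0, ⟨0, 0⟩, 0⟩, 0, 100000⟩ 0 0)) (.void 1 ⟨⟨0, 0, 0, 0, 0, 0, 0, 0, 0, ⟨0, 0⟩, 0⟩, 0, 100000⟩ 0 0)) (.void 1 ⟨⟨0, 0, 0, 0, 0, 0, 0, 0, 0, ⟨0, 0⟩, 0⟩, 0, 100000⟩ 0 0)) (.cut .d 5285571 (.cut .v 25165824 (.cut .d 2642785 (.cut .d 1321392 (.cut .v 20971520 (.cut .d 660696 (.cut .v 18874368 (.cut .d 330348 (.cut .s 7176192 (.pos 27 .pp ⟨⟨11897217, 0, 0, 0, 0, 0, 0, 0, 0, ⟨0, 0⟩, 0⟩, 0, 53356⟩ 0 0) (.cut .s 7356416 (.pos 27 .pp ⟨⟨10518432, 0, 0, 0,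 0, 0, 0, 0, 0, ⟨0, 0⟩, 0⟩, 422159, 0⟩ 0 0) (.pos 27 .pp ⟨⟨11605616, 0, 0, 0, 0, 0, 0, 0, 0, ⟨0, 0⟩, 0⟩, 544804, 0⟩ 0 0))) (.pos 27 .pp ⟨⟨7138583, 0, 0, 0, 0, 0, 0, 0, 0, ⟨0, 0⟩, 0⟩, 0, 434758⟩ 0 0)) (.pos 28 .pp ⟨⟨22105377, 0, 0, 0, 0, 0, 0, 0, 0, ⟨0, 0⟩, 0⟩, 0, 0⟩ 0 0)) (.cut .v 18874368 (.pos 27 .pp ⟨⟨0, 0, 0, 0, 0, 0, 0, 0, 0, ⟨0, 0⟩, 0⟩, 0, 696787⟩ 0 0) (.pos 28 .pp ⟨⟨8673939, 0, 0, 0, 0, 0, 0, 0, 0, ⟨0, 0⟩, 0⟩, 0, 1722051⟩ 0 0))) (.cut .d 660696 (.void 26 ⟨⟨0, 0, 0, 0, 0, 0, 0, 0, 0, ⟨0, 0⟩, 0⟩, 100000, 0⟩ 0 0) (.pos 26 .pp ⟨⟨12676806, 0, 0, 0, 0, 0, 24829313, 0, 0, ⟨0, 0⟩, 0⟩, 0, 0⟩ 0 0))) (.void 23 ⟨⟨0, 0, 0, 0, 0, 0, 0,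 0, 0, ⟨0, 0⟩, 0⟩, 1905, 98095⟩ 0 0)) (.void 23 ⟨⟨0, 0, 0, 0, 0, 0, 0, 0, 0, ⟨0, 0⟩, 0⟩, 0, 100000⟩ 0 0)) (.void 24 ⟨⟨0, 0, 0, 0, 0, 0, 0, 0, 0, ⟨0, 0⟩, 0⟩, 16859, 83141⟩ 0 0)) (.void 22 ⟨⟨0, 0, 0, 0, 0, 0, 0, 0, 0, ⟨0, 0⟩, 0⟩, 0, 100000⟩ 0 0)))),
    by decide +kernel⟩

def covers8 : cell.Covers Vale.Agent.P237.Petty.Cor.Grid.N16.table row8.1 :=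
  ⟨(.cut .d 0 (.cut .v 16777216 (.cut .d (-8388608) (.void 1 ⟨⟨0, 0, 0, 0, 0, 100000, 0, 0, 0, ⟨0, 0⟩, 0⟩, 0, 0⟩ 0 0) (.cut .d (-4194304) (.void 1 ⟨⟨0, 0, 0, 0, 0, 100000, 0, 0, 0, ⟨0, 0⟩, 0⟩, 0, 0⟩ 0 0) (.cut .d (-2097152) (.void 1 ⟨⟨0, 0, 0, 0, 0, 100000, 0, 0, 0, ⟨0, 0⟩, 0⟩, 0, 0⟩ 0 0) (.cut .d (-1048576) (.void 1 ⟨⟨0, 0, 0, 0, 0, 100000, 0, 0, 0, ⟨0, 0⟩, 0⟩, 0, 0⟩ 0 0) (.cut .d (-524288) (.void 1 ⟨⟨0, 0, 0, 0, 0, 100000, 0, 0, 0, ⟨0, 0⟩, 0⟩, 0, 0⟩ 0 0) (.cut .d (-262144) (.void 1 ⟨⟨0, 0, 0, 0, 0, 100000, 0, 0, 0, ⟨0, 0⟩, 0⟩, 0, 0⟩ 0 0) (.cut .d (-131072) (.void 1 ⟨⟨0, 0, 0, 0, 0, 100000, 0, 0, 0, ⟨0, 0⟩, 0⟩, 0, 0⟩ 0 0) (.cut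 .d (-65536) (.void 1 ⟨⟨0, 0, 0, 0, 0, 100000, 0, 0, 0, ⟨0, 0⟩, 0⟩, 0, 0⟩ 0 0) (.cut .v 8388608 (.cut .v 4194304 (.void 4 ⟨⟨0, 0, 100000, 0, 0, 0, 0, 0, 0, ⟨0, 0⟩, 0⟩, 0, 0⟩ 0 0) (.pos 5 .mm ⟨⟨0, 0, 0, 0, 0, 10978965, 0, 0, 0, ⟨0, 0⟩, 0⟩, 0, 0⟩ 0 0)) (.cut .v 12582912 (.pos 8 .mm ⟨⟨0, 0, 0, 0, 0, 15221538, 0, 0, 0, ⟨0, 0⟩, 0⟩, 0, 0⟩ 0 0) (.cut .s 7798784 (.cut .s 7667712 (.pos 9 .mm ⟨⟨0, 0, 0, 0, 0, 24484844, 0, 0, 0, ⟨0, 0⟩, 0⟩, 0, 0⟩ 0 0) (.pos 9 .mm ⟨⟨0, 0, 0, 0, 0, 27638919, 0, 0, 0, ⟨0, 0⟩, 0⟩, 0, 0⟩ 0 0)) (.pos 9 .mm ⟨⟨0, 0, 0, 0, 0, 32454851, 0, 0, 0, ⟨0, 0⟩, 0⟩, 0, 0⟩ 0 0)))))))))))) (.cut .v 25165824 (.cut .d (-8388608)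 (.void 23 ⟨⟨0, 0, 0, 0, 0, 100000, 0, 0, 0, ⟨0, 0⟩, 0⟩, 0, 0⟩ 0 0) (.cut .d (-4194304) (.void 23 ⟨⟨0, 0, 0, 0, 0, 100000, 0, 0, 0, ⟨0, 0⟩, 0⟩, 0, 0⟩ 0 0) (.cut .d (-2097152) (.void 23 ⟨⟨0, 0, 0, 0, 0, 100000, 0, 0, 0, ⟨0, 0⟩, 0⟩, 0, 0⟩ 0 0) (.cut .v 20971520 (.cut .d (-1048576) (.void 25 ⟨⟨0, 0, 0, 0, 0, 100000, 0, 0, 0, ⟨0, 0⟩, 0⟩, 0, 0⟩ 0 0) (.cut .d (-524288) (.void 25 ⟨⟨0, 0, 0, 0, 0, 100000, 0, 0, 0, ⟨0, 0⟩, 0⟩, 0, 0⟩ 0 0) (.cut .d (-262144) (.void 25 ⟨⟨0, 0, 0, 0, 0, 100000, 0, 0, 0, ⟨0, 0⟩, 0⟩, 0, 0⟩ 0 0) (.cut .v 18874368 (.cut .d (-131072) (.void 27 ⟨⟨0, 0, 0, 0, 0, 100000, 0, 0, 0, ⟨0, 0⟩, 0⟩, 0, 0⟩ 0 0) (.cut .d (-65536)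 (.void 27 ⟨⟨0, 0, 0, 0, 0, 100000, 0, 0, 0, ⟨0, 0⟩, 0⟩, 0, 0⟩ 0 0) (.cut .v 17825792 (.cut .v 17301504 (.cut .v 17039360 (.cut .v 16908288 (.cut .s 7798784 (.cut .s 7667712 (.cut .v 16842752 (.cut .s 7602176 (.cut .d (-32768) (.pos 37 .mp ⟨⟨10973221, 0, 0, 0, 0, 13302274, 0, 0, 0, ⟨0, 0⟩, 0⟩, 0, 0⟩ 0 0) (.cut .s 7569408 (.cut .s 7553024 (.pos 37 .mp ⟨⟨11786776, 0, 0, 0, 0, 11237678, 0, 0, 0, ⟨0, 0⟩, 0⟩, 0, 0⟩ 0 0) (.pos 37 .mp ⟨⟨12169182, 0, 0, 0, 0, 11177604, 0, 0, 0, ⟨0, 0⟩, 0⟩, 0, 0⟩ 0 0)) (.pos 37 .mp ⟨⟨12165103, 0, 0, 0, 0, 11639816, 0, 0, 0, ⟨0, 0⟩, 0⟩, 0, 0⟩ 0 0))) (.cut .s 7634944 (.pos 37 .mp ⟨⟨12598490, 0, 0, 0, 0, 11974772,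 0, 0, 0, ⟨0, 0⟩, 0⟩, 0, 0⟩ 0 0) (.pos 37 .mp ⟨⟨13472590, 0, 0, 0, 0, 11758156, 0, 0, 0, ⟨0, 0⟩, 0⟩, 0, 0⟩ 0 0))) (.pos 38 .mp ⟨⟨24324255, 0, 0, 0, 0, 0, 0, 0, 0, ⟨0, 0⟩, 0⟩, 0, 0⟩ 0 0)) (.cut .s 7733248 (.cut .s 7700480 (.pos 35 .mp ⟨⟨13871475, 0, 0, 0, 0, 12041814, 0, 0, 0, ⟨0, 0⟩, 0⟩, 0, 0⟩ 0 0) (.pos 35 .mp ⟨⟨14630231, 0, 0, 0, 0, 11969219, 0, 0, 0, ⟨0, 0⟩, 0⟩, 0, 0⟩ 0 0)) (.pos 35 .mp ⟨⟨14715914, 0, 0, 0, 0, 12959607, 0, 0, 0, ⟨0, 0⟩, 0⟩, 0, 0⟩ 0 0))) (.cut .s 7929856 (.cut .s 7864320 (.pos 35 .mp ⟨⟨16316952, 0, 0, 0, 0, 12809881, 0, 0, 0, ⟨0, 0⟩, 0⟩, 0, 0⟩ 0 0) (.pos 35 .mp ⟨⟨18014598, 0, 0, 0, 0, 12606734, 0, 0, 0, ⟨0, 0⟩,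 0⟩, 0, 0⟩ 0 0)) (.pos 35 .mp ⟨⟨18194529, 0, 0, 0, 0, 14889094, 0, 0, 0, ⟨0, 0⟩, 0⟩, 0, 0⟩ 0 0))) (.pos 36 .mp ⟨⟨29994655, 0, 0, 0, 0, 0, 0, 0, 0, ⟨0, 0⟩, 0⟩, 0, 0⟩ 0 0)) (.void 34 ⟨⟨100000, 0, 0, 0, 0, 0, 0, 0, 0, ⟨0, 0⟩, 0⟩, 0, 0⟩ 0 0)) (.void 32 ⟨⟨100000, 0, 0, 0, 0, 0, 0, 0, 0, ⟨0, 0⟩, 0⟩, 0, 0⟩ 0 0)) (.void 30 ⟨⟨100000, 0, 0, 0, 0, 0, 0, 0, 0, ⟨0, 0⟩, 0⟩, 0, 0⟩ 0 0)))) (.void 28 ⟨⟨100000, 0, 0, 0, 0, 0, 0, 0, 0, ⟨0, 0⟩, 0⟩, 0, 0⟩ 0 0))))) (.void 26 ⟨⟨100000, 0, 0, 0, 0, 0, 0, 0, 0, ⟨0, 0⟩, 0⟩, 0, 0⟩ 0 0))))) (.void 24 ⟨⟨100000, 0, 0, 0, 0, 0, 0, 0, 0, ⟨0, 0⟩, 0⟩, 0, 0⟩ 0 0))) (.cut .v 16777216 (.cut .d 6174821 (.cut .d 3087410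 (.cut .d 1543705 (.cut .v 8388608 (.cut .v 4194304 (.void 4 ⟨⟨0, 0, 100000, 0, 0, 0, 0, 0, 0, ⟨0, 0⟩, 0⟩, 0, 0⟩ 0 0) (.pos 5 .pm ⟨⟨0, 0, 0, 0, 0, 0, 0, 0, 0, ⟨0, 0⟩, 0⟩, 0, 0⟩ 0 0)) (.cut .v 12582912 (.pos 8 .pm ⟨⟨0, 0, 0, 0, 0, 0, 0, 0, 0, ⟨0, 0⟩, 0⟩, 0, 0⟩ 0 0) (.pos 9 .pm ⟨⟨0, 0, 0, 0, 0, 0, 0, 0, 0, ⟨0, 0⟩, 0⟩, 0, 0⟩ 0 0))) (.void 1 ⟨⟨0, 0, 0, 0, 0, 0, 0, 0, 0, ⟨0, 0⟩, 0⟩, 0, 100000⟩ 0 0)) (.void 1 ⟨⟨0, 0, 0, 0, 0, 0, 0, 0, 0, ⟨0, 0⟩, 0⟩, 0, 100000⟩ 0 0)) (.void 1 ⟨⟨0, 0, 0, 0, 0, 0, 0, 0, 0, ⟨0, 0⟩, 0⟩, 0, 100000⟩ 0 0)) (.cut .d 6174821 (.cut .v 25165824 (.cut .d 3087410 (.cut .d 1543705 (.cut .v 20971520 (.cut .d 771852 (.cut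 .v 18874368 (.cut .d 385926 (.cut .s 7798784 (.pos 27 .pp ⟨⟨18146602, 0, 0, 0, 0, 0, 0, 0, 0, ⟨0, 0⟩, 0⟩, 174260, 0⟩ 0 0) (.pos 27 .pp ⟨⟨23077024, 0, 0, 0, 0, 0, 0, 0, 0, ⟨0, 0⟩, 0⟩, 104153, 0⟩ 0 0)) (.pos 27 .pp ⟨⟨12594211, 0, 0, 0, 0, 0, 0, 0, 0, ⟨0, 0⟩, 0⟩, 0, 366849⟩ 0 0)) (.pos 28 .pp ⟨⟨30041663, 0, 0, 0, 0, 0, 0, 0, 0, ⟨0, 0⟩, 0⟩, 0, 0⟩ 0 0)) (.cut .v 18874368 (.pos 27 .pp ⟨⟨0, 0, 0, 0, 0, 0, 0, 0, 0, ⟨0, 0⟩, 0⟩, 0, 756631⟩ 0 0) (.pos 28 .pp ⟨⟨9490735, 0, 0, 0, 0, 0, 1108203, 0, 0, ⟨0, 0⟩, 0⟩, 0, 0⟩ 0 0))) (.cut .d 771852 (.pos 26 .pp ⟨⟨56639846, 0, 0, 0, 0, 0, 0, 0, 0, ⟨0, 0⟩, 0⟩, 0, 0⟩ 0 0) (.cut .v 23068672 (.cut .d 1157778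 (.cut .v 22020096 (.pos 67 .pp ⟨⟨19194218, 0, 0, 0, 0, 0, 5703577, 0, 0, ⟨0, 0⟩, 0⟩, 0, 0⟩ 0 0) (.cut .d 964815 (.pos 68 .pp ⟨⟨50336126, 0, 0, 0, 0, 0, 0, 0, 0, ⟨0, 0⟩, 0⟩, 0, 0⟩ 0 0) (.pos 68 .pp ⟨⟨26749906, 0, 0, 0, 0, 0, 16718603, 0, 0, ⟨0, 0⟩, 0⟩, 0, 0⟩ 0 0))) (.pos 65 .pp ⟨⟨0, 0, 0, 0, 0, 0, 37002694, 0, 0, ⟨0, 0⟩, 0⟩, 0, 0⟩ 0 0)) (.void 66 ⟨⟨0, 0, 0, 0, 0, 0, 100000, 0, 0, ⟨0, 0⟩, 0⟩, 0, 0⟩ 0 0)))) (.void 23 ⟨⟨0, 0, 0, 0, 0, 0, 0, 0, 0, ⟨0, 0⟩, 0⟩, 0, 100000⟩ 0 0)) (.void 23 ⟨⟨0, 0, 0, 0, 0, 0, 0, 0, 0, ⟨0, 0⟩, 0⟩, 0, 100000⟩ 0 0)) (.void 24 ⟨⟨0, 0, 0, 0, 0, 0, 100000, 0, 0, ⟨0, 0⟩, 0⟩, 0, 0⟩ 0 0)) (.void 22 ⟨⟨0, 0, 0, 0,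 0, 0, 0, 0, 0, ⟨0, 0⟩, 0⟩, 0, 100000⟩ 0 0)))),
    by decide +kernel⟩

def covers9 : cell.Covers Vale.Agent.P237.Petty.Cor.Grid.N16.table row9.1 :=
  ⟨(.cut .d 0 (.cut .v 16777216 (.cut .d (-8388608) (.void 1 ⟨⟨0, 0, 0, 0, 0, 100000, 0, 0, 0, ⟨0, 0⟩, 0⟩, 0, 0⟩ 0 0) (.cut .d (-4194304) (.void 1 ⟨⟨0, 0, 0, 0, 0, 100000, 0, 0, 0, ⟨0, 0⟩, 0⟩, 0, 0⟩ 0 0) (.cut .d (-2097152) (.void 1 ⟨⟨0, 0, 0, 0, 0, 100000, 0, 0, 0, ⟨0, 0⟩, 0⟩, 0, 0⟩ 0 0) (.cut .d (-1048576) (.void 1 ⟨⟨0, 0, 0, 0, 0, 100000, 0, 0, 0, ⟨0, 0⟩, 0⟩, 0, 0⟩ 0 0) (.cut .d (-524288) (.void 1 ⟨⟨0, 0, 0, 0, 0, 100000, 0, 0, 0, ⟨0, 0⟩, 0⟩, 0, 0⟩ 0 0) (.cut .d (-262144) (.void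 1 ⟨⟨0, 0, 0, 0, 0, 100000, 0, 0, 0, ⟨0, 0⟩, 0⟩, 0, 0⟩ 0 0) (.cut .d (-131072) (.void 1 ⟨⟨0, 0, 0, 0, 0, 100000, 0, 0, 0, ⟨0, 0⟩, 0⟩, 0, 0⟩ 0 0) (.cut .d (-65536) (.void 1 ⟨⟨0, 0, 0, 0, 0, 100000, 0, 0, 0, ⟨0, 0⟩, 0⟩, 0, 0⟩ 0 0) (.cut .v 8388608 (.cut .v 4194304 (.void 4 ⟨⟨0, 0, 100000, 0, 0, 0, 0, 0, 0, ⟨0, 0⟩, 0⟩, 0, 0⟩ 0 0) (.pos 5 .mm ⟨⟨0, 0, 0, 0, 0, 16631510, 0, 0, 0, ⟨0, 0⟩, 0⟩, 0, 0⟩ 0 0)) (.cut .v 12582912 (.pos 8 .mm ⟨⟨0, 0, 0, 0, 0, 23307666, 0, 0, 0, ⟨0, 0⟩, 0⟩, 0, 0⟩ 0 0) (.cut .s 8323072 (.pos 9 .mm ⟨⟨0, 0, 0, 0, 0, 40562645, 0, 0, 0, ⟨0, 0⟩, 0⟩, 0, 0⟩ 0 0) (.pos 9 .mm ⟨⟨0, 0, 0, 0, 0, 48725965, 0, 0, 0, ⟨0, 0⟩, 0⟩,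 0, 0⟩ 0 0)))))))))))) (.cut .v 25165824 (.cut .d (-8388608) (.void 23 ⟨⟨0, 0, 0, 0, 0, 100000, 0, 0, 0, ⟨0, 0⟩, 0⟩, 0, 0⟩ 0 0) (.cut .d (-4194304) (.void 23 ⟨⟨0, 0, 0, 0, 0, 100000, 0, 0, 0, ⟨0, 0⟩, 0⟩, 0, 0⟩ 0 0) (.cut .v 20971520 (.cut .d (-2097152) (.void 25 ⟨⟨0, 0, 0, 0, 0, 100000, 0, 0, 0, ⟨0, 0⟩, 0⟩, 0, 0⟩ 0 0) (.cut .d (-1048576) (.void 25 ⟨⟨0, 0, 0, 0, 0, 100000, 0, 0, 0, ⟨0, 0⟩, 0⟩, 0, 0⟩ 0 0) (.cut .d (-524288) (.void 25 ⟨⟨0, 0, 0, 0, 0, 100000, 0, 0, 0, ⟨0, 0⟩, 0⟩, 0, 0⟩ 0 0) (.cut .v 18874368 (.cut .d (-262144) (.void 27 ⟨⟨0, 0, 0, 0, 0, 100000, 0, 0, 0, ⟨0, 0⟩, 0⟩, 0, 0⟩ 0 0) (.cut .d (-131072) (.void 27 ⟨⟨0, 0, 0,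 0, 0, 100000, 0, 0, 0, ⟨0, 0⟩, 0⟩, 0, 0⟩ 0 0) (.cut .d (-65536) (.void 27 ⟨⟨0, 0, 0, 0, 0, 100000, 0, 0, 0, ⟨0, 0⟩, 0⟩, 0, 0⟩ 0 0) (.cut .v 17825792 (.cut .v 17301504 (.cut .d (-32768) (.pos 31 .mp ⟨⟨28166759, 0, 0, 0, 0, 18388527, 0, 0, 0, ⟨0, 0⟩, 0⟩, 0, 0⟩ 0 0) (.cut .v 17039360 (.cut .v 16908288 (.cut .v 16842752 (.cut .s 8323072 (.cut .s 8192000 (.pos 37 .mp ⟨⟨22602610, 0, 0, 0, 0, 13934813, 0, 0, 0, ⟨0, 0⟩, 0⟩, 0, 0⟩ 0 0) (.pos 37 .mp ⟨⟨24432219, 0, 0, 0, 0, 15265114, 0, 0, 0, ⟨0, 0⟩, 0⟩, 0, 0⟩ 0 0)) (.cut .s 8454144 (.pos 37 .mp ⟨⟨26632261, 0, 0, 0, 0, 16544998, 0, 0, 0, ⟨0, 0⟩, 0⟩, 0, 0⟩ 0 0) (.pos 37 .mp ⟨⟨29283417, 0,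 0, 0, 0, 17674479, 0, 0, 0, ⟨0, 0⟩, 0⟩, 0, 0⟩ 0 0))) (.pos 38 .mp ⟨⟨40729683, 0, 0, 0, 0, 0, 0, 0, 0, ⟨0, 0⟩, 0⟩, 0, 0⟩ 0 0)) (.pos 36 .mp ⟨⟨42407695, 0, 0, 0, 0, 0, 0, 0, 0, ⟨0, 0⟩, 0⟩, 0, 0⟩ 0 0)) (.void 34 ⟨⟨100000, 0, 0, 0, 0, 0, 0, 0, 0, ⟨0, 0⟩, 0⟩, 0, 0⟩ 0 0))) (.void 32 ⟨⟨100000, 0, 0, 0, 0, 0, 0, 0, 0, ⟨0, 0⟩, 0⟩, 0, 0⟩ 0 0)) (.void 30 ⟨⟨100000, 0, 0, 0, 0, 0, 0, 0, 0, ⟨0, 0⟩, 0⟩, 0, 0⟩ 0 0))))) (.void 28 ⟨⟨100000, 0, 0, 0, 0, 0, 0, 0, 0, ⟨0, 0⟩, 0⟩, 0, 0⟩ 0 0))))) (.void 26 ⟨⟨100000, 0, 0, 0, 0, 0, 0, 0, 0, ⟨0, 0⟩, 0⟩, 0, 0⟩ 0 0)))) (.void 24 ⟨⟨100000, 0, 0, 0, 0, 0, 0, 0, 0, ⟨0, 0⟩, 0⟩, 0, 0⟩ 0 0))) (.cut .v 16777216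 (.cut .d 7408722 (.cut .d 3704361 (.cut .d 1852180 (.cut .v 8388608 (.cut .v 4194304 (.void 4 ⟨⟨0, 0, 100000, 0, 0, 0, 0, 0, 0, ⟨0, 0⟩, 0⟩, 0, 0⟩ 0 0) (.pos 5 .pm ⟨⟨0, 0, 0, 0, 0, 0, 0, 0, 0, ⟨0, 0⟩, 0⟩, 0, 0⟩ 0 0)) (.cut .v 12582912 (.pos 8 .pm ⟨⟨0, 0, 0, 0, 0, 0, 0, 0, 0, ⟨0, 0⟩, 0⟩, 0, 0⟩ 0 0) (.pos 9 .pm ⟨⟨0, 0, 0, 0, 0, 0, 0, 0, 0, ⟨0, 0⟩, 0⟩, 0, 0⟩ 0 0))) (.void 1 ⟨⟨0, 0, 0, 0, 0, 0, 0, 0, 0, ⟨0, 0⟩, 0⟩, 0, 100000⟩ 0 0)) (.void 1 ⟨⟨0, 0, 0, 0, 0, 0, 0, 0, 0, ⟨0, 0⟩, 0⟩, 0, 100000⟩ 0 0)) (.void 1 ⟨⟨0, 0, 0, 0, 0, 0, 0, 0, 0, ⟨0, 0⟩, 0⟩, 0, 100000⟩ 0 0)) (.cut .d 7408722 (.cut .d 3704361 (.cut .d 1852180 (.cut .v 25165824 (.cut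 .v 20971520 (.cut .d 926090 (.cut .v 18874368 (.cut .d 463045 (.cut .s 8323072 (.pos 27 .pp ⟨⟨28823286, 0, 0, 0, 0, 0, 0, 0, 0, ⟨0, 0⟩, 0⟩, 0, 50370⟩ 0 0) (.pos 27 .pp ⟨⟨34592185, 0, 0, 0, 0, 0, 0, 0, 0, ⟨0, 0⟩, 0⟩, 0, 30937⟩ 0 0)) (.pos 27 .pp ⟨⟨0, 0, 0, 0, 0, 0, 0, 0, 0, ⟨0, 0⟩, 0⟩, 0, 868635⟩ 0 0)) (.cut .d 463045 (.pos 28 .pp ⟨⟨48074370, 0, 0, 0, 0, 0, 0, 0, 0, ⟨0, 0⟩, 0⟩, 0, 0⟩ 0 0) (.pos 28 .pp ⟨⟨29627169, 0, 0, 0, 0, 0, 0, 0, 0, ⟨0, 0⟩, 0⟩, 0, 386008⟩ 0 0))) (.pos 25 .pp ⟨⟨0, 0, 0, 0, 0, 0, 0, 0, 0, ⟨0, 0⟩, 0⟩, 0, 911531⟩ 0 0)) (.cut .d 926090 (.cut .v 23068672 (.pos 65 .pp ⟨⟨54856670, 0, 0, 0, 0, 0, 0, 0, 0, ⟨0, 0⟩, 0⟩,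 0, 0⟩ 0 0) (.void 66 ⟨⟨0, 0, 0, 0, 0, 0, 0, 0, 0, ⟨0, 0⟩, 0⟩, 100000, 0⟩ 0 0)) (.cut .d 1389135 (.cut .v 23068672 (.pos 65 .pp ⟨⟨0, 0, 0, 0, 0, 0, 3462163, 0, 0, ⟨0, 0⟩, 0⟩, 2482641, 0⟩ 0 0) (.cut .l 115343 (.void 66 ⟨⟨0, 0, 0, 0, 0, 0, 0, 0, 0, ⟨0, 0⟩, 0⟩, 15806, 84194⟩ 0 0) (.cut .l 173015 (.pos 66 .pp ⟨⟨0, 0, 0, 0, 0, 0, 26454192, 0, 0, ⟨0, 0⟩, 0⟩, 3741913, 0⟩ 0 0) (.cut .d 1157612 (.cut .v 24117248 (.cut .v 23592960 (.pos 73 .pp ⟨⟨0, 0, 0, 0, 0, 0, 4026288, 0, 0, ⟨0, 0⟩, 0⟩, 3431043, 0⟩ 0 0) (.pos 74 .pp ⟨⟨0, 0, 0, 0, 0, 0, 244271, 0, 0, ⟨0, 0⟩, 0⟩, 4688477, 0⟩ 0 0)) (.pos 72 .pp ⟨⟨0, 0, 0, 0, 0, 0, 0, 0, 0, ⟨0, 0⟩, 0⟩, 9049692,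 0⟩ 0 0)) (.cut .l 201851 (.pos 66 .pp ⟨⟨0, 0, 0, 0, 0, 0, 28781772, 0, 0, ⟨0, 0⟩, 0⟩, 3174046, 0⟩ 0 0) (.cut .s 8323072 (.cut .l 216269 (.pos 66 .pp ⟨⟨0, 0, 0, 0, 0, 0, 24545247, 0, 0, ⟨0, 0⟩, 0⟩, 2823419, 0⟩ 0 0) (.cut .v 24117248 (.cut .s 8192000 (.pos 71 .pp ⟨⟨0, 0, 0, 0, 0, 0, 20614272, 0, 0, ⟨0, 0⟩, 0⟩, 2515201, 0⟩ 0 0) (.cut .d 1273373 (.pos 71 .pp ⟨⟨0, 0, 0, 0, 0, 0, 11397966, 0, 0, ⟨0, 0⟩, 0⟩, 3128124, 0⟩ 0 0) (.pos 71 .pp ⟨⟨0, 0, 0, 0, 0, 0, 30288267, 0, 0, ⟨0, 0⟩, 0⟩, 0, 0⟩ 0 0))) (.cut .d 1273373 (.pos 72 .pp ⟨⟨0, 0, 0, 0, 0, 0, 15764920, 0, 0, ⟨0, 0⟩, 0⟩, 3680789, 0⟩ 0 0) (.pos 72 .pp ⟨⟨0, 0, 0, 0, 0, 0, 63369001, 0,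 0, ⟨0, 0⟩, 0⟩, 0, 0⟩ 0 0)))) (.cut .v 24117248 (.pos 71 .pp ⟨⟨0, 0, 0, 0, 0, 0, 834986, 0, 0, ⟨0, 0⟩, 0⟩, 3354900, 0⟩ 0 0) (.cut .d 1273373 (.pos 72 .pp ⟨⟨0, 0, 0, 0, 0, 0, 7776574, 0, 0, ⟨0, 0⟩, 0⟩, 4265421, 0⟩ 0 0) (.cut .v 24641536 (.pos 75 .pp ⟨⟨0, 0, 0, 0, 0, 0, 14248610, 0, 0, ⟨0, 0⟩, 0⟩, 3360652, 0⟩ 0 0) (.cut .s 8454144 (.cut .d 1331254 (.pos 76 .pp ⟨⟨0, 0, 0, 0, 0, 0, 14813608, 0, 0, ⟨0, 0⟩, 0⟩, 3959365, 0⟩ 0 0) (.cut .s 8388608 (.pos 76 .pp ⟨⟨0, 0, 0, 0, 0, 0, 67096835, 0, 0, ⟨0, 0⟩, 0⟩, 0, 0⟩ 0 0) (.pos 76 .pp ⟨⟨0, 0, 0, 0, 0, 0, 16848305, 0, 0, ⟨0, 0⟩, 0⟩, 3758002, 0⟩ 0 0))) (.pos 76 .pp ⟨⟨0, 0, 0, 0, 0, 0, 13104417,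 0, 0, ⟨0, 0⟩, 0⟩, 4031455, 0⟩ 0 0))))))))))) (.pos 26 .pp ⟨⟨0, 0, 0, 0, 0, 0, 37976985, 0, 0, ⟨0, 0⟩, 0⟩, 0, 0⟩ 0 0)))) (.cut .d 926090 (.void 24 ⟨⟨0, 0, 0, 0, 0, 0, 0, 0, 0, ⟨0, 0⟩, 0⟩, 100000, 0⟩ 0 0) (.cut .v 29360128 (.cut .v 27262976 (.cut .s 8323072 (.void 81 ⟨⟨0, 0, 0, 0, 0, 0, 100000, 0, 0, ⟨0, 0⟩, 0⟩, 0, 0⟩ 0 0) (.cut .v 26214400 (.cut .s 8454144 (.void 83 ⟨⟨0, 0, 0, 0, 0, 0, 100000, 0, 0, ⟨0, 0⟩, 0⟩, 0, 0⟩ 0 0) (.cut .l 115343 (.void 83 ⟨⟨0, 0, 0, 0, 0, 0, 0, 0, 0, ⟨0, 0⟩, 0⟩, 15806, 84194⟩ 0 0) (.cut .l 173015 (.void 83 ⟨⟨0, 0, 0, 0, 0, 0, 100000, 0, 0, ⟨0, 0⟩, 0⟩, 0, 0⟩ 0 0) (.cut .l 201851 (.void 83 ⟨⟨0, 0, 0, 0, 0,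 0, 100000, 0, 0, ⟨0, 0⟩, 0⟩, 0, 0⟩ 0 0) (.cut .d 1389135 (.cut .v 25690112 (.pos 85 .pp ⟨⟨0, 0, 0, 0, 0, 0, 14487027, 0, 0, ⟨0, 0⟩, 0⟩, 5014832, 0⟩ 0 0) (.void 86 ⟨⟨0, 0, 0, 0, 0, 0, 0, 0, 0, ⟨0, 0⟩, 0⟩, 100000, 0⟩ 0 0)) (.cut .d 1620657 (.cut .d 1504896 (.cut .l 216269 (.pos 83 .pp ⟨⟨0, 0, 0, 0, 0, 0, 24443166, 0, 0, ⟨0, 0⟩, 0⟩, 4137468, 0⟩ 0 0) (.cut .l 223478 (.pos 83 .pp ⟨⟨0, 0, 0, 0, 0, 0, 24161242, 0, 0, ⟨0, 0⟩, 0⟩, 4157346, 0⟩ 0 0) (.cut .l 227082 (.pos 83 .pp ⟨⟨0, 0, 0, 0, 0, 0, 24022970, 0, 0, ⟨0, 0⟩, 0⟩, 4167093, 0⟩ 0 0) (.cut .v 25690112 (.cut .s 8519680 (.cut .d 1447015 (.pos 85 .pp ⟨⟨0, 0, 0, 0, 0, 0, 21079891, 0,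 0, ⟨0, 0⟩, 0⟩, 4038293, 0⟩ 0 0) (.pos 85 .pp ⟨⟨0, 0, 0, 0, 0, 0, 74812579, 0, 0, ⟨0, 0⟩, 0⟩, 0, 0⟩ 0 0)) (.pos 85 .pp ⟨⟨0, 0, 0, 0, 0, 0, 16490261, 0, 0, ⟨0, 0⟩, 0⟩, 4223135, 0⟩ 0 0)) (.cut .s 8519680 (.void 86 ⟨⟨0, 0, 0, 0, 0, 0, 100000, 0, 0, ⟨0, 0⟩, 0⟩, 0, 0⟩ 0 0) (.pos 86 .pp ⟨⟨0, 0, 0, 0, 0, 0, 21596792, 0, 0, ⟨0, 0⟩, 0⟩, 4486464, 0⟩ 0 0)))))) (.pos 83 .pp ⟨⟨0, 0, 0, 0, 0, 0, 78781215, 0, 0, ⟨0, 0⟩, 0⟩, 0, 0⟩ 0 0)) (.pos 83 .pp ⟨⟨0, 0, 0, 0, 0, 0, 76453936, 0, 0, ⟨0, 0⟩, 0⟩, 0, 0⟩ 0 0))))))) (.void 84 ⟨⟨0, 0, 0, 0, 0, 0, 100000, 0, 0, ⟨0, 0⟩, 0⟩, 0, 0⟩ 0 0))) (.void 82 ⟨⟨0, 0, 0, 0, 0, 0, 100000, 0, 0, ⟨0, 0⟩, 0⟩, 0, 0⟩ 0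 0)) (.void 80 ⟨⟨0, 0, 0, 0, 0, 0, 0, 0, 0, ⟨0, 0⟩, 0⟩, 100000, 0⟩ 0 0)))) (.void 22 ⟨⟨0, 0, 0, 0, 0, 0, 34972, 0, 0, ⟨0, 0⟩, 0⟩, 0, 65028⟩ 0 0)) (.void 22 ⟨⟨0, 0, 0, 0, 0, 0, 0, 0, 0, ⟨0, 0⟩, 0⟩, 0, 100000⟩ 0 0)) (.void 22 ⟨⟨0, 0, 0, 0, 0, 0, 0, 0, 0, ⟨0, 0⟩, 0⟩, 0, 100000⟩ 0 0)))),
    by decide +kernel⟩

def covers10 : cell.Covers Vale.Agent.P237.Petty.Cor.Grid.N16.table row10.1 :=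
  ⟨(.cut .d 0 (.cut .v 16777216 (.cut .d (-8388608) (.void 1 ⟨⟨0, 0, 0, 0, 0, 100000, 0, 0, 0, ⟨0, 0⟩, 0⟩, 0, 0⟩ 0 0) (.cut .d (-4194304) (.void 1 ⟨⟨0, 0, 0, 0, 0, 100000, 0, 0, 0, ⟨0, 0⟩, 0⟩, 0, 0⟩ 0 0) (.cut .d (-2097152) (.void 1 ⟨⟨0, 0, 0, 0, 0, 100000, 0, 0, 0, ⟨0, 0⟩, 0⟩, 0, 0⟩ 0 0) (.cut .d (-1048576) (.void 1 ⟨⟨0, 0, 0, 0, 0, 100000, 0, 0, 0, ⟨0, 0⟩, 0⟩, 0, 0⟩ 0 0) (.cut .d (-524288) (.void 1 ⟨⟨0, 0, 0, 0, 0, 100000, 0, 0, 0, ⟨0, 0⟩, 0⟩, 0, 0⟩ 0 0) (.cut .d (-262144) (.void 1 ⟨⟨0, 0, 0, 0, 0, 100000, 0, 0, 0, ⟨0, 0⟩, 0⟩, 0, 0⟩ 0 0) (.cut .d (-131072) (.void 1 ⟨⟨0, 0, 0, 0, 0, 100000, 0, 0, 0, ⟨0, 0⟩, 0⟩, 0, 0⟩ 0 0) (.cut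 .d (-65536) (.void 1 ⟨⟨0, 0, 0, 0, 0, 100000, 0, 0, 0, ⟨0, 0⟩, 0⟩, 0, 0⟩ 0 0) (.cut .v 8388608 (.cut .v 4194304 (.void 4 ⟨⟨0, 0, 100000, 0, 0, 0, 0, 0, 0, ⟨0, 0⟩, 0⟩, 0, 0⟩ 0 0) (.pos 5 .mm ⟨⟨0, 0, 0, 0, 0, 24085964, 0, 0, 0, ⟨0, 0⟩, 0⟩, 0, 0⟩ 0 0)) (.cut .s 8814592 (.pos 3 .mm ⟨⟨0, 0, 0, 0, 0, 58060427, 0, 0, 0, ⟨0, 0⟩, 0⟩, 0, 0⟩ 0 0) (.pos 3 .mm ⟨⟨0, 0, 0, 0, 0, 66406098, 0, 0, 0, ⟨0, 0⟩, 0⟩, 0, 0⟩ 0 0))))))))))) (.cut .v 25165824 (.cut .d (-8388608) (.void 23 ⟨⟨0, 0, 0, 0, 0, 100000, 0, 0, 0, ⟨0, 0⟩, 0⟩, 0, 0⟩ 0 0) (.cut .v 20971520 (.cut .d (-4194304) (.void 25 ⟨⟨0, 0, 0, 0, 0, 100000, 0, 0, 0, ⟨0, 0⟩, 0⟩, 0, 0⟩ 0 0) (.cut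 .d (-2097152) (.void 25 ⟨⟨0, 0, 0, 0, 0, 100000, 0, 0, 0, ⟨0, 0⟩, 0⟩, 0, 0⟩ 0 0) (.cut .d (-1048576) (.void 25 ⟨⟨0, 0, 0, 0, 0, 100000, 0, 0, 0, ⟨0, 0⟩, 0⟩, 0, 0⟩ 0 0) (.cut .d (-524288) (.void 25 ⟨⟨0, 0, 0, 0, 0, 100000, 0, 0, 0, ⟨0, 0⟩, 0⟩, 0, 0⟩ 0 0) (.cut .v 18874368 (.cut .d (-262144) (.void 27 ⟨⟨0, 0, 0, 0, 0, 100000, 0, 0, 0, ⟨0, 0⟩, 0⟩, 0, 0⟩ 0 0) (.cut .d (-131072) (.void 27 ⟨⟨0, 0, 0, 0, 0, 100000, 0, 0, 0, ⟨0, 0⟩, 0⟩, 0, 0⟩ 0 0) (.cut .d (-65536) (.void 27 ⟨⟨0, 0, 0, 0, 0, 100000, 0, 0, 0, ⟨0, 0⟩, 0⟩, 0, 0⟩ 0 0) (.cut .d (-32768) (.pos 27 .mp ⟨⟨46423624, 0, 0, 0, 0, 25174405, 0, 0, 0, ⟨0, 0⟩, 0⟩, 0, 0⟩ 0 0) (.cut .v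 17825792 (.cut .v 17301504 (.cut .v 17039360 (.cut .v 16908288 (.cut .v 16842752 (.cut .s 8814592 (.cut .s 8699904 (.pos 37 .mp ⟨⟨32991706, 0, 0, 0, 0, 17769934, 0, 0, 0, ⟨0, 0⟩, 0⟩, 0, 0⟩ 0 0) (.pos 37 .mp ⟨⟨32877933, 0, 0, 0, 0, 21141479, 0, 0, 0, ⟨0, 0⟩, 0⟩, 0, 0⟩ 0 0)) (.cut .s 8929280 (.pos 37 .mp ⟨⟨33096864, 0, 0, 0, 0, 24619854, 0, 0, 0, ⟨0, 0⟩, 0⟩, 0, 0⟩ 0 0) (.cut .s 8986624 (.pos 37 .mp ⟨⟨36442676, 0, 0, 0, 0, 23690931, 0, 0, 0, ⟨0, 0⟩, 0⟩, 0, 0⟩ 0 0) (.pos 37 .mp ⟨⟨36930285, 0, 0, 0, 0, 25256593, 0, 0, 0, ⟨0, 0⟩, 0⟩, 0, 0⟩ 0 0)))) (.pos 38 .mp ⟨⟨54989027, 0, 0, 0, 0, 0, 0, 0, 0, ⟨0, 0⟩, 0⟩, 0, 0⟩ 0 0)) (.pos 36 .mp ⟨⟨56886752,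 0, 0, 0, 0, 0, 0, 0, 0, ⟨0, 0⟩, 0⟩, 0, 0⟩ 0 0)) (.void 34 ⟨⟨100000, 0, 0, 0, 0, 0, 0, 0, 0, ⟨0, 0⟩, 0⟩, 0, 0⟩ 0 0)) (.void 32 ⟨⟨100000, 0, 0, 0, 0, 0, 0, 0, 0, ⟨0, 0⟩, 0⟩, 0, 0⟩ 0 0)) (.void 30 ⟨⟨100000, 0, 0, 0, 0, 0, 0, 0, 0, ⟨0, 0⟩, 0⟩, 0, 0⟩ 0 0)))))) (.void 28 ⟨⟨100000, 0, 0, 0, 0, 0, 0, 0, 0, ⟨0, 0⟩, 0⟩, 0, 0⟩ 0 0)))))) (.void 26 ⟨⟨100000, 0, 0, 0, 0, 0, 0, 0, 0, ⟨0, 0⟩, 0⟩, 0, 0⟩ 0 0))) (.void 24 ⟨⟨100000, 0, 0, 0, 0, 0, 0, 0, 0, ⟨0, 0⟩, 0⟩, 0, 0⟩ 0 0))) (.cut .v 16777216 (.cut .d 8004398 (.cut .d 4002199 (.cut .v 8388608 (.cut .v 4194304 (.void 4 ⟨⟨0, 0, 66667, 0, 0, 0, 0, 0, 0, ⟨0, 0⟩, 0⟩, 0, 33333⟩ 0 0) (.pos 5 .pm ⟨⟨0,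 0, 0, 0, 0, 0, 0, 0, 0, ⟨0, 0⟩, 0⟩, 0, 0⟩ 0 0)) (.pos 3 .pm ⟨⟨0, 0, 0, 0, 0, 0, 0, 0, 0, ⟨0, 0⟩, 0⟩, 0, 0⟩ 0 0)) (.void 1 ⟨⟨0, 0, 0, 0, 0, 0, 0, 0, 0, ⟨0, 0⟩, 0⟩, 0, 100000⟩ 0 0)) (.void 1 ⟨⟨0, 0, 0, 0, 0, 0, 0, 0, 0, ⟨0, 0⟩, 0⟩, 0, 100000⟩ 0 0)) (.cut .d 8004398 (.cut .d 4002199 (.cut .v 25165824 (.cut .d 2001099 (.cut .v 20971520 (.cut .d 1000549 (.cut .d 500274 (.cut .v 18874368 (.cut .s 8814592 (.pos 27 .pp ⟨⟨39973628, 0, 0, 0, 0, 0, 0, 0, 0, ⟨0, 0⟩, 0⟩, 81679, 0⟩ 0 0) (.pos 27 .pp ⟨⟨43551521, 0, 0, 0, 0, 0, 0, 0, 0, ⟨0, 0⟩, 0⟩, 410817, 0⟩ 0 0)) (.pos 28 .pp ⟨⟨62576282, 0, 0, 0, 0, 0, 0, 0, 0, ⟨0, 0⟩, 0⟩, 0, 0⟩ 0 0)) (.pos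 25 .pp ⟨⟨35455331, 0, 0, 0, 0, 0, 0, 0, 0, ⟨0, 0⟩, 0⟩, 0, 365410⟩ 0 0)) (.pos 25 .pp ⟨⟨0, 0, 0, 0, 0, 0, 0, 0, 0, ⟨0, 0⟩, 0⟩, 0, 875580⟩ 0 0)) (.cut .d 1000549 (.cut .v 23068672 (.cut .d 500274 (.void 65 ⟨⟨0, 0, 0, 0, 0, 0, 0, 0, 0, ⟨0, 0⟩, 0⟩, 100000, 0⟩ 0 0) (.pos 65 .pp ⟨⟨59109292, 0, 0, 0, 0, 0, 521933, 0, 0, ⟨0, 0⟩, 0⟩, 0, 0⟩ 0 0)) (.pos 66 .pp ⟨⟨0, 0, 0, 0, 0, 0, 0, 0, 0, ⟨0, 0⟩, 0⟩, 7976146, 0⟩ 0 0)) (.cut .d 1500824 (.cut .v 23068672 (.pos 65 .pp ⟨⟨0, 0, 0, 0, 0, 0, 2112660, 0, 0, ⟨0, 0⟩, 0⟩, 0, 0⟩ 0 0) (.pos 66 .pp ⟨⟨0, 0, 0, 0, 0, 0, 643032, 0, 0, ⟨0, 0⟩, 0⟩, 4792591, 0⟩ 0 0)) (.pos 26 .pp ⟨⟨0, 0, 0, 0, 0, 0, 2304720,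 0, 0, ⟨0, 0⟩, 0⟩, 0, 0⟩ 0 0)))) (.pos 23 .pp ⟨⟨0, 0, 0, 0, 0, 0, 0, 0, 0, ⟨0, 0⟩, 0⟩, 0, 46257687⟩ 0 0)) (.cut .l 115343 (.void 24 ⟨⟨0, 0, 0, 0, 0, 0, 100000, 0, 0, ⟨0, 0⟩, 0⟩, 0, 0⟩ 0 0) (.cut .d 2001099 (.cut .v 29360128 (.cut .d 1000549 (.void 79 ⟨⟨0, 0, 0, 0, 0, 0, 0, 0, 0, ⟨0, 0⟩, 0⟩, 100000, 0⟩ 0 0) (.cut .d 1500824 (.cut .v 27262976 (.cut .v 26214400 (.pos 83 .pp ⟨⟨0, 0, 0, 0, 0, 0, 2287358, 0, 0, ⟨0, 0⟩, 0⟩, 5580850, 0⟩ 0 0) (.pos 84 .pp ⟨⟨0, 0, 0, 0, 0, 0, 0, 0, 0, ⟨0, 0⟩, 0⟩, 9430259, 0⟩ 0 0)) (.void 82 ⟨⟨0, 0, 0, 0, 0, 0, 0, 0, 0, ⟨0, 0⟩, 0⟩, 100000, 0⟩ 0 0)) (.cut .l 173015 (.pos 79 .pp ⟨⟨0, 0, 0, 0, 0, 0, 117359327,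 0, 0, ⟨0, 0⟩, 0⟩, 0, 0⟩ 0 0) (.cut .v 27262976 (.cut .d 1750961 (.cut .v 26214400 (.pos 83 .pp ⟨⟨0, 0, 0, 0, 0, 0, 22044070, 0, 0, ⟨0, 0⟩, 0⟩, 4069836, 0⟩ 0 0) (.cut .s 8814592 (.cut .d 1625892 (.cut .s 8699904 (.cut .v 26738688 (.pos 91 .pp ⟨⟨0, 0, 0, 0, 0, 0, 22858929, 0, 0, ⟨0, 0⟩, 0⟩, 4646278, 0⟩ 0 0) (.pos 92 .pp ⟨⟨0, 0, 0, 0, 0, 0, 27148271, 0, 0, ⟨0, 0⟩, 0⟩, 5192111, 0⟩ 0 0)) (.pos 84 .pp ⟨⟨0, 0, 0, 0, 0, 0, 15449063, 0, 0, ⟨0, 0⟩, 0⟩, 5360292, 0⟩ 0 0)) (.pos 84 .pp ⟨⟨0, 0, 0, 0, 0, 0, 34944309, 0, 0, ⟨0, 0⟩, 0⟩, 3997375, 0⟩ 0 0)) (.pos 84 .pp ⟨⟨0, 0, 0, 0, 0, 0, 339057, 0, 0, ⟨0, 0⟩, 0⟩, 5898601, 0⟩ 0 0))) (.pos 81 .pp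 ⟨⟨0, 0, 0, 0, 0, 0, 48464619, 0, 0, ⟨0, 0⟩, 0⟩, 0, 0⟩ 0 0)) (.cut .l 201851 (.pos 82 .pp ⟨⟨0, 0, 0, 0, 0, 0, 41235161, 0, 0, ⟨0, 0⟩, 0⟩, 5911047, 0⟩ 0 0) (.cut .d 1750961 (.cut .s 8814592 (.pos 82 .pp ⟨⟨0, 0, 0, 0, 0, 0, 34253234, 0, 0, ⟨0, 0⟩, 0⟩, 5898601, 0⟩ 0 0) (.pos 82 .pp ⟨⟨0, 0, 0, 0, 0, 0, 0, 0, 0, ⟨0, 0⟩, 0⟩, 7485637, 0⟩ 0 0)) (.cut .s 8814592 (.pos 82 .pp ⟨⟨0, 0, 0, 0, 0, 0, 40974062, 0, 0, ⟨0, 0⟩, 0⟩, 4733371, 0⟩ 0 0) (.pos 82 .pp ⟨⟨0, 0, 0, 0, 0, 0, 26803101, 0, 0, ⟨0, 0⟩, 0⟩, 5555863, 0⟩ 0 0)))))))) (.pos 80 .pp ⟨⟨0, 0, 0, 0, 0, 0, 32168940, 0, 0, ⟨0, 0⟩, 0⟩, 10736790, 0⟩ 0 0)) (.cut .v 29360128 (.pos 79 .pp ⟨⟨0, 0,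 0, 0, 0, 0, 76100078, 0, 0, ⟨0, 0⟩, 0⟩, 0, 0⟩ 0 0) (.pos 80 .pp ⟨⟨0, 0, 0, 0, 0, 0, 101379194, 0, 0, ⟨0, 0⟩, 0⟩, 3338331, 0⟩ 0 0))))) (.void 22 ⟨⟨0, 0, 0, 0, 0, 0, 0, 0, 0, ⟨0, 0⟩, 0⟩, 0, 100000⟩ 0 0)) (.void 22 ⟨⟨0, 0, 0, 0, 0, 0, 0, 0, 0, ⟨0, 0⟩, 0⟩, 0, 100000⟩ 0 0)))),
    by decide +kernel⟩

def covers11 : cell.Covers Vale.Agent.P237.Petty.Cor.Grid.N16.table row11.1 :=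
  ⟨(.cut .d 0 (.cut .v 16777216 (.cut .d (-8388608) (.void 1 ⟨⟨0, 0, 0, 0, 0, 100000, 0, 0, 0, ⟨0, 0⟩, 0⟩, 0, 0⟩ 0 0) (.cut .d (-4194304) (.void 1 ⟨⟨0, 0, 0, 0, 0, 100000, 0, 0, 0, ⟨0, 0⟩, 0⟩, 0, 0⟩ 0 0) (.cut .d (-2097152) (.void 1 ⟨⟨0, 0, 0, 0, 0, 100000, 0, 0, 0, ⟨0, 0⟩, 0⟩, 0, 0⟩ 0 0) (.cut .d (-1048576) (.void 1 ⟨⟨0, 0, 0, 0, 0, 100000, 0, 0, 0, ⟨0, 0⟩, 0⟩, 0, 0⟩ 0 0) (.cut .d (-524288) (.void 1 ⟨⟨0, 0, 0, 0, 0, 100000, 0, 0, 0, ⟨0, 0⟩, 0⟩, 0, 0⟩ 0 0) (.cut .d (-262144) (.void 1 ⟨⟨0, 0, 0, 0, 0, 100000, 0, 0, 0, ⟨0, 0⟩, 0⟩, 0, 0⟩ 0 0) (.cut .d (-131072) (.void 1 ⟨⟨0, 0, 0, 0, 0, 100000, 0, 0, 0, ⟨0, 0⟩, 0⟩, 0, 0⟩ 0 0) (.cut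 .d (-65536) (.void 1 ⟨⟨0, 0, 0, 0, 0, 100000, 0, 0, 0, ⟨0, 0⟩, 0⟩, 0, 0⟩ 0 0) (.cut .d (-32768) (.void 1 ⟨⟨0, 0, 0, 0, 0, 100000, 0, 0, 0, ⟨0, 0⟩, 0⟩, 0, 0⟩ 0 0) (.cut .v 8388608 (.cut .v 4194304 (.void 4 ⟨⟨0, 0, 100000, 0, 0, 0, 0, 0, 0, ⟨0, 0⟩, 0⟩, 0, 0⟩ 0 0) (.pos 5 .mm ⟨⟨0, 0, 0, 0, 0, 32391022, 0, 0, 0, ⟨0, 0⟩, 0⟩, 0, 0⟩ 0 0)) (.cut .v 12582912 (.pos 8 .mm ⟨⟨0, 0, 0, 0, 0, 47287704, 0, 0, 0, ⟨0, 0⟩, 0⟩, 0, 0⟩ 0 0) (.cut .v 14680064 (.pos 12 .mm ⟨⟨0, 0, 0, 0, 0, 55706126, 0, 0, 0, ⟨0, 0⟩, 0⟩, 0, 0⟩ 0 0) (.cut .v 15728640 (.pos 20 .mm ⟨⟨0, 0, 0, 0, 0, 60170089, 0, 0, 0, ⟨0, 0⟩, 0⟩, 0, 0⟩ 0 0) (.cut .v 16252928 (.pos 41 .mm ⟨⟨0,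 0, 0, 0, 0, 62465759, 0, 0, 0, ⟨0, 0⟩, 0⟩, 0, 0⟩ 0 0) (.cut .v 16515072 (.pos 43 .mm ⟨⟨0, 0, 0, 0, 0, 75465470, 0, 0, 0, ⟨0, 0⟩, 0⟩, 0, 0⟩ 0 0) (.cut .v 16646144 (.pos 51 .mm ⟨⟨0, 0, 0, 0, 0, 80790321, 0, 0, 0, ⟨0, 0⟩, 0⟩, 0, 0⟩ 0 0) (.cut .v 16711680 (.pos 53 .mm ⟨⟨0, 0, 0, 0, 0, 83304087, 0, 0, 0, ⟨0, 0⟩, 0⟩, 0, 0⟩ 0 0) (.cut .s 9306112 (.cut .s 9175040 (.pos 54 .mm ⟨⟨0, 0, 0, 0, 0, 75077696, 0, 0, 0, ⟨0, 0⟩, 0⟩, 0, 0⟩ 0 0) (.pos 54 .mm ⟨⟨0, 0, 0, 0, 0, 81419635, 0, 0, 0, ⟨0, 0⟩, 0⟩, 0, 0⟩ 0 0)) (.cut .s 9437184 (.pos 54 .mm ⟨⟨0, 0, 0, 0, 0, 88544267, 0, 0, 0, ⟨0, 0⟩, 0⟩, 0, 0⟩ 0 0) (.pos 54 .mm ⟨⟨0, 0, 0, 0, 0, 96470012, 0,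 0, 0, ⟨0, 0⟩, 0⟩, 0, 0⟩ 0 0)))))))))))))))))))) (.cut .v 33554432 (.cut .v 25165824 (.cut .d (-8388608) (.void 23 ⟨⟨0, 0, 0, 0, 0, 100000, 0, 0, 0, ⟨0, 0⟩, 0⟩, 0, 0⟩ 0 0) (.cut .v 20971520 (.cut .d (-4194304) (.void 25 ⟨⟨0, 0, 0, 0, 0, 100000, 0, 0, 0, ⟨0, 0⟩, 0⟩, 0, 0⟩ 0 0) (.cut .v 18874368 (.cut .d (-2097152) (.void 27 ⟨⟨100000, 0, 0, 0, 0, 0, 0, 0, 0, ⟨0, 0⟩, 0⟩, 0, 0⟩ 0 0) (.cut .d (-1048576) (.void 27 ⟨⟨100000, 0, 0, 0, 0, 0, 0, 0, 0, ⟨0, 0⟩, 0⟩, 0, 0⟩ 0 0) (.cut .d (-524288) (.void 27 ⟨⟨100000, 0, 0, 0, 0, 0, 0, 0, 0, ⟨0, 0⟩, 0⟩, 0, 0⟩ 0 0) (.cut .d (-262144) (.void 27 ⟨⟨100000, 0, 0, 0, 0, 0, 0, 0, 0, ⟨0, 0⟩, 0⟩, 0, 0⟩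 0 0) (.cut .d (-131072) (.void 27 ⟨⟨0, 0, 0, 0, 0, 100000, 0, 0, 0, ⟨0, 0⟩, 0⟩, 0, 0⟩ 0 0) (.cut .d (-65536) (.void 27 ⟨⟨0, 0, 0, 0, 0, 100000, 0, 0, 0, ⟨0, 0⟩, 0⟩, 0, 0⟩ 0 0) (.cut .d (-32768) (.void 27 ⟨⟨0, 0, 0, 0, 0, 100000, 0, 0, 0, ⟨0, 0⟩, 0⟩, 0, 0⟩ 0 0) (.cut .v 17825792 (.cut .v 17301504 (.cut .v 17039360 (.cut .v 16908288 (.cut .s 9306112 (.cut .v 16842752 (.cut .s 9175040 (.cut .s 9109504 (.cut .s 9076736 (.pos 37 .mp ⟨⟨38815246, 0, 0, 0, 0, 24811350, 0, 0, 0, ⟨0, 0⟩, 0⟩, 0, 0⟩ 0 0) (.pos 37 .mp ⟨⟨39207680, 0, 0, 0, 0, 25654711, 0, 0, 0, ⟨0, 0⟩, 0⟩, 0, 0⟩ 0 0)) (.cut .s 9142272 (.pos 37 .mp ⟨⟨39628118, 0, 0, 0, 0, 26508250,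 0, 0, 0, ⟨0, 0⟩, 0⟩, 0, 0⟩ 0 0) (.pos 37 .mp ⟨⟨40002353, 0, 0, 0, 0, 27482679, 0, 0, 0, ⟨0, 0⟩, 0⟩, 0, 0⟩ 0 0))) (.cut .s 9240576 (.cut .s 9207808 (.pos 37 .mp ⟨⟨40397253, 0, 0, 0, 0, 28479877, 0, 0, 0, ⟨0, 0⟩, 0⟩, 0, 0⟩ 0 0) (.pos 37 .mp ⟨⟨41064275, 0, 0, 0, 0, 29187705, 0, 0, 0, ⟨0, 0⟩, 0⟩, 0, 0⟩ 0 0)) (.cut .d (-16384) (.pos 37 .mp ⟨⟨41765026, 0, 0, 0, 0, 31966065, 0, 0, 0, ⟨0, 0⟩, 0⟩, 0, 0⟩ 0 0) (.cut .s 9273344 (.pos 37 .mp ⟨⟨41450990, 0, 0, 0, 0, 30256064, 0, 0, 0, ⟨0, 0⟩, 0⟩, 0, 0⟩ 0 0) (.pos 37 .mp ⟨⟨42401924, 0, 0, 0, 0, 30658878, 0, 0, 0, ⟨0, 0⟩, 0⟩, 0, 0⟩ 0 0))))) (.pos 38 .mp ⟨⟨64982318, 0, 0, 0, 0, 0, 0, 0, 0, ⟨0,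 0⟩, 0⟩, 0, 0⟩ 0 0)) (.cut .v 16842752 (.cut .s 9437184 (.cut .s 9371648 (.cut .s 9338880 (.cut .s 9322496 (.pos 37 .mp ⟨⟨43797044, 0, 0, 0, 0, 30220104, 0, 0, 0, ⟨0, 0⟩, 0⟩, 0, 0⟩ 0 0) (.pos 37 .mp ⟨⟨44116886, 0, 0, 0, 0, 30662883, 0, 0, 0, ⟨0, 0⟩, 0⟩, 0, 0⟩ 0 0)) (.cut .s 9355264 (.pos 37 .mp ⟨⟨44449595, 0, 0, 0, 0, 31100357, 0, 0, 0, ⟨0, 0⟩, 0⟩, 0, 0⟩ 0 0) (.pos 37 .mp ⟨⟨44887274, 0, 0, 0, 0, 31418531, 0, 0, 0, ⟨0, 0⟩, 0⟩, 0, 0⟩ 0 0))) (.cut .s 9404416 (.cut .s 9388032 (.pos 37 .mp ⟨⟨45385941, 0, 0, 0, 0, 31671387, 0, 0, 0, ⟨0, 0⟩, 0⟩, 0, 0⟩ 0 0) (.pos 37 .mp ⟨⟨45889315, 0, 0, 0, 0, 31928443, 0, 0, 0, ⟨0, 0⟩, 0⟩, 0, 0⟩ 0 0))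 (.cut .s 9420800 (.pos 37 .mp ⟨⟨46397424, 0, 0, 0, 0, 32189651, 0, 0, 0, ⟨0, 0⟩, 0⟩, 0, 0⟩ 0 0) (.pos 37 .mp ⟨⟨46910294, 0, 0, 0, 0, 32454961, 0, 0, 0, ⟨0, 0⟩, 0⟩, 0, 0⟩ 0 0)))) (.cut .s 9502720 (.cut .s 9469952 (.cut .s 9453568 (.pos 37 .mp ⟨⟨47427952, 0, 0, 0, 0, 32724322, 0, 0, 0, ⟨0, 0⟩, 0⟩, 0, 0⟩ 0 0) (.cut .s 9461760 (.pos 37 .mp ⟨⟨47925642, 0, 0, 0, 0, 32785852, 0, 0, 0, ⟨0, 0⟩, 0⟩, 0, 0⟩ 0 0) (.pos 37 .mp ⟨⟨48151643, 0, 0, 0, 0, 32968903, 0, 0, 0, ⟨0, 0⟩, 0⟩, 0, 0⟩ 0 0))) (.cut .d (-16384) (.pos 37 .mp ⟨⟨46242546, 0, 0, 0, 0, 38293481, 0, 0, 0, ⟨0, 0⟩, 0⟩, 0, 0⟩ 0 0) (.cut .s 9486336 (.pos 37 .mp ⟨⟨47825208, 0, 0, 0, 0,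 34060063, 0, 0, 0, ⟨0, 0⟩, 0⟩, 0, 0⟩ 0 0) (.pos 37 .mp ⟨⟨48365173, 0, 0, 0, 0, 34322757, 0, 0, 0, ⟨0, 0⟩, 0⟩, 0, 0⟩ 0 0)))) (.cut .s 9535488 (.cut .d (-16384) (.pos 37 .mp ⟨⟨47261745, 0, 0, 0, 0, 38957134, 0, 0, 0, ⟨0, 0⟩, 0⟩, 0, 0⟩ 0 0) (.cut .s 9519104 (.pos 37 .mp ⟨⟨48892428, 0, 0, 0, 0, 34617379, 0, 0, 0, ⟨0, 0⟩, 0⟩, 0, 0⟩ 0 0) (.pos 37 .mp ⟨⟨49424473, 0, 0, 0, 0, 34917036, 0, 0, 0, ⟨0, 0⟩, 0⟩, 0, 0⟩ 0 0))) (.cut .d (-16384) (.pos 37 .mp ⟨⟨48299433, 0, 0, 0, 0, 39651905, 0, 0, 0, ⟨0, 0⟩, 0⟩, 0, 0⟩ 0 0) (.cut .s 9551872 (.pos 37 .mp ⟨⟨49961337, 0, 0, 0, 0, 35221705, 0, 0, 0, ⟨0, 0⟩, 0⟩, 0, 0⟩ 0 0) (.pos 37 .mp ⟨⟨50503048, 0,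 0, 0, 0, 35531363, 0, 0, 0, ⟨0, 0⟩, 0⟩, 0, 0⟩ 0 0)))))) (.pos 38 .mp ⟨⟨75371577, 0, 0, 0, 0, 0, 0, 0, 0, ⟨0, 0⟩, 0⟩, 0, 0⟩ 0 0))) (.pos 36 .mp ⟨⟨74728798, 0, 0, 0, 0, 0, 0, 0, 0, ⟨0, 0⟩, 0⟩, 0, 0⟩ 0 0)) (.void 34 ⟨⟨100000, 0, 0, 0, 0, 0, 0, 0, 0, ⟨0, 0⟩, 0⟩, 0, 0⟩ 0 0)) (.void 32 ⟨⟨100000, 0, 0, 0, 0, 0, 0, 0, 0, ⟨0, 0⟩, 0⟩, 0, 0⟩ 0 0)) (.void 30 ⟨⟨100000, 0, 0, 0, 0, 0, 0, 0, 0, ⟨0, 0⟩, 0⟩, 0, 0⟩ 0 0))))))))) (.void 28 ⟨⟨100000, 0, 0, 0, 0, 0, 0, 0, 0, ⟨0, 0⟩, 0⟩, 0, 0⟩ 0 0))) (.void 26 ⟨⟨100000, 0, 0, 0, 0, 0, 0, 0, 0, ⟨0, 0⟩, 0⟩, 0, 0⟩ 0 0))) (.void 24 ⟨⟨100000, 0, 0, 0, 0, 0, 0, 0, 0, ⟨0, 0⟩, 0⟩, 0, 0⟩ 0 0)) (.void 97 ⟨⟨100000,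 0, 0, 0, 0, 0, 0, 0, 0, ⟨0, 0⟩, 0⟩, 0, 0⟩ 0 0))) (.cut .v 16777216 (.cut .d 7172869 (.cut .v 8388608 (.cut .v 4194304 (.void 4 ⟨⟨0, 0, 66667, 0, 0, 0, 0, 0, 0, ⟨0, 0⟩, 0⟩, 0, 33333⟩ 0 0) (.pos 5 .pm ⟨⟨0, 0, 0, 0, 0, 0, 0, 0, 0, ⟨0, 0⟩, 0⟩, 0, 0⟩ 0 0)) (.pos 3 .pm ⟨⟨0, 0, 0, 0, 0, 0, 0, 0, 0, ⟨0, 0⟩, 0⟩, 0, 0⟩ 0 0)) (.void 1 ⟨⟨0, 0, 0, 0, 0, 0, 0, 0, 0, ⟨0, 0⟩, 0⟩, 0, 100000⟩ 0 0)) (.cut .d 7172869 (.cut .v 33554432 (.cut .d 3586434 (.cut .v 25165824 (.cut .d 1793217 (.cut .v 20971520 (.cut .d 896608 (.cut .d 448304 (.cut .v 18874368 (.cut .s 9306112 (.pos 27 .pp ⟨⟨52191415, 0, 0, 0, 0, 0, 0, 0, 0, ⟨0, 0⟩, 0⟩, 372657, 0⟩ 0 0) (.pos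 27 .pp ⟨⟨60490764, 0, 0, 0, 0, 0, 0, 0, 0, ⟨0, 0⟩, 0⟩, 552966, 0⟩ 0 0)) (.pos 28 .pp ⟨⟨85483025, 0, 0, 0, 0, 0, 0, 0, 0, ⟨0, 0⟩, 0⟩, 0, 0⟩ 0 0)) (.pos 25 .pp ⟨⟨47925750, 0, 0, 0, 0, 0, 0, 0, 0, ⟨0, 0⟩, 0⟩, 0, 266586⟩ 0 0)) (.pos 25 .pp ⟨⟨0, 0, 0, 0, 0, 0, 0, 0, 0, ⟨0, 0⟩, 0⟩, 0, 754466⟩ 0 0)) (.cut .d 896608 (.cut .d 448304 (.void 26 ⟨⟨100000, 0, 0, 0, 0, 0, 0, 0, 0, ⟨0, 0⟩, 0⟩, 0, 0⟩ 0 0) (.cut .v 23068672 (.pos 65 .pp ⟨⟨0, 0, 0, 0, 0, 0, 68082, 0, 0, ⟨0, 0⟩, 0⟩, 7367286, 0⟩ 0 0) (.pos 66 .pp ⟨⟨0, 0, 0, 0, 0, 0, 0, 0, 0, ⟨0, 0⟩, 0⟩, 9730851, 0⟩ 0 0))) (.pos 26 .pp ⟨⟨0, 0, 0, 0, 0, 0, 466794, 0, 0, ⟨0, 0⟩, 0⟩, 5889841, 0⟩ 0 0)))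 (.pos 23 .pp ⟨⟨0, 0, 0, 0, 0, 0, 0, 0, 0, ⟨0, 0⟩, 0⟩, 0, 814823⟩ 0 0)) (.cut .d 1793217 (.cut .d 896608 (.void 24 ⟨⟨0, 0, 0, 0, 0, 0, 0, 0, 0, ⟨0, 0⟩, 0⟩, 100000, 0⟩ 0 0) (.cut .v 29360128 (.cut .d 1344912 (.pos 79 .pp ⟨⟨0, 0, 0, 0, 0, 0, 0, 0, 0, ⟨0, 0⟩, 0⟩, 9755226, 0⟩ 0 0) (.pos 79 .pp ⟨⟨0, 0, 0, 0, 0, 0, 2190, 0, 0, ⟨0, 0⟩, 0⟩, 7673524, 0⟩ 0 0)) (.pos 80 .pp ⟨⟨0, 0, 0, 0, 0, 0, 0, 0, 0, ⟨0, 0⟩, 0⟩, 16079731, 0⟩ 0 0))) (.cut .v 29360128 (.pos 79 .pp ⟨⟨0, 0, 0, 0, 0, 0, 741500, 0, 0, ⟨0, 0⟩, 0⟩, 5242318, 0⟩ 0 0) (.cut .d 2689825 (.cut .v 31457280 (.pos 98 .pp ⟨⟨0, 0, 0, 0, 0, 0, 25902929, 0, 0, ⟨0, 0⟩, 0⟩, 7135679, 0⟩ 0 0) (.pos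 99 .pp ⟨⟨0, 0, 0, 0, 0, 0, 43676712, 0, 0, ⟨0, 0⟩, 0⟩, 8823806, 0⟩ 0 0)) (.pos 80 .pp ⟨⟨0, 0, 0, 0, 0, 0, 137835927, 0, 0, ⟨0, 0⟩, 0⟩, 0, 0⟩ 0 0))))) (.void 22 ⟨⟨0, 0, 0, 0, 0, 0, 0, 0, 0, ⟨0, 0⟩, 0⟩, 0, 100000⟩ 0 0)) (.cut .d 3586434 (.cut .v 50331648 (.cut .d 1793217 (.void 100 ⟨⟨0, 0, 0, 0, 0, 0, 0, 0, 0, ⟨0, 0⟩, 0⟩, 100000, 0⟩ 0 0) (.cut .d 2689825 (.pos 100 .pp ⟨⟨0, 0, 0, 0, 0, 0, 82321059, 0, 0, ⟨0, 0⟩, 0⟩, 15730532, 0⟩ 0 0) (.pos 100 .pp ⟨⟨0, 0, 0, 0, 0, 0, 126466994, 0, 0, ⟨0, 0⟩, 0⟩, 9835829, 0⟩ 0 0))) (.void 101 ⟨⟨0, 0, 0, 0, 0, 0, 0, 0, 0, ⟨0, 0⟩, 0⟩, 100000, 0⟩ 0 0)) (.pos 97 .pp ⟨⟨0, 0, 0, 0, 0, 0, 392794633, 0, 0,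 ⟨0, 0⟩, 0⟩, 0, 0⟩ 0 0))) (.void 96 ⟨⟨0, 0, 0, 0, 0, 0, 0, 0, 0, ⟨0, 0⟩, 0⟩, 4597, 95403⟩ 0 0)))),
    by decide +kernel⟩

def covers12 : cell.Covers Vale.Agent.P237.Petty.Cor.Grid.N16.table row12.1 :=
  ⟨(.cut .d 0 (.cut .v 16777216 (.cut .d (-8388608) (.void 1 ⟨⟨0, 0, 0, 0, 0, 100000, 0, 0, 0, ⟨0, 0⟩, 0⟩, 0, 0⟩ 0 0) (.cut .d (-4194304) (.void 1 ⟨⟨0, 0, 0, 0, 0, 100000, 0, 0, 0, ⟨0, 0⟩, 0⟩, 0, 0⟩ 0 0) (.cut .d (-2097152) (.void 1 ⟨⟨0, 0, 0, 0, 0, 100000, 0, 0, 0, ⟨0, 0⟩, 0⟩, 0, 0⟩ 0 0) (.cut .d (-1048576) (.void 1 ⟨⟨0, 0, 0, 0, 0, 100000, 0, 0, 0, ⟨0, 0⟩, 0⟩, 0, 0⟩ 0 0) (.cut .d (-524288) (.void 1 ⟨⟨0, 0, 0, 0, 0, 100000, 0, 0,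 0, ⟨0, 0⟩, 0⟩, 0, 0⟩ 0 0) (.cut .d (-262144) (.void 1 ⟨⟨0, 0, 0, 0, 0, 100000, 0, 0, 0, ⟨0, 0⟩, 0⟩, 0, 0⟩ 0 0) (.cut .d (-131072) (.void 1 ⟨⟨0, 0, 0, 0, 0, 100000, 0, 0, 0, ⟨0, 0⟩, 0⟩, 0, 0⟩ 0 0) (.cut .d (-65536) (.void 1 ⟨⟨0, 0, 0, 0, 0, 100000, 0, 0, 0, ⟨0, 0⟩, 0⟩, 0, 0⟩ 0 0) (.cut .d (-32768) (.void 1 ⟨⟨0, 0, 0, 0, 0, 100000, 0, 0, 0, ⟨0, 0⟩, 0⟩, 0, 0⟩ 0 0) (.cut .v 8388608 (.cut .v 4194304 (.void 4 ⟨⟨0, 0, 100000, 0, 0, 0, 0, 0, 0, ⟨0, 0⟩, 0⟩, 0, 0⟩ 0 0) (.pos 5 .mm ⟨⟨0, 0, 565140, 0, 0, 44668567, 0, 0, 0, ⟨0, 0⟩, 0⟩, 0, 0⟩ 0 0)) (.cut .d (-16384) (.pos 3 .mm ⟨⟨0, 0, 0, 0, 0, 132792370, 0, 0, 0, ⟨0, 0⟩, 0⟩, 0, 0⟩ 0 0) (.cut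 .l 115343 (.cut .d (-8192) (.pos 3 .mm ⟨⟨0, 0, 0, 0, 0, 132712780, 0, 0, 0, ⟨0, 0⟩, 0⟩, 0, 0⟩ 0 0) (.cut .v 12582912 (.pos 8 .mm ⟨⟨0, 0, 0, 0, 0, 67264179, 0, 0, 0, ⟨0, 0⟩, 0⟩, 0, 0⟩ 0 0) (.cut .v 14680064 (.pos 12 .mm ⟨⟨0, 0, 0, 0, 0, 79661319, 0, 0, 0, ⟨0, 0⟩, 0⟩, 0, 0⟩ 0 0) (.cut .v 15728640 (.pos 20 .mm ⟨⟨0, 0, 0, 0, 0, 86196058, 0, 0, 0, ⟨0, 0⟩, 0⟩, 0, 0⟩ 0 0) (.cut .v 16252928 (.pos 41 .mm ⟨⟨0, 0, 0, 0, 0, 89547469, 0, 0, 0, ⟨0, 0⟩, 0⟩, 0, 0⟩ 0 0) (.cut .v 16515072 (.pos 43 .mm ⟨⟨0, 0, 0, 0, 0, 91244185, 0, 0, 0, ⟨0, 0⟩, 0⟩, 0, 0⟩ 0 0) (.cut .v 16646144 (.pos 51 .mm ⟨⟨0, 0, 0, 0, 0, 93449920, 0, 0, 0, ⟨0, 0⟩, 0⟩, 0, 0⟩ 0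 0) (.cut .v 16711680 (.pos 53 .mm ⟨⟨0, 0, 0, 0, 0, 109511833, 0, 0, 0, ⟨0, 0⟩, 0⟩, 0, 0⟩ 0 0) (.cut .v 16744448 (.pos 55 .mm ⟨⟨0, 0, 0, 0, 0, 113562312, 0, 0, 0, ⟨0, 0⟩, 0⟩, 0, 0⟩ 0 0) (.cut .v 16760832 (.pos 104 .mm ⟨⟨0, 0, 0, 0, 0, 115595091, 0, 0, 0, ⟨0, 0⟩, 0⟩, 0, 0⟩ 0 0) (.cut .l 57671 (.cut .d (-4096) (.pos 105 .mm ⟨⟨0, 0, 0, 0, 0, 132708479, 0, 0, 0, ⟨0, 0⟩, 0⟩, 0, 0⟩ 0 0) (.cut .v 16769024 (.pos 106 .mm ⟨⟨0, 0, 0, 0, 0, 115644179, 0, 0, 0, ⟨0, 0⟩, 0⟩, 0, 0⟩ 0 0) (.cut .l 28835 (.cut .d (-2048) (.pos 107 .mm ⟨⟨0, 0, 0, 0, 0, 132707288, 0, 0, 0, ⟨0, 0⟩, 0⟩, 0, 0⟩ 0 0) (.cut .l 14417 (.cut .d (-1024) (.pos 107 .mm ⟨⟨0, 0,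 0, 0, 0, 132707321, 0, 0, 0, ⟨0, 0⟩, 0⟩, 0, 0⟩ 0 0) (.cut .v 16773120 (.pos 108 .mm ⟨⟨0, 0, 0, 0, 0, 113753130, 0, 0, 0, ⟨0, 0⟩, 0⟩, 0, 0⟩ 0 0) (.cut .v 16775168 (.pos 110 .mm ⟨⟨0, 0, 0, 0, 0, 115682409, 0, 0, 0, ⟨0, 0⟩, 0⟩, 0, 0⟩ 0 0) (.cut .l 7208 (.cut .d (-512) (.pos 111 .mm ⟨⟨0, 0, 0, 0, 0, 132708598, 0, 0, 0, ⟨0, 0⟩, 0⟩, 0, 0⟩ 0 0) (.cut .v 16776192 (.pos 112 .mm ⟨⟨0, 0, 0, 0, 0, 115690670, 0, 0, 0, ⟨0, 0⟩, 0⟩, 0, 0⟩ 0 0) (.cut .l 3604 (.cut .s 9830400 (.cut .s 9699328 (.pos 113 .mm ⟨⟨0, 0, 0, 0, 0, 105272276, 0, 0, 0, ⟨0, 0⟩, 0⟩, 0, 0⟩ 0 0) (.pos 113 .mm ⟨⟨0, 0, 0, 0, 0, 114523726, 0, 0, 0, ⟨0, 0⟩, 0⟩, 0, 0⟩ 0 0)) (.cut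 .s 9961472 (.pos 113 .mm ⟨⟨0, 0, 0, 0, 0, 124867708, 0, 0, 0, ⟨0, 0⟩, 0⟩, 0, 0⟩ 0 0) (.pos 113 .mm ⟨⟨0, 0, 0, 0, 0, 136328736, 0, 0, 0, ⟨0, 0⟩, 0⟩, 0, 0⟩ 0 0))) (.pos 113 .mm ⟨⟨0, 0, 0, 0, 0, 102528904, 0, 0, 0, ⟨0, 0⟩, 0⟩, 0, 0⟩ 0 0)))) (.pos 111 .mm ⟨⟨0, 0, 0, 0, 0, 102532668, 0, 0, 0, ⟨0, 0⟩, 0⟩, 0, 0⟩ 0 0))))) (.pos 107 .mm ⟨⟨0, 0, 0, 0, 0, 102538250, 0, 0, 0, ⟨0, 0⟩, 0⟩, 0, 0⟩ 0 0))) (.pos 107 .mm ⟨⟨0, 0, 0, 0, 0, 102552333, 0, 0, 0, ⟨0, 0⟩, 0⟩, 0, 0⟩ 0 0)))) (.pos 105 .mm ⟨⟨0, 0, 0, 0, 0, 102581957, 0, 0, 0, ⟨0, 0⟩, 0⟩, 0, 0⟩ 0 0)))))))))))) (.pos 3 .mm ⟨⟨0, 0, 0, 0, 0, 102641936, 0, 0, 0, ⟨0, 0⟩, 0⟩, 0, 0⟩ 0 0)))))))))))))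 (.cut .v 33554432 (.cut .v 25165824 (.cut .d (-8388608) (.void 23 ⟨⟨0, 0, 0, 0, 0, 100000, 0, 0, 0, ⟨0, 0⟩, 0⟩, 0, 0⟩ 0 0) (.cut .v 20971520 (.cut .d (-4194304) (.void 25 ⟨⟨0, 0, 0, 0, 0, 100000, 0, 0, 0, ⟨0, 0⟩, 0⟩, 0, 0⟩ 0 0) (.cut .v 18874368 (.cut .d (-2097152) (.void 27 ⟨⟨100000, 0, 0, 0, 0, 0, 0, 0, 0, ⟨0, 0⟩, 0⟩, 0, 0⟩ 0 0) (.cut .v 17825792 (.cut .d (-1048576) (.void 29 ⟨⟨100000, 0, 0, 0, 0, 0, 0, 0, 0, ⟨0, 0⟩, 0⟩, 0, 0⟩ 0 0) (.cut .d (-524288) (.void 29 ⟨⟨100000, 0, 0, 0, 0, 0, 0, 0, 0, ⟨0, 0⟩, 0⟩, 0, 0⟩ 0 0) (.cut .d (-262144) (.void 29 ⟨⟨100000, 0, 0, 0, 0, 0, 0, 0, 0, ⟨0, 0⟩, 0⟩, 0, 0⟩ 0 0) (.cut .d (-131072) (.void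 29 ⟨⟨100000, 0, 0, 0, 0, 0, 0, 0, 0, ⟨0, 0⟩, 0⟩, 0, 0⟩ 0 0) (.cut .d (-65536) (.void 29 ⟨⟨0, 0, 0, 0, 0, 100000, 0, 0, 0, ⟨0, 0⟩, 0⟩, 0, 0⟩ 0 0) (.cut .d (-32768) (.void 29 ⟨⟨0, 0, 0, 0, 0, 100000, 0, 0, 0, ⟨0, 0⟩, 0⟩, 0, 0⟩ 0 0) (.cut .v 17301504 (.cut .v 17039360 (.cut .v 16908288 (.cut .s 9830400 (.cut .s 9699328 (.cut .v 16842752 (.cut .s 9633792 (.cut .s 9601024 (.cut .d (-16384) (.pos 37 .mp ⟨⟨49356154, 0, 0, 0, 0, 40373634, 0, 0, 0, ⟨0, 0⟩, 0⟩, 0, 0⟩ 0 0) (.cut .s 9584640 (.pos 37 .mp ⟨⟨51050077, 0, 0, 0, 0, 35847703, 0, 0, 0, ⟨0, 0⟩, 0⟩, 0, 0⟩ 0 0) (.pos 37 .mp ⟨⟨51602221, 0, 0, 0, 0, 36097249, 0, 0, 0, ⟨0, 0⟩, 0⟩, 0, 0⟩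 0 0))) (.cut .d (-16384) (.pos 37 .mp ⟨⟨50434549, 0, 0, 0, 0, 40912367, 0, 0, 0, ⟨0, 0⟩, 0⟩, 0, 0⟩ 0 0) (.cut .v 16809984 (.cut .s 9617408 (.pos 45 .mp ⟨⟨51939014, 0, 0, 0, 0, 36643094, 0, 0, 0, ⟨0, 0⟩, 0⟩, 0, 0⟩ 0 0) (.cut .s 9625600 (.pos 45 .mp ⟨⟨52922307, 0, 0, 0, 0, 36176229, 0, 0, 0, ⟨0, 0⟩, 0⟩, 0, 0⟩ 0 0) (.pos 45 .mp ⟨⟨53118037, 0, 0, 0, 0, 36421641, 0, 0, 0, ⟨0, 0⟩, 0⟩, 0, 0⟩ 0 0))) (.pos 46 .mp ⟨⟨79126677, 0, 0, 0, 0, 0, 0, 0, 0, ⟨0, 0⟩, 0⟩, 0, 0⟩ 0 0)))) (.cut .s 9666560 (.cut .d (-16384) (.cut .s 9650176 (.pos 37 .mp ⟨⟨51533919, 0, 0, 0, 0, 40618108, 0, 0, 0, ⟨0, 0⟩, 0⟩, 0, 0⟩ 0 0) (.pos 37 .mp ⟨⟨52091547, 0, 0, 0,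 0, 40907473, 0, 0, 0, ⟨0, 0⟩, 0⟩, 0, 0⟩ 0 0)) (.cut .v 16809984 (.cut .l 115343 (.cut .d (-8192) (.pos 45 .mp ⟨⟨51543379, 0, 0, 0, 0, 41233475, 0, 0, 0, ⟨0, 0⟩, 0⟩, 0, 0⟩ 0 0) (.cut .v 16793600 (.cut .s 9650176 (.pos 57 .mp ⟨⟨52586146, 0, 0, 0, 0, 37788039, 0, 0, 0, ⟨0, 0⟩, 0⟩, 0, 0⟩ 0 0) (.cut .s 9658368 (.pos 57 .mp ⟨⟨53709704, 0, 0, 0, 0, 37176385, 0, 0, 0, ⟨0, 0⟩, 0⟩, 0, 0⟩ 0 0) (.pos 57 .mp ⟨⟨53918044, 0, 0, 0, 0, 37421162, 0, 0, 0, ⟨0, 0⟩, 0⟩, 0, 0⟩ 0 0))) (.pos 58 .mp ⟨⟨80461869, 0, 0, 0, 0, 0, 0, 0, 0, ⟨0, 0⟩, 0⟩, 0, 0⟩ 0 0))) (.pos 45 .mp ⟨⟨53032953, 0, 0, 0, 0, 36696584, 0, 0, 0, ⟨0, 0⟩, 0⟩, 0, 0⟩ 0 0)) (.pos 46 .mp ⟨⟨80551448,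 0, 0, 0, 0, 0, 0, 0, 0, ⟨0, 0⟩, 0⟩, 0, 0⟩ 0 0))) (.cut .d (-16384) (.cut .s 9682944 (.pos 37 .mp ⟨⟨52654512, 0, 0, 0, 0, 41206603, 0, 0, 0, ⟨0, 0⟩, 0⟩, 0, 0⟩ 0 0) (.pos 37 .mp ⟨⟨53222846, 0, 0, 0, 0, 41515582, 0, 0, 0, ⟨0, 0⟩, 0⟩, 0, 0⟩ 0 0)) (.cut .v 16809984 (.cut .l 115343 (.cut .d (-8192) (.pos 45 .mp ⟨⟨52659395, 0, 0, 0, 0, 41850694, 0, 0, 0, ⟨0, 0⟩, 0⟩, 0, 0⟩ 0 0) (.cut .v 16793600 (.cut .l 57671 (.cut .d (-4096) (.pos 57 .mp ⟨⟨52662371, 0, 0, 0, 0, 41722608, 0, 0, 0, ⟨0, 0⟩, 0⟩, 0, 0⟩ 0 0) (.cut .v 16785408 (.cut .l 28835 (.cut .d (-2048) (.pos 61 .mp ⟨⟨52663980, 0, 0, 0, 0, 41658412, 0, 0, 0, ⟨0, 0⟩, 0⟩, 0, 0⟩ 0 0) (.cut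 .v 16781312 (.cut .l 14417 (.cut .d (-1024) (.pos 63 .mp ⟨⟨52664797, 0, 0, 0, 0, 41626341, 0, 0, 0, ⟨0, 0⟩, 0⟩, 0, 0⟩ 0 0) (.cut .s 9682944 (.pos 63 .mp ⟨⟨53304563, 0, 0, 0, 0, 38905661, 0, 0, 0, ⟨0, 0⟩, 0⟩, 0, 0⟩ 0 0) (.cut .s 9691136 (.pos 63 .mp ⟨⟨54204479, 0, 0, 0, 0, 38638500, 0, 0, 0, ⟨0, 0⟩, 0⟩, 0, 0⟩ 0 0) (.pos 63 .mp ⟨⟨54447821, 0, 0, 0, 0, 38852647, 0, 0, 0, ⟨0, 0⟩, 0⟩, 0, 0⟩ 0 0)))) (.pos 63 .mp ⟨⟨53846121, 0, 0, 0, 0, 37624555, 0, 0, 0, ⟨0, 0⟩, 0⟩, 0, 0⟩ 0 0)) (.pos 64 .mp ⟨⟨81862903, 0, 0, 0, 0, 0, 0, 0, 0, ⟨0, 0⟩, 0⟩, 0, 0⟩ 0 0))) (.pos 61 .mp ⟨⟨53893963, 0, 0, 0, 0, 37587538, 0, 0, 0, ⟨0, 0⟩, 0⟩, 0, 0⟩ 0 0)) (.pos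 62 .mp ⟨⟨81885987, 0, 0, 0, 0, 0, 0, 0, 0, ⟨0, 0⟩, 0⟩, 0, 0⟩ 0 0))) (.pos 57 .mp ⟨⟨53989756, 0, 0, 0, 0, 37513483, 0, 0, 0, ⟨0, 0⟩, 0⟩, 0, 0⟩ 0 0)) (.pos 58 .mp ⟨⟨81931739, 0, 0, 0, 0, 0, 0, 0, 0, ⟨0, 0⟩, 0⟩, 0, 0⟩ 0 0))) (.pos 45 .mp ⟨⟨54181925, 0, 0, 0, 0, 37364825, 0, 0, 0, ⟨0, 0⟩, 0⟩, 0, 0⟩ 0 0)) (.pos 46 .mp ⟨⟨82022979, 0, 0, 0, 0, 0, 0, 0, 0, ⟨0, 0⟩, 0⟩, 0, 0⟩ 0 0))))) (.pos 38 .mp ⟨⟨84410241, 0, 0, 0, 0, 0, 0, 0, 0, ⟨0, 0⟩, 0⟩, 0, 0⟩ 0 0)) (.cut .v 16842752 (.cut .s 9764864 (.cut .d (-16384) (.cut .d (-24576) (.pos 37 .mp ⟨⟨55296997, 0, 0, 0, 0, 43451134, 0, 0, 0, ⟨0, 0⟩, 0⟩, 0, 0⟩ 0 0) (.cut .l 115343 (.void 37 ⟨⟨0, 0,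 0, 0, 0, 100000, 0, 0, 0, ⟨0, 0⟩, 0⟩, 0, 0⟩ 0 0) (.cut .s 9732096 (.cut .s 9715712 (.pos 37 .mp ⟨⟨54160323, 0, 0, 0, 0, 40806369, 0, 0, 0, ⟨0, 0⟩, 0⟩, 0, 0⟩ 0 0) (.pos 37 .mp ⟨⟨54680803, 0, 0, 0, 0, 41259766, 0, 0, 0, ⟨0, 0⟩, 0⟩, 0, 0⟩ 0 0)) (.cut .s 9748480 (.pos 37 .mp ⟨⟨55211704, 0, 0, 0, 0, 41712485, 0, 0, 0, ⟨0, 0⟩, 0⟩, 0, 0⟩ 0 0) (.pos 37 .mp ⟨⟨55753253, 0, 0, 0, 0, 42164129, 0, 0, 0, ⟨0, 0⟩, 0⟩, 0, 0⟩ 0 0))))) (.cut .v 16809984 (.cut .s 9732096 (.cut .l 115343 (.cut .s 9715712 (.cut .s 9707520 (.pos 45 .mp ⟨⟨55091838, 0, 0, 0, 0, 38540509, 0, 0, 0, ⟨0, 0⟩, 0⟩, 0, 0⟩ 0 0) (.pos 45 .mp ⟨⟨55386784, 0, 0, 0, 0, 38703554, 0,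 0, 0, ⟨0, 0⟩, 0⟩, 0, 0⟩ 0 0)) (.cut .s 9723904 (.pos 45 .mp ⟨⟨55683135, 0, 0, 0, 0, 38868330, 0, 0, 0, ⟨0, 0⟩, 0⟩, 0, 0⟩ 0 0) (.cut .s 9728000 (.pos 45 .mp ⟨⟨55932566, 0, 0, 0, 0, 38946624, 0, 0, 0, ⟨0, 0⟩, 0⟩, 0, 0⟩ 0 0) (.pos 45 .mp ⟨⟨56051428, 0, 0, 0, 0, 39068920, 0, 0, 0, ⟨0, 0⟩, 0⟩, 0, 0⟩ 0 0)))) (.pos 45 .mp ⟨⟨55352904, 0, 0, 0, 0, 38052586, 0, 0, 0, ⟨0, 0⟩, 0⟩, 0, 0⟩ 0 0)) (.cut .l 115343 (.cut .s 9748480 (.cut .d (-8192) (.pos 45 .mp ⟨⟨54955755, 0, 0, 0, 0, 42253086, 0, 0, 0, ⟨0, 0⟩, 0⟩, 0, 0⟩ 0 0) (.cut .s 9740288 (.pos 45 .mp ⟨⟨55877484, 0, 0, 0, 0, 39695694, 0, 0, 0, ⟨0, 0⟩, 0⟩, 0, 0⟩ 0 0) (.pos 45 .mp ⟨⟨56177000, 0,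 0, 0, 0, 39861837, 0, 0, 0, ⟨0, 0⟩, 0⟩, 0, 0⟩ 0 0))) (.cut .d (-8192) (.pos 45 .mp ⟨⟨55543435, 0, 0, 0, 0, 42603043, 0, 0, 0, ⟨0, 0⟩, 0⟩, 0, 0⟩ 0 0) (.cut .s 9756672 (.pos 45 .mp ⟨⟨56475903, 0, 0, 0, 0, 40033090, 0, 0, 0, ⟨0, 0⟩, 0⟩, 0, 0⟩ 0 0) (.pos 45 .mp ⟨⟨56776208, 0, 0, 0, 0, 40206310, 0, 0, 0, ⟨0, 0⟩, 0⟩, 0, 0⟩ 0 0)))) (.pos 45 .mp ⟨⟨56546155, 0, 0, 0, 0, 38758759, 0, 0, 0, ⟨0, 0⟩, 0⟩, 0, 0⟩ 0 0))) (.pos 46 .mp ⟨⟨84671370, 0, 0, 0, 0, 0, 0, 0, 0, ⟨0, 0⟩, 0⟩, 0, 0⟩ 0 0))) (.cut .d (-16384) (.cut .d (-24576) (.void 37 ⟨⟨0, 0, 0, 0, 0, 100000, 0, 0, 0, ⟨0, 0⟩, 0⟩, 0, 0⟩ 0 0) (.cut .l 115343 (.void 37 ⟨⟨0, 0, 0, 0, 0, 100000,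 0, 0, 0, ⟨0, 0⟩, 0⟩, 0, 0⟩ 0 0) (.cut .s 9797632 (.cut .s 9781248 (.pos 37 .mp ⟨⟨56305681, 0, 0, 0, 0, 42614303, 0, 0, 0, ⟨0, 0⟩, 0⟩, 0, 0⟩ 0 0) (.pos 37 .mp ⟨⟨56869219, 0, 0, 0, 0, 43062605, 0, 0, 0, ⟨0, 0⟩, 0⟩, 0, 0⟩ 0 0)) (.cut .s 9814016 (.pos 37 .mp ⟨⟨57444097, 0, 0, 0, 0, 43508636, 0, 0, 0, ⟨0, 0⟩, 0⟩, 0, 0⟩ 0 0) (.pos 37 .mp ⟨⟨58030548, 0, 0, 0, 0, 43951991, 0, 0, 0, ⟨0, 0⟩, 0⟩, 0, 0⟩ 0 0))))) (.cut .v 16809984 (.cut .s 9797632 (.cut .l 115343 (.cut .s 9781248 (.cut .d (-8192) (.pos 45 .mp ⟨⟨56136617, 0, 0, 0, 0, 42963290, 0, 0, 0, ⟨0, 0⟩, 0⟩, 0, 0⟩ 0 0) (.cut .s 9773056 (.pos 45 .mp ⟨⟨57077919, 0, 0, 0, 0, 40381495, 0,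 0, 0, ⟨0, 0⟩, 0⟩, 0, 0⟩ 0 0) (.pos 45 .mp ⟨⟨57381041, 0, 0, 0, 0, 40558642, 0, 0, 0, ⟨0, 0⟩, 0⟩, 0, 0⟩ 0 0))) (.cut .d (-8192) (.pos 45 .mp ⟨⟨56735335, 0, 0, 0, 0, 43333915, 0, 0, 0, ⟨0, 0⟩, 0⟩, 0, 0⟩ 0 0) (.cut .v 16793600 (.cut .s 9789440 (.pos 57 .mp ⟨⟨57564298, 0, 0, 0, 0, 40898314, 0, 0, 0, ⟨0, 0⟩, 0⟩, 0, 0⟩ 0 0) (.cut .s 9793536 (.pos 57 .mp ⟨⟨58184332, 0, 0, 0, 0, 40561719, 0, 0, 0, ⟨0, 0⟩, 0⟩, 0, 0⟩ 0 0) (.pos 57 .mp ⟨⟨58321670, 0, 0, 0, 0, 40673337, 0, 0, 0, ⟨0, 0⟩, 0⟩, 0, 0⟩ 0 0))) (.pos 58 .mp ⟨⟨86857691, 0, 0, 0, 0, 0, 0, 0, 0, ⟨0, 0⟩, 0⟩, 0, 0⟩ 0 0)))) (.cut .s 9781248 (.pos 45 .mp ⟨⟨57151218, 0, 0, 0, 0, 40002614,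 0, 0, 0, ⟨0, 0⟩, 0⟩, 0, 0⟩ 0 0) (.pos 45 .mp ⟨⟨57761951, 0, 0, 0, 0, 40376693, 0, 0, 0, ⟨0, 0⟩, 0⟩, 0, 0⟩ 0 0))) (.cut .l 115343 (.cut .d (-8192) (.cut .s 9814016 (.pos 45 .mp ⟨⟨57339622, 0, 0, 0, 0, 43715008, 0, 0, 0, ⟨0, 0⟩, 0⟩, 0, 0⟩ 0 0) (.pos 45 .mp ⟨⟨57949513, 0, 0, 0, 0, 44106658, 0, 0, 0, ⟨0, 0⟩, 0⟩, 0, 0⟩ 0 0)) (.cut .v 16793600 (.cut .s 9814016 (.cut .l 57671 (.cut .d (-4096) (.pos 57 .mp ⟨⟨57332866, 0, 0, 0, 0, 43591002, 0, 0, 0, ⟨0, 0⟩, 0⟩, 0, 0⟩ 0 0) (.cut .s 9805824 (.pos 57 .mp ⟨⟨57958198, 0, 0, 0, 0, 41539510, 0, 0, 0, ⟨0, 0⟩, 0⟩, 0, 0⟩ 0 0) (.pos 57 .mp ⟨⟨58270401, 0, 0, 0, 0, 41718818, 0, 0, 0, ⟨0, 0⟩, 0⟩, 0,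 0⟩ 0 0))) (.pos 57 .mp ⟨⟨58155671, 0, 0, 0, 0, 40939163, 0, 0, 0, ⟨0, 0⟩, 0⟩, 0, 0⟩ 0 0)) (.cut .l 57671 (.cut .d (-4096) (.pos 57 .mp ⟨⟨57941471, 0, 0, 0, 0, 43983034, 0, 0, 0, ⟨0, 0⟩, 0⟩, 0, 0⟩ 0 0) (.cut .s 9822208 (.pos 57 .mp ⟨⟨58578399, 0, 0, 0, 0, 41908909, 0, 0, 0, ⟨0, 0⟩, 0⟩, 0, 0⟩ 0 0) (.pos 57 .mp ⟨⟨58887819, 0, 0, 0, 0, 42100967, 0, 0, 0, ⟨0, 0⟩, 0⟩, 0, 0⟩ 0 0))) (.pos 57 .mp ⟨⟨58773222, 0, 0, 0, 0, 41326603, 0, 0, 0, ⟨0, 0⟩, 0⟩, 0, 0⟩ 0 0))) (.pos 58 .mp ⟨⟨88288863, 0, 0, 0, 0, 0, 0, 0, 0, ⟨0, 0⟩, 0⟩, 0, 0⟩ 0 0))) (.cut .s 9814016 (.pos 45 .mp ⟨⟨58378389, 0, 0, 0, 0, 40754806, 0, 0, 0, ⟨0, 0⟩, 0⟩, 0, 0⟩ 0 0) (.pos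 45 .mp ⟨⟨59000568, 0, 0, 0, 0, 41136813, 0, 0, 0, ⟨0, 0⟩, 0⟩, 0, 0⟩ 0 0)))) (.pos 46 .mp ⟨⟨87916739, 0, 0, 0, 0, 0, 0, 0, 0, ⟨0, 0⟩, 0⟩, 0, 0⟩ 0 0)))) (.pos 38 .mp ⟨⟨90958139, 0, 0, 0, 0, 0, 0, 0, 0, ⟨0, 0⟩, 0⟩, 0, 0⟩ 0 0))) (.cut .s 9961472 (.cut .v 16842752 (.cut .s 9895936 (.cut .d (-16384) (.cut .d (-24576) (.void 37 ⟨⟨0, 0, 0, 0, 0, 100000, 0, 0, 0, ⟨0, 0⟩, 0⟩, 0, 0⟩ 0 0) (.cut .l 115343 (.void 37 ⟨⟨0, 0, 0, 0, 0, 100000, 0, 0, 0, ⟨0, 0⟩, 0⟩, 0, 0⟩ 0 0) (.cut .s 9863168 (.cut .s 9846784 (.pos 37 .mp ⟨⟨58628803, 0, 0, 0, 0, 44392266, 0, 0, 0, ⟨0, 0⟩, 0⟩, 0, 0⟩ 0 0) (.pos 37 .mp ⟨⟨59239094, 0, 0, 0, 0, 44829053, 0, 0, 0, ⟨0,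 0⟩, 0⟩, 0, 0⟩ 0 0)) (.cut .s 9879552 (.pos 37 .mp ⟨⟨59861656, 0, 0, 0, 0, 45261943, 0, 0, 0, ⟨0, 0⟩, 0⟩, 0, 0⟩ 0 0) (.pos 37 .mp ⟨⟨60496721, 0, 0, 0, 0, 45690524, 0, 0, 0, ⟨0, 0⟩, 0⟩, 0, 0⟩ 0 0))))) (.cut .s 9863168 (.cut .v 16809984 (.cut .l 115343 (.cut .d (-8192) (.cut .s 9846784 (.pos 45 .mp ⟨⟨58565042, 0, 0, 0, 0, 44508957, 0, 0, 0, ⟨0, 0⟩, 0⟩, 0, 0⟩ 0 0) (.pos 45 .mp ⟨⟨59186244, 0, 0, 0, 0, 44921995, 0, 0, 0, ⟨0, 0⟩, 0⟩, 0, 0⟩ 0 0)) (.cut .v 16793600 (.cut .s 9846784 (.cut .l 57671 (.cut .d (-4096) (.pos 57 .mp ⟨⟨58555699, 0, 0, 0, 0, 44385719, 0, 0, 0, ⟨0, 0⟩, 0⟩, 0, 0⟩ 0 0) (.cut .s 9838592 (.pos 57 .mp ⟨⟨59198665, 0, 0,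 0, 0, 42294988, 0, 0, 0, ⟨0, 0⟩, 0⟩, 0, 0⟩ 0 0) (.pos 57 .mp ⟨⟨59510940, 0, 0, 0, 0, 42490969, 0, 0, 0, ⟨0, 0⟩, 0⟩, 0, 0⟩ 0 0))) (.pos 57 .mp ⟨⟨59396480, 0, 0, 0, 0, 41717881, 0, 0, 0, ⟨0, 0⟩, 0⟩, 0, 0⟩ 0 0)) (.cut .l 57671 (.cut .d (-4096) (.pos 57 .mp ⟨⟨59175584, 0, 0, 0, 0, 44799149, 0, 0, 0, ⟨0, 0⟩, 0⟩, 0, 0⟩ 0 0) (.cut .s 9854976 (.pos 57 .mp ⟨⟨59824650, 0, 0, 0, 0, 42688908, 0, 0, 0, ⟨0, 0⟩, 0⟩, 0, 0⟩ 0 0) (.cut .s 9859072 (.pos 57 .mp ⟨⟨60230705, 0, 0, 0, 0, 42680900, 0, 0, 0, ⟨0, 0⟩, 0⟩, 0, 0⟩ 0 0) (.pos 57 .mp ⟨⟨60386691, 0, 0, 0, 0, 42783903, 0, 0, 0, ⟨0, 0⟩, 0⟩, 0, 0⟩ 0 0)))) (.pos 57 .mp ⟨⟨60025483, 0, 0, 0, 0, 42112860,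 0, 0, 0, ⟨0, 0⟩, 0⟩, 0, 0⟩ 0 0))) (.pos 58 .mp ⟨⟨90000288, 0, 0, 0, 0, 0, 0, 0, 0, ⟨0, 0⟩, 0⟩, 0, 0⟩ 0 0))) (.cut .s 9846784 (.pos 45 .mp ⟨⟨59628522, 0, 0, 0, 0, 41522574, 0, 0, 0, ⟨0, 0⟩, 0⟩, 0, 0⟩ 0 0) (.pos 45 .mp ⟨⟨60262288, 0, 0, 0, 0, 41911948, 0, 0, 0, ⟨0, 0⟩, 0⟩, 0, 0⟩ 0 0))) (.pos 46 .mp ⟨⟨90100634, 0, 0, 0, 0, 0, 0, 0, 0, ⟨0, 0⟩, 0⟩, 0, 0⟩ 0 0)) (.cut .v 16809984 (.cut .l 115343 (.cut .d (-8192) (.cut .s 9879552 (.pos 45 .mp ⟨⟨59813155, 0, 0, 0, 0, 45345867, 0, 0, 0, ⟨0, 0⟩, 0⟩, 0, 0⟩ 0 0) (.pos 45 .mp ⟨⟨60445809, 0, 0, 0, 0, 45780663, 0, 0, 0, ⟨0, 0⟩, 0⟩, 0, 0⟩ 0 0)) (.cut .v 16793600 (.cut .s 9879552 (.cut .l 57671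 (.cut .d (-4096) (.pos 57 .mp ⟨⟨59801161, 0, 0, 0, 0, 45223418, 0, 0, 0, ⟨0, 0⟩, 0⟩, 0, 0⟩ 0 0) (.cut .v 16785408 (.cut .s 9871360 (.pos 61 .mp ⟨⟨60392987, 0, 0, 0, 0, 43175099, 0, 0, 0, ⟨0, 0⟩, 0⟩, 0, 0⟩ 0 0) (.pos 61 .mp ⟨⟨60710727, 0, 0, 0, 0, 43379340, 0, 0, 0, ⟨0, 0⟩, 0⟩, 0, 0⟩ 0 0)) (.pos 62 .mp ⟨⟨91076951, 0, 0, 0, 0, 0, 0, 0, 0, ⟨0, 0⟩, 0⟩, 0, 0⟩ 0 0))) (.pos 57 .mp ⟨⟨60660265, 0, 0, 0, 0, 42511398, 0, 0, 0, ⟨0, 0⟩, 0⟩, 0, 0⟩ 0 0)) (.cut .l 57671 (.cut .d (-4096) (.pos 57 .mp ⟨⟨60432466, 0, 0, 0, 0, 45658618, 0, 0, 0, ⟨0, 0⟩, 0⟩, 0, 0⟩ 0 0) (.cut .v 16785408 (.cut .s 9887744 (.pos 61 .mp ⟨⟨61029918, 0, 0, 0, 0, 43585527,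 0, 0, 0, ⟨0, 0⟩, 0⟩, 0, 0⟩ 0 0) (.pos 61 .mp ⟨⟨61350565, 0, 0, 0, 0, 43793657, 0, 0, 0, ⟨0, 0⟩, 0⟩, 0, 0⟩ 0 0)) (.pos 62 .mp ⟨⟨91968063, 0, 0, 0, 0, 0, 0, 0, 0, ⟨0, 0⟩, 0⟩, 0, 0⟩ 0 0))) (.pos 57 .mp ⟨⟨61300864, 0, 0, 0, 0, 42913357, 0, 0, 0, ⟨0, 0⟩, 0⟩, 0, 0⟩ 0 0))) (.pos 58 .mp ⟨⟨91761702, 0, 0, 0, 0, 0, 0, 0, 0, ⟨0, 0⟩, 0⟩, 0, 0⟩ 0 0))) (.cut .s 9879552 (.pos 45 .mp ⟨⟨60901902, 0, 0, 0, 0, 42304795, 0, 0, 0, ⟨0, 0⟩, 0⟩, 0, 0⟩ 0 0) (.pos 45 .mp ⟨⟨61547400, 0, 0, 0, 0, 42700975, 0, 0, 0, ⟨0, 0⟩, 0⟩, 0, 0⟩ 0 0))) (.pos 46 .mp ⟨⟨91864033, 0, 0, 0, 0, 0, 0, 0, 0, ⟨0, 0⟩, 0⟩, 0, 0⟩ 0 0)))) (.cut .d (-16384) (.cut .d (-24576) (.void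 37 ⟨⟨0, 0, 0, 0, 0, 100000, 0, 0, 0, ⟨0, 0⟩, 0⟩, 0, 0⟩ 0 0) (.cut .l 115343 (.void 37 ⟨⟨0, 0, 0, 0, 0, 100000, 0, 0, 0, ⟨0, 0⟩, 0⟩, 0, 0⟩ 0 0) (.cut .s 9928704 (.cut .s 9912320 (.pos 37 .mp ⟨⟨61144525, 0, 0, 0, 0, 46114384, 0, 0, 0, ⟨0, 0⟩, 0⟩, 0, 0⟩ 0 0) (.pos 37 .mp ⟨⟨61805302, 0, 0, 0, 0, 46533105, 0, 0, 0, ⟨0, 0⟩, 0⟩, 0, 0⟩ 0 0)) (.cut .s 9945088 (.pos 37 .mp ⟨⟨62479288, 0, 0, 0, 0, 46946271, 0, 0, 0, ⟨0, 0⟩, 0⟩, 0, 0⟩ 0 0) (.pos 37 .mp ⟨⟨63166719, 0, 0, 0, 0, 47353461, 0, 0, 0, ⟨0, 0⟩, 0⟩, 0, 0⟩ 0 0))))) (.cut .s 9928704 (.cut .v 16809984 (.cut .l 115343 (.cut .d (-8192) (.cut .s 9912320 (.pos 45 .mp ⟨⟨61084243, 0, 0, 0, 0,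 46226480, 0, 0, 0, ⟨0, 0⟩, 0⟩, 0, 0⟩ 0 0) (.pos 45 .mp ⟨⟨61728494, 0, 0, 0, 0, 46683412, 0, 0, 0, ⟨0, 0⟩, 0⟩, 0, 0⟩ 0 0)) (.cut .v 16793600 (.cut .s 9912320 (.cut .l 57671 (.cut .d (-4096) (.pos 57 .mp ⟨⟨61069535, 0, 0, 0, 0, 46104844, 0, 0, 0, ⟨0, 0⟩, 0⟩, 0, 0⟩ 0 0) (.cut .s 9904128 (.pos 57 .mp ⟨⟨61737287, 0, 0, 0, 0, 43917450, 0, 0, 0, ⟨0, 0⟩, 0⟩, 0, 0⟩ 0 0) (.pos 57 .mp ⟨⟨62061165, 0, 0, 0, 0, 44128994, 0, 0, 0, ⟨0, 0⟩, 0⟩, 0, 0⟩ 0 0))) (.pos 57 .mp ⟨⟨61947314, 0, 0, 0, 0, 43318595, 0, 0, 0, ⟨0, 0⟩, 0⟩, 0, 0⟩ 0 0)) (.cut .l 57671 (.cut .d (-4096) (.pos 57 .mp ⟨⟨61712404, 0, 0, 0, 0, 46562190, 0, 0, 0, ⟨0, 0⟩, 0⟩, 0, 0⟩ 0 0)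 (.cut .s 9920512 (.pos 57 .mp ⟨⟨62386514, 0, 0, 0, 0, 44342467, 0, 0, 0, ⟨0, 0⟩, 0⟩, 0, 0⟩ 0 0) (.pos 57 .mp ⟨⟨62713338, 0, 0, 0, 0, 44557866, 0, 0, 0, ⟨0, 0⟩, 0⟩, 0, 0⟩ 0 0))) (.pos 57 .mp ⟨⟨62599654, 0, 0, 0, 0, 43726973, 0, 0, 0, ⟨0, 0⟩, 0⟩, 0, 0⟩ 0 0))) (.pos 58 .mp ⟨⟨93573690, 0, 0, 0, 0, 0, 0, 0, 0, ⟨0, 0⟩, 0⟩, 0, 0⟩ 0 0))) (.cut .s 9912320 (.pos 45 .mp ⟨⟨62198820, 0, 0, 0, 0, 43100345, 0, 0, 0, ⟨0, 0⟩, 0⟩, 0, 0⟩ 0 0) (.pos 45 .mp ⟨⟨62856197, 0, 0, 0, 0, 43502765, 0, 0, 0, ⟨0, 0⟩, 0⟩, 0, 0⟩ 0 0))) (.pos 46 .mp ⟨⟨93678063, 0, 0, 0, 0, 0, 0, 0, 0, ⟨0, 0⟩, 0⟩, 0, 0⟩ 0 0)) (.cut .v 16809984 (.cut .l 115343 (.cut .d (-8192) (.cut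 .s 9945088 (.pos 45 .mp ⟨⟨62378597, 0, 0, 0, 0, 47151554, 0, 0, 0, ⟨0, 0⟩, 0⟩, 0, 0⟩ 0 0) (.pos 45 .mp ⟨⟨63034589, 0, 0, 0, 0, 47631003, 0, 0, 0, ⟨0, 0⟩, 0⟩, 0, 0⟩ 0 0)) (.cut .v 16793600 (.cut .s 9945088 (.cut .l 57671 (.cut .d (-4096) (.pos 57 .mp ⟨⟨62361109, 0, 0, 0, 0, 47030752, 0, 0, 0, ⟨0, 0⟩, 0⟩, 0, 0⟩ 0 0) (.cut .s 9936896 (.pos 57 .mp ⟨⟨63041642, 0, 0, 0, 0, 44775188, 0, 0, 0, ⟨0, 0⟩, 0⟩, 0, 0⟩ 0 0) (.pos 57 .mp ⟨⟨63371431, 0, 0, 0, 0, 44994428, 0, 0, 0, ⟨0, 0⟩, 0⟩, 0, 0⟩ 0 0))) (.pos 57 .mp ⟨⟨63257921, 0, 0, 0, 0, 44138350, 0, 0, 0, ⟨0, 0⟩, 0⟩, 0, 0⟩ 0 0)) (.cut .l 57671 (.cut .d (-4096) (.pos 57 .mp ⟨⟨63015687, 0, 0,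 0, 0, 47510628, 0, 0, 0, ⟨0, 0⟩, 0⟩, 0, 0⟩ 0 0) (.cut .s 9953280 (.pos 57 .mp ⟨⟨63702710, 0, 0, 0, 0, 45215582, 0, 0, 0, ⟨0, 0⟩, 0⟩, 0, 0⟩ 0 0) (.pos 57 .mp ⟨⟨64021920, 0, 0, 0, 0, 45460096, 0, 0, 0, ⟨0, 0⟩, 0⟩, 0, 0⟩ 0 0))) (.pos 57 .mp ⟨⟨63922151, 0, 0, 0, 0, 44552584, 0, 0, 0, ⟨0, 0⟩, 0⟩, 0, 0⟩ 0 0))) (.pos 58 .mp ⟨⟨95436850, 0, 0, 0, 0, 0, 0, 0, 0, ⟨0, 0⟩, 0⟩, 0, 0⟩ 0 0))) (.cut .s 9945088 (.pos 45 .mp ⟨⟨63519571, 0, 0, 0, 0, 43908094, 0, 0, 0, ⟨0, 0⟩, 0⟩, 0, 0⟩ 0 0) (.pos 45 .mp ⟨⟨64188979, 0, 0, 0, 0, 44316188, 0, 0, 0, ⟨0, 0⟩, 0⟩, 0, 0⟩ 0 0))) (.pos 46 .mp ⟨⟨95543321, 0, 0, 0, 0, 0, 0, 0, 0, ⟨0, 0⟩, 0⟩, 0, 0⟩ 0 0))))) (.pos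 38 .mp ⟨⟨98043744, 0, 0, 0, 0, 0, 0, 0, 0, ⟨0, 0⟩, 0⟩, 0, 0⟩ 0 0)) (.cut .v 16842752 (.cut .s 10027008 (.cut .d (-16384) (.cut .d (-24576) (.void 37 ⟨⟨0, 0, 0, 0, 0, 100000, 0, 0, 0, ⟨0, 0⟩, 0⟩, 0, 0⟩ 0 0) (.cut .l 115343 (.void 37 ⟨⟨0, 0, 0, 0, 0, 100000, 0, 0, 0, ⟨0, 0⟩, 0⟩, 0, 0⟩ 0 0) (.cut .l 173015 (.pos 37 .mp ⟨⟨64479044, 0, 0, 0, 0, 52114150, 0, 0, 0, ⟨0, 0⟩, 0⟩, 0, 0⟩ 0 0) (.cut .s 9994240 (.cut .s 9977856 (.pos 37 .mp ⟨⟨63738397, 0, 0, 0, 0, 47709077, 0, 0, 0, ⟨0, 0⟩, 0⟩, 0, 0⟩ 0 0) (.pos 37 .mp ⟨⟨64409187, 0, 0, 0, 0, 48170915, 0, 0, 0, ⟨0, 0⟩, 0⟩, 0, 0⟩ 0 0)) (.pos 37 .mp ⟨⟨65086014, 0, 0, 0, 0, 49464023, 0, 0, 0, ⟨0,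 0⟩, 0⟩, 0, 0⟩ 0 0))))) (.cut .s 9994240 (.cut .v 16809984 (.cut .l 115343 (.cut .d (-8192) (.cut .s 9977856 (.pos 45 .mp ⟨⟨63696509, 0, 0, 0, 0, 48121856, 0, 0, 0, ⟨0, 0⟩, 0⟩, 0, 0⟩ 0 0) (.pos 45 .mp ⟨⟨64364394, 0, 0, 0, 0, 48624213, 0, 0, 0, ⟨0, 0⟩, 0⟩, 0, 0⟩ 0 0)) (.cut .v 16793600 (.cut .l 57671 (.cut .s 9977856 (.cut .s 9969664 (.pos 57 .mp ⟨⟨64617734, 0, 0, 0, 0, 45347391, 0, 0, 0, ⟨0, 0⟩, 0⟩, 0, 0⟩ 0 0) (.pos 57 .mp ⟨⟨64955415, 0, 0, 0, 0, 45567818, 0, 0, 0, ⟨0, 0⟩, 0⟩, 0, 0⟩ 0 0)) (.cut .s 9986048 (.pos 57 .mp ⟨⟨65294618, 0, 0, 0, 0, 45789748, 0, 0, 0, ⟨0, 0⟩, 0⟩, 0, 0⟩ 0 0) (.pos 57 .mp ⟨⟨65635347, 0, 0, 0, 0, 46013171,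 0, 0, 0, ⟨0, 0⟩, 0⟩, 0, 0⟩ 0 0))) (.pos 57 .mp ⟨⟨65268656, 0, 0, 0, 0, 44372683, 0, 0, 0, ⟨0, 0⟩, 0⟩, 0, 0⟩ 0 0)) (.pos 58 .mp ⟨⟨97351791, 0, 0, 0, 0, 0, 0, 0, 0, ⟨0, 0⟩, 0⟩, 0, 0⟩ 0 0))) (.cut .s 9977856 (.pos 45 .mp ⟨⟨64864460, 0, 0, 0, 0, 44726905, 0, 0, 0, ⟨0, 0⟩, 0⟩, 0, 0⟩ 0 0) (.pos 45 .mp ⟨⟨65546052, 0, 0, 0, 0, 45140103, 0, 0, 0, ⟨0, 0⟩, 0⟩, 0, 0⟩ 0 0))) (.pos 46 .mp ⟨⟨97460418, 0, 0, 0, 0, 0, 0, 0, 0, ⟨0, 0⟩, 0⟩, 0, 0⟩ 0 0)) (.cut .v 16809984 (.cut .l 115343 (.cut .d (-8192) (.cut .s 10010624 (.pos 45 .mp ⟨⟨65038281, 0, 0, 0, 0, 49138172, 0, 0, 0, ⟨0, 0⟩, 0⟩, 0, 0⟩ 0 0) (.pos 45 .mp ⟨⟨65718210, 0, 0, 0, 0, 49663833, 0,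 0, 0, ⟨0, 0⟩, 0⟩, 0, 0⟩ 0 0)) (.cut .v 16793600 (.cut .l 57671 (.cut .d (-4096) (.pos 57 .mp ⟨⟨65015036, 0, 0, 0, 0, 50199419, 0, 0, 0, ⟨0, 0⟩, 0⟩, 0, 0⟩ 0 0) (.cut .v 16785408 (.cut .l 28835 (.cut .d (-2048) (.pos 61 .mp ⟨⟨65003554, 0, 0, 0, 0, 50138871, 0, 0, 0, ⟨0, 0⟩, 0⟩, 0, 0⟩ 0 0) (.cut .v 16781312 (.cut .l 14417 (.cut .d (-1024) (.pos 63 .mp ⟨⟨64997827, 0, 0, 0, 0, 50108638, 0, 0, 0, ⟨0, 0⟩, 0⟩, 0, 0⟩ 0 0) (.cut .l 7208 (.cut .v 16779264 (.cut .d (-512) (.pos 114 .mp ⟨⟨64994974, 0, 0, 0, 0, 50093628, 0, 0, 0, ⟨0, 0⟩, 0⟩, 0, 0⟩ 0 0) (.cut .l 3604 (.cut .v 16778240 (.cut .s 10010624 (.cut .s 10002432 (.pos 116 .mp ⟨⟨65929484,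 0, 0, 0, 0, 46286325, 0, 0, 0, ⟨0, 0⟩, 0⟩, 0, 0⟩ 0 0) (.pos 116 .mp ⟨⟨66323789, 0, 0, 0, 0, 46449920, 0, 0, 0, ⟨0, 0⟩, 0⟩, 0, 0⟩ 0 0)) (.cut .s 10018816 (.pos 116 .mp ⟨⟨66723595, 0, 0, 0, 0, 46609964, 0, 0, 0, ⟨0, 0⟩, 0⟩, 0, 0⟩ 0 0) (.pos 116 .mp ⟨⟨67128963, 0, 0, 0, 0, 46766365, 0, 0, 0, ⟨0, 0⟩, 0⟩, 0, 0⟩ 0 0))) (.pos 117 .mp ⟨⟨104795932, 0, 0, 0, 0, 0, 0, 0, 0, ⟨0, 0⟩, 0⟩, 0, 0⟩ 0 0)) (.pos 114 .mp ⟨⟨66378694, 0, 0, 0, 0, 45433375, 0, 0, 0, ⟨0, 0⟩, 0⟩, 0, 0⟩ 0 0))) (.pos 115 .mp ⟨⟨104812311, 0, 0, 0, 0, 0, 0, 0, 0, ⟨0, 0⟩, 0⟩, 0, 0⟩ 0 0)) (.pos 63 .mp ⟨⟨66405289, 0, 0, 0, 0, 45406752, 0, 0, 0, ⟨0, 0⟩, 0⟩, 0, 0⟩ 0 0))) (.pos 63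 .mp ⟨⟨66423875, 0, 0, 0, 0, 45394676, 0, 0, 0, ⟨0, 0⟩, 0⟩, 0, 0⟩ 0 0)) (.pos 64 .mp ⟨⟨99235470, 0, 0, 0, 0, 0, 0, 0, 0, ⟨0, 0⟩, 0⟩, 0, 0⟩ 0 0))) (.pos 61 .mp ⟨⟨66495700, 0, 0, 0, 0, 45329379, 0, 0, 0, ⟨0, 0⟩, 0⟩, 0, 0⟩ 0 0)) (.pos 62 .mp ⟨⟨99263542, 0, 0, 0, 0, 0, 0, 0, 0, ⟨0, 0⟩, 0⟩, 0, 0⟩ 0 0))) (.pos 57 .mp ⟨⟨66639478, 0, 0, 0, 0, 45198770, 0, 0, 0, ⟨0, 0⟩, 0⟩, 0, 0⟩ 0 0)) (.pos 58 .mp ⟨⟨99319135, 0, 0, 0, 0, 0, 0, 0, 0, ⟨0, 0⟩, 0⟩, 0, 0⟩ 0 0))) (.cut .s 10010624 (.pos 45 .mp ⟨⟨66233794, 0, 0, 0, 0, 45555639, 0, 0, 0, ⟨0, 0⟩, 0⟩, 0, 0⟩ 0 0) (.pos 45 .mp ⟨⟨66927726, 0, 0, 0, 0, 45973368, 0, 0, 0, ⟨0, 0⟩, 0⟩, 0, 0⟩ 0 0))) (.pos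 46 .mp ⟨⟨99429977, 0, 0, 0, 0, 0, 0, 0, 0, ⟨0, 0⟩, 0⟩, 0, 0⟩ 0 0)))) (.cut .d (-16384) (.cut .s 10059776 (.cut .s 10043392 (.pos 37 .mp ⟨⟨66457931, 0, 0, 0, 0, 50435774, 0, 0, 0, ⟨0, 0⟩, 0⟩, 0, 0⟩ 0 0) (.pos 37 .mp ⟨⟨67153101, 0, 0, 0, 0, 50984203, 0, 0, 0, ⟨0, 0⟩, 0⟩, 0, 0⟩ 0 0)) (.pos 37 .mp ⟨⟨67854464, 0, 0, 0, 0, 52789975, 0, 0, 0, ⟨0, 0⟩, 0⟩, 0, 0⟩ 0 0)) (.cut .v 16809984 (.cut .s 10059776 (.cut .l 115343 (.cut .d (-8192) (.pos 45 .mp ⟨⟨66404220, 0, 0, 0, 0, 51413067, 0, 0, 0, ⟨0, 0⟩, 0⟩, 0, 0⟩ 0 0) (.cut .v 16793600 (.cut .l 57671 (.cut .d (-4096) (.pos 57 .mp ⟨⟨66377995, 0, 0, 0, 0, 51293179, 0, 0, 0, ⟨0, 0⟩, 0⟩, 0, 0⟩ 0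 0) (.cut .v 16785408 (.cut .l 28835 (.cut .d (-2048) (.pos 61 .mp ⟨⟨66365026, 0, 0, 0, 0, 51233057, 0, 0, 0, ⟨0, 0⟩, 0⟩, 0, 0⟩ 0 0) (.cut .v 16781312 (.cut .l 14417 (.cut .d (-1024) (.pos 63 .mp ⟨⟨66358555, 0, 0, 0, 0, 51203039, 0, 0, 0, ⟨0, 0⟩, 0⟩, 0, 0⟩ 0 0) (.cut .l 7208 (.cut .d (-512) (.pos 63 .mp ⟨⟨67805353, 0, 0, 0, 0, 48482086, 0, 0, 0, ⟨0, 0⟩, 0⟩, 0, 0⟩ 0 0) (.cut .v 16779264 (.cut .l 3604 (.cut .v 16778240 (.cut .s 10043392 (.cut .s 10035200 (.pos 116 .mp ⟨⟨67539956, 0, 0, 0, 0, 46919032, 0, 0, 0, ⟨0, 0⟩, 0⟩, 0, 0⟩ 0 0) (.pos 116 .mp ⟨⟨67956636, 0, 0, 0, 0, 47067874, 0, 0, 0, ⟨0, 0⟩, 0⟩, 0, 0⟩ 0 0)) (.cut .s 10051584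 (.pos 116 .mp ⟨⟨68379066, 0, 0, 0, 0, 47212799, 0, 0, 0, ⟨0, 0⟩, 0⟩, 0, 0⟩ 0 0) (.pos 116 .mp ⟨⟨68807309, 0, 0, 0, 0, 47353714, 0, 0, 0, ⟨0, 0⟩, 0⟩, 0, 0⟩ 0 0))) (.pos 117 .mp ⟨⟨106766559, 0, 0, 0, 0, 0, 0, 0, 0, ⟨0, 0⟩, 0⟩, 0, 0⟩ 0 0)) (.pos 114 .mp ⟨⟨67763880, 0, 0, 0, 0, 46280355, 0, 0, 0, ⟨0, 0⟩, 0⟩, 0, 0⟩ 0 0)) (.pos 115 .mp ⟨⟨101449898, 0, 0, 0, 0, 0, 0, 0, 0, ⟨0, 0⟩, 0⟩, 0, 0⟩ 0 0))) (.pos 63 .mp ⟨⟨67791334, 0, 0, 0, 0, 46252671, 0, 0, 0, ⟨0, 0⟩, 0⟩, 0, 0⟩ 0 0))) (.pos 63 .mp ⟨⟨67810983, 0, 0, 0, 0, 46239390, 0, 0, 0, ⟨0, 0⟩, 0⟩, 0, 0⟩ 0 0)) (.pos 64 .mp ⟨⟨101254131, 0, 0, 0, 0, 0, 0, 0, 0, ⟨0, 0⟩, 0⟩, 0, 0⟩ 0 0))) (.pos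 61 .mp ⟨⟨67885588, 0, 0, 0, 0, 46170766, 0, 0, 0, ⟨0, 0⟩, 0⟩, 0, 0⟩ 0 0)) (.pos 62 .mp ⟨⟨101282781, 0, 0, 0, 0, 0, 0, 0, 0, ⟨0, 0⟩, 0⟩, 0, 0⟩ 0 0))) (.pos 57 .mp ⟨⟨68034930, 0, 0, 0, 0, 46033505, 0, 0, 0, ⟨0, 0⟩, 0⟩, 0, 0⟩ 0 0)) (.pos 58 .mp ⟨⟨101339517, 0, 0, 0, 0, 0, 0, 0, 0, ⟨0, 0⟩, 0⟩, 0, 0⟩ 0 0))) (.pos 45 .mp ⟨⟨68334320, 0, 0, 0, 0, 45758324, 0, 0, 0, ⟨0, 0⟩, 0⟩, 0, 0⟩ 0 0)) (.cut .l 115343 (.cut .d (-8192) (.pos 45 .mp ⟨⟨67794637, 0, 0, 0, 0, 52553812, 0, 0, 0, ⟨0, 0⟩, 0⟩, 0, 0⟩ 0 0) (.cut .v 16793600 (.cut .l 57671 (.cut .d (-4096) (.pos 57 .mp ⟨⟨67765365, 0, 0, 0, 0, 52434806, 0, 0, 0, ⟨0, 0⟩, 0⟩, 0, 0⟩ 0 0) (.cut .v 16785408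 (.cut .l 28835 (.cut .d (-2048) (.pos 61 .mp ⟨⟨67750875, 0, 0, 0, 0, 52375122, 0, 0, 0, ⟨0, 0⟩, 0⟩, 0, 0⟩ 0 0) (.cut .v 16781312 (.cut .l 14417 (.cut .d (-1024) (.pos 63 .mp ⟨⟨67743644, 0, 0, 0, 0, 52345324, 0, 0, 0, ⟨0, 0⟩, 0⟩, 0, 0⟩ 0 0) (.cut .s 10076160 (.cut .s 10067968 (.pos 63 .mp ⟨⟨68965217, 0, 0, 0, 0, 47933294, 0, 0, 0, ⟨0, 0⟩, 0⟩, 0, 0⟩ 0 0) (.pos 63 .mp ⟨⟨69384021, 0, 0, 0, 0, 48100217, 0, 0, 0, ⟨0, 0⟩, 0⟩, 0, 0⟩ 0 0)) (.pos 63 .mp ⟨⟨69250751, 0, 0, 0, 0, 49217289, 0, 0, 0, ⟨0, 0⟩, 0⟩, 0, 0⟩ 0 0))) (.pos 63 .mp ⟨⟨69222824, 0, 0, 0, 0, 47091898, 0, 0, 0, ⟨0, 0⟩, 0⟩, 0, 0⟩ 0 0)) (.pos 64 .mp ⟨⟨103326431, 0, 0, 0, 0, 0,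 0, 0, 0, ⟨0, 0⟩, 0⟩, 0, 0⟩ 0 0))) (.pos 61 .mp ⟨⟨69300283, 0, 0, 0, 0, 47019850, 0, 0, 0, ⟨0, 0⟩, 0⟩, 0, 0⟩ 0 0)) (.pos 62 .mp ⟨⟨103355675, 0, 0, 0, 0, 0, 0, 0, 0, ⟨0, 0⟩, 0⟩, 0, 0⟩ 0 0))) (.pos 57 .mp ⟨⟨69455335, 0, 0, 0, 0, 46875740, 0, 0, 0, ⟨0, 0⟩, 0⟩, 0, 0⟩ 0 0)) (.pos 58 .mp ⟨⟨103413582, 0, 0, 0, 0, 0, 0, 0, 0, ⟨0, 0⟩, 0⟩, 0, 0⟩ 0 0))) (.pos 45 .mp ⟨⟨69766158, 0, 0, 0, 0, 46586848, 0, 0, 0, ⟨0, 0⟩, 0⟩, 0, 0⟩ 0 0))) (.pos 46 .mp ⟨⟨102902515, 0, 0, 0, 0, 0, 0, 0, 0, ⟨0, 0⟩, 0⟩, 0, 0⟩ 0 0)))) (.pos 38 .mp ⟨⟨105619036, 0, 0, 0, 0, 0, 0, 0, 0, ⟨0, 0⟩, 0⟩, 0, 0⟩ 0 0)))) (.pos 36 .mp ⟨⟨101273198, 0, 0, 0, 0, 0, 0, 0, 0, ⟨0, 0⟩,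 0⟩, 0, 0⟩ 0 0)) (.void 34 ⟨⟨100000, 0, 0, 0, 0, 0, 0, 0, 0, ⟨0, 0⟩, 0⟩, 0, 0⟩ 0 0)) (.void 32 ⟨⟨100000, 0, 0, 0, 0, 0, 0, 0, 0, ⟨0, 0⟩, 0⟩, 0, 0⟩ 0 0)))))))) (.void 30 ⟨⟨100000, 0, 0, 0, 0, 0, 0, 0, 0, ⟨0, 0⟩, 0⟩, 0, 0⟩ 0 0))) (.void 28 ⟨⟨100000, 0, 0, 0, 0, 0, 0, 0, 0, ⟨0, 0⟩, 0⟩, 0, 0⟩ 0 0))) (.void 26 ⟨⟨100000, 0, 0, 0, 0, 0, 0, 0, 0, ⟨0, 0⟩, 0⟩, 0, 0⟩ 0 0))) (.void 24 ⟨⟨100000, 0, 0, 0, 0, 0, 0, 0, 0, ⟨0, 0⟩, 0⟩, 0, 0⟩ 0 0)) (.void 97 ⟨⟨100000, 0, 0, 0, 0, 0, 0, 0, 0, ⟨0, 0⟩, 0⟩, 0, 0⟩ 0 0))) (.cut .v 16777216 (.cut .v 8388608 (.cut .v 4194304 (.void 4 ⟨⟨0, 0, 66667, 0, 0, 0, 0, 0, 0, ⟨0, 0⟩, 0⟩, 0, 33333⟩ 0 0) (.pos 5 .pm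 ⟨⟨0, 0, 519547, 0, 0, 0, 0, 0, 0, ⟨0, 0⟩, 0⟩, 0, 0⟩ 0 0)) (.pos 3 .pm ⟨⟨0, 0, 0, 0, 0, 0, 0, 0, 0, ⟨0, 0⟩, 0⟩, 0, 0⟩ 0 0)) (.cut .d 6320185 (.cut .v 33554432 (.cut .d 3160092 (.cut .v 25165824 (.cut .d 1580046 (.cut .v 20971520 (.cut .d 790023 (.cut .d 395011 (.cut .v 18874368 (.cut .s 9830400 (.pos 27 .pp ⟨⟨69326728, 0, 0, 0, 0, 0, 0, 0, 0, ⟨0, 0⟩, 0⟩, 865126, 0⟩ 0 0) (.cut .s 9961472 (.pos 27 .pp ⟨⟨44094422, 0, 0, 0, 0, 0, 0, 0, 0, ⟨0, 0⟩, 0⟩, 4708635, 0⟩ 0 0) (.pos 27 .pp ⟨⟨47808713, 0, 0, 0, 0, 0, 0, 0, 0, ⟨0, 0⟩, 0⟩, 5093003, 0⟩ 0 0))) (.pos 28 .pp ⟨⟨116815571, 0, 0, 0, 0, 0, 0, 0, 0, ⟨0, 0⟩, 0⟩, 0, 0⟩ 0 0)) (.pos 25 .pp ⟨⟨65859599,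 0, 0, 0, 0, 0, 0, 0, 0, ⟨0, 0⟩, 0⟩, 0, 82222⟩ 0 0)) (.pos 25 .pp ⟨⟨0, 0, 0, 0, 0, 0, 0, 0, 0, ⟨0, 0⟩, 0⟩, 0, 651420⟩ 0 0)) (.cut .d 790023 (.cut .d 395011 (.void 26 ⟨⟨100000, 0, 0, 0, 0, 0, 0, 0, 0, ⟨0, 0⟩, 0⟩, 0, 0⟩ 0 0) (.pos 26 .pp ⟨⟨0, 0, 0, 0, 0, 0, 0, 0, 0, ⟨0, 0⟩, 0⟩, 11523115, 0⟩ 0 0)) (.pos 26 .pp ⟨⟨0, 0, 0, 0, 0, 0, 254573, 0, 0, ⟨0, 0⟩, 0⟩, 8428112, 0⟩ 0 0))) (.pos 23 .pp ⟨⟨0, 0, 0, 0, 0, 0, 0, 0, 0, ⟨0, 0⟩, 0⟩, 0, 703533⟩ 0 0)) (.cut .d 1580046 (.cut .d 790023 (.void 24 ⟨⟨0, 0, 0, 0, 0, 0, 0, 0, 0, ⟨0, 0⟩, 0⟩, 100000, 0⟩ 0 0) (.cut .v 29360128 (.pos 79 .pp ⟨⟨0, 0, 0, 0, 0, 0, 0, 0, 0, ⟨0, 0⟩, 0⟩, 12257063, 0⟩ 0 0) (.pos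 80 .pp ⟨⟨0, 0, 0, 0, 0, 0, 0, 0, 0, ⟨0, 0⟩, 0⟩, 24370014, 0⟩ 0 0))) (.pos 24 .pp ⟨⟨0, 0, 0, 0, 0, 0, 112704, 0, 0, ⟨0, 0⟩, 0⟩, 9726408, 0⟩ 0 0))) (.pos 22 .pp ⟨⟨0, 0, 0, 0, 0, 0, 0, 0, 0, ⟨0, 0⟩, 0⟩, 0, 781704⟩ 0 0)) (.cut .v 50331648 (.cut .d 3160092 (.cut .d 1580046 (.void 100 ⟨⟨0, 0, 0, 0, 0, 0, 0, 0, 0, ⟨0, 0⟩, 0⟩, 100000, 0⟩ 0 0) (.cut .v 41943040 (.pos 102 .pp ⟨⟨0, 0, 0, 0, 0, 0, 0, 0, 0, ⟨0, 0⟩, 0⟩, 16339273, 0⟩ 0 0) (.void 103 ⟨⟨0, 0, 0, 0, 0, 0, 0, 0, 0, ⟨0, 0⟩, 0⟩, 100000, 0⟩ 0 0))) (.pos 100 .pp ⟨⟨0, 0, 0, 0, 0, 0, 128070982, 0, 0, ⟨0, 0⟩, 0⟩, 7804146, 0⟩ 0 0)) (.pos 101 .pp ⟨⟨0, 0, 0, 0, 0, 0, 411056550, 0, 0, ⟨0, 0⟩,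 0⟩, 38215388, 0⟩ 0 0))) (.pos 96 .pp ⟨⟨0, 0, 0, 0, 0, 0, 240256977, 0, 0, ⟨0, 0⟩, 0⟩, 0, 166871032⟩ 0 0)))),
    by decide +kernel⟩

def covers13 : cell.Covers Vale.Agent.P237.Petty.Cor.Grid.N16.table row13.1 :=
  ⟨(.cut .d 0 (.cut .v 16777216 (.cut .d (-8388608) (.void 1 ⟨⟨0, 0, 0, 0, 0, 100000, 0, 0, 0, ⟨0, 0⟩, 0⟩, 0, 0⟩ 0 0) (.cut .d (-4194304) (.void 1 ⟨⟨0, 0, 0, 0, 0, 100000, 0, 0, 0, ⟨0, 0⟩, 0⟩, 0, 0⟩ 0 0) (.cut .d (-2097152) (.void 1 ⟨⟨0, 0, 0, 0, 0, 100000, 0, 0, 0, ⟨0, 0⟩, 0⟩, 0, 0⟩ 0 0) (.cut .d (-1048576) (.void 1 ⟨⟨0, 0, 0, 0, 0, 100000, 0, 0, 0, ⟨0, 0⟩, 0⟩, 0, 0⟩ 0 0) (.cut .d (-524288) (.void 1 ⟨⟨0, 0, 0, 0, 0, 100000,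 0, 0, 0, ⟨0, 0⟩, 0⟩, 0, 0⟩ 0 0) (.cut .d (-262144) (.void 1 ⟨⟨0, 0, 0, 0, 0, 100000, 0, 0, 0, ⟨0, 0⟩, 0⟩, 0, 0⟩ 0 0) (.cut .d (-131072) (.void 1 ⟨⟨0, 0, 0, 0, 0, 100000, 0, 0, 0, ⟨0, 0⟩, 0⟩, 0, 0⟩ 0 0) (.cut .d (-65536) (.void 1 ⟨⟨0, 0, 0, 0, 0, 100000, 0, 0, 0, ⟨0, 0⟩, 0⟩, 0, 0⟩ 0 0) (.cut .d (-32768) (.void 1 ⟨⟨0, 0, 0, 0, 0, 100000, 0, 0, 0, ⟨0, 0⟩, 0⟩, 0, 0⟩ 0 0) (.cut .v 8388608 (.cut .v 4194304 (.void 4 ⟨⟨0, 0, 100000, 0, 0, 0, 0, 0, 0, ⟨0, 0⟩, 0⟩, 0, 0⟩ 0 0) (.pos 5 .mm ⟨⟨0, 0, 1315828, 0, 0, 61070597, 0, 0, 0, ⟨0, 0⟩, 0⟩, 0, 0⟩ 0 0)) (.cut .s 10289152 (.pos 3 .mm ⟨⟨0, 0, 0, 0, 0, 151800838, 0, 0, 0, ⟨0, 0⟩, 0⟩, 0, 0⟩ 0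 0) (.cut .s 10387456 (.pos 3 .mm ⟨⟨0, 0, 0, 0, 0, 167633841, 0, 0, 0, ⟨0, 0⟩, 0⟩, 0, 0⟩ 0 0) (.pos 3 .mm ⟨⟨0, 0, 0, 0, 0, 178851929, 0, 0, 0, ⟨0, 0⟩, 0⟩, 0, 0⟩ 0 0))))))))))))) (.cut .v 67108864 (.cut .v 33554432 (.cut .v 25165824 (.cut .d (-8388608) (.void 23 ⟨⟨0, 0, 0, 0, 0, 100000, 0, 0, 0, ⟨0, 0⟩, 0⟩, 0, 0⟩ 0 0) (.cut .v 20971520 (.cut .d (-4194304) (.void 25 ⟨⟨100000, 0, 0, 0, 0, 0, 0, 0, 0, ⟨0, 0⟩, 0⟩, 0, 0⟩ 0 0) (.cut .v 18874368 (.cut .d (-2097152) (.void 27 ⟨⟨100000, 0, 0, 0, 0, 0, 0, 0, 0, ⟨0, 0⟩, 0⟩, 0, 0⟩ 0 0) (.cut .v 17825792 (.cut .d (-1048576) (.void 29 ⟨⟨100000, 0, 0, 0, 0, 0, 0, 0, 0, ⟨0, 0⟩, 0⟩, 0, 0⟩ 0 0) (.cut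 .v 17301504 (.cut .d (-524288) (.void 31 ⟨⟨100000, 0, 0, 0, 0, 0, 0, 0, 0, ⟨0, 0⟩, 0⟩, 0, 0⟩ 0 0) (.cut .v 17039360 (.cut .d (-262144) (.void 33 ⟨⟨100000, 0, 0, 0, 0, 0, 0, 0, 0, ⟨0, 0⟩, 0⟩, 0, 0⟩ 0 0) (.cut .d (-131072) (.void 33 ⟨⟨100000, 0, 0, 0, 0, 0, 0, 0, 0, ⟨0, 0⟩, 0⟩, 0, 0⟩ 0 0) (.cut .d (-65536) (.void 33 ⟨⟨100000, 0, 0, 0, 0, 0, 0, 0, 0, ⟨0, 0⟩, 0⟩, 0, 0⟩ 0 0) (.cut .d (-32768) (.void 33 ⟨⟨0, 0, 0, 0, 0, 100000, 0, 0, 0, ⟨0, 0⟩, 0⟩, 0, 0⟩ 0 0) (.cut .v 16908288 (.cut .s 10289152 (.cut .v 16842752 (.cut .s 10190848 (.cut .d (-16384) (.cut .d (-24576) (.void 37 ⟨⟨0, 0, 0, 0, 0, 100000, 0, 0, 0, ⟨0, 0⟩, 0⟩, 0, 0⟩ 0 0) (.cut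 .d (-20480) (.pos 37 .mp ⟨⟨70717054, 0, 0, 0, 0, 58210961, 0, 0, 0, ⟨0, 0⟩, 0⟩, 0, 0⟩ 0 0) (.cut .l 115343 (.void 37 ⟨⟨0, 0, 0, 0, 0, 100000, 0, 0, 0, ⟨0, 0⟩, 0⟩, 0, 0⟩ 0 0) (.cut .s 10141696 (.pos 37 .mp ⟨⟨69889044, 0, 0, 0, 0, 53460492, 0, 0, 0, ⟨0, 0⟩, 0⟩, 0, 0⟩ 0 0) (.cut .s 10166272 (.pos 37 .mp ⟨⟨72101076, 0, 0, 0, 0, 52861663, 0, 0, 0, ⟨0, 0⟩, 0⟩, 0, 0⟩ 0 0) (.pos 37 .mp ⟨⟨73103826, 0, 0, 0, 0, 53758006, 0, 0, 0, ⟨0, 0⟩, 0⟩, 0, 0⟩ 0 0)))))) (.cut .s 10141696 (.cut .v 16809984 (.cut .s 10117120 (.cut .s 10104832 (.pos 45 .mp ⟨⟨71093690, 0, 0, 0, 0, 48131380, 0, 0, 0, ⟨0, 0⟩, 0⟩, 0, 0⟩ 0 0) (.cut .s 10110976 (.pos 45 .mp ⟨⟨72002053,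 0, 0, 0, 0, 47721786, 0, 0, 0, ⟨0, 0⟩, 0⟩, 0, 0⟩ 0 0) (.pos 45 .mp ⟨⟨72199685, 0, 0, 0, 0, 47967327, 0, 0, 0, ⟨0, 0⟩, 0⟩, 0, 0⟩ 0 0))) (.cut .l 115343 (.cut .d (-8192) (.pos 45 .mp ⟨⟨70288065, 0, 0, 0, 0, 53722016, 0, 0, 0, ⟨0, 0⟩, 0⟩, 0, 0⟩ 0 0) (.cut .s 10129408 (.pos 45 .mp ⟨⟨71629576, 0, 0, 0, 0, 49435340, 0, 0, 0, ⟨0, 0⟩, 0⟩, 0, 0⟩ 0 0) (.pos 45 .mp ⟨⟨72184884, 0, 0, 0, 0, 49733266, 0, 0, 0, ⟨0, 0⟩, 0⟩, 0, 0⟩ 0 0))) (.pos 45 .mp ⟨⟨71966232, 0, 0, 0, 0, 48625443, 0, 0, 0, ⟨0, 0⟩, 0⟩, 0, 0⟩ 0 0))) (.pos 46 .mp ⟨⟨106445681, 0, 0, 0, 0, 0, 0, 0, 0, ⟨0, 0⟩, 0⟩, 0, 0⟩ 0 0)) (.cut .v 16809984 (.cut .s 10166272 (.cut .l 115343 (.cut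 .d (-8192) (.pos 45 .mp ⟨⟨71384043, 0, 0, 0, 0, 54340179, 0, 0, 0, ⟨0, 0⟩, 0⟩, 0, 0⟩ 0 0) (.cut .v 16793600 (.cut .l 57671 (.cut .d (-4096) (.pos 57 .mp ⟨⟨71345286, 0, 0, 0, 0, 54227302, 0, 0, 0, ⟨0, 0⟩, 0⟩, 0, 0⟩ 0 0) (.cut .s 10153984 (.pos 57 .mp ⟨⟨72291533, 0, 0, 0, 0, 50635953, 0, 0, 0, ⟨0, 0⟩, 0⟩, 0, 0⟩ 0 0) (.pos 57 .mp ⟨⟨72859007, 0, 0, 0, 0, 50938477, 0, 0, 0, ⟨0, 0⟩, 0⟩, 0, 0⟩ 0 0))) (.pos 57 .mp ⟨⟨72750854, 0, 0, 0, 0, 49618711, 0, 0, 0, ⟨0, 0⟩, 0⟩, 0, 0⟩ 0 0)) (.pos 58 .mp ⟨⟨108034282, 0, 0, 0, 0, 0, 0, 0, 0, ⟨0, 0⟩, 0⟩, 0, 0⟩ 0 0))) (.pos 45 .mp ⟨⟨73091074, 0, 0, 0, 0, 49294453, 0, 0, 0, ⟨0, 0⟩, 0⟩, 0, 0⟩ 0 0)) (.cut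 .l 115343 (.cut .d (-8192) (.pos 45 .mp ⟨⟨72495395, 0, 0, 0, 0, 54989922, 0, 0, 0, ⟨0, 0⟩, 0⟩, 0, 0⟩ 0 0) (.cut .v 16793600 (.cut .l 57671 (.cut .d (-4096) (.pos 57 .mp ⟨⟨72453312, 0, 0, 0, 0, 54879355, 0, 0, 0, ⟨0, 0⟩, 0⟩, 0, 0⟩ 0 0) (.cut .v 16785408 (.cut .l 28835 (.cut .d (-2048) (.pos 61 .mp ⟨⟨72432425, 0, 0, 0, 0, 54823872, 0, 0, 0, ⟨0, 0⟩, 0⟩, 0, 0⟩ 0 0) (.cut .s 10178560 (.pos 61 .mp ⟨⟨73195571, 0, 0, 0, 0, 51559527, 0, 0, 0, ⟨0, 0⟩, 0⟩, 0, 0⟩ 0 0) (.cut .s 10184704 (.pos 61 .mp ⟨⟨74110746, 0, 0, 0, 0, 51244126, 0, 0, 0, ⟨0, 0⟩, 0⟩, 0, 0⟩ 0 0) (.pos 61 .mp ⟨⟨74358871, 0, 0, 0, 0, 51456702, 0, 0, 0, ⟨0, 0⟩, 0⟩, 0, 0⟩ 0 0))))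 (.pos 61 .mp ⟨⟨73706369, 0, 0, 0, 0, 50482604, 0, 0, 0, ⟨0, 0⟩, 0⟩, 0, 0⟩ 0 0)) (.pos 62 .mp ⟨⟨109450697, 0, 0, 0, 0, 0, 0, 0, 0, ⟨0, 0⟩, 0⟩, 0, 0⟩ 0 0))) (.pos 57 .mp ⟨⟨73881248, 0, 0, 0, 0, 50314639, 0, 0, 0, ⟨0, 0⟩, 0⟩, 0, 0⟩ 0 0)) (.pos 58 .mp ⟨⟨109511880, 0, 0, 0, 0, 0, 0, 0, 0, ⟨0, 0⟩, 0⟩, 0, 0⟩ 0 0))) (.pos 45 .mp ⟨⟨74231773, 0, 0, 0, 0, 49977973, 0, 0, 0, ⟨0, 0⟩, 0⟩, 0, 0⟩ 0 0))) (.pos 46 .mp ⟨⟨109350567, 0, 0, 0, 0, 0, 0, 0, 0, ⟨0, 0⟩, 0⟩, 0, 0⟩ 0 0)))) (.cut .d (-16384) (.cut .d (-24576) (.void 37 ⟨⟨0, 0, 0, 0, 0, 100000, 0, 0, 0, ⟨0, 0⟩, 0⟩, 0, 0⟩ 0 0) (.cut .l 115343 (.void 37 ⟨⟨0, 0, 0, 0, 0, 100000, 0, 0, 0, ⟨0, 0⟩,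 0⟩, 0, 0⟩ 0 0) (.cut .l 173015 (.void 37 ⟨⟨0, 0, 0, 0, 0, 100000, 0, 0, 0, ⟨0, 0⟩, 0⟩, 0, 0⟩ 0 0) (.cut .v 16809984 (.pos 45 .mp ⟨⟨46817587, 0, 0, 0, 0, 94485104, 0, 0, 0, ⟨0, 0⟩, 0⟩, 0, 0⟩ 0 0) (.cut .d (-20480) (.pos 46 .mp ⟨⟨77425258, 0, 0, 0, 0, 57398684, 0, 0, 0, ⟨0, 0⟩, 0⟩, 0, 0⟩ 0 0) (.cut .s 10240000 (.pos 46 .mp ⟨⟨77085969, 0, 0, 0, 0, 50812215, 0, 0, 0, ⟨0, 0⟩, 0⟩, 0, 0⟩ 0 0) (.pos 46 .mp ⟨⟨79501556, 0, 0, 0, 0, 52132560, 0, 0, 0, ⟨0, 0⟩, 0⟩, 0, 0⟩ 0 0))))))) (.cut .s 10240000 (.cut .v 16809984 (.cut .s 10215424 (.cut .s 10203136 (.cut .s 10196992 (.pos 45 .mp ⟨⟨75345978, 0, 0, 0, 0, 50679771, 0, 0, 0, ⟨0, 0⟩, 0⟩, 0,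 0⟩ 0 0) (.cut .s 10200064 (.pos 45 .mp ⟨⟨75644257, 0, 0, 0, 0, 50717691, 0, 0, 0, ⟨0, 0⟩, 0⟩, 0, 0⟩ 0 0) (.pos 45 .mp ⟨⟨75760021, 0, 0, 0, 0, 50840270, 0, 0, 0, ⟨0, 0⟩, 0⟩, 0, 0⟩ 0 0))) (.cut .l 115343 (.cut .d (-8192) (.pos 45 .mp ⟨⟨74191582, 0, 0, 0, 0, 54962492, 0, 0, 0, ⟨0, 0⟩, 0⟩, 0, 0⟩ 0 0) (.cut .s 10209280 (.pos 45 .mp ⟨⟨75257602, 0, 0, 0, 0, 51896176, 0, 0, 0, ⟨0, 0⟩, 0⟩, 0, 0⟩ 0 0) (.pos 45 .mp ⟨⟨75566404, 0, 0, 0, 0, 52035846, 0, 0, 0, ⟨0, 0⟩, 0⟩, 0, 0⟩ 0 0))) (.pos 45 .mp ⟨⟨75388487, 0, 0, 0, 0, 51441225, 0, 0, 0, ⟨0, 0⟩, 0⟩, 0, 0⟩ 0 0))) (.cut .s 10227712 (.cut .l 115343 (.cut .d (-8192) (.pos 45 .mp ⟨⟨74764831, 0,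 0, 0, 0, 55311906, 0, 0, 0, ⟨0, 0⟩, 0⟩, 0, 0⟩ 0 0) (.cut .s 10221568 (.pos 45 .mp ⟨⟨75875332, 0, 0, 0, 0, 52178415, 0, 0, 0, ⟨0, 0⟩, 0⟩, 0, 0⟩ 0 0) (.pos 45 .mp ⟨⟨76182545, 0, 0, 0, 0, 52326840, 0, 0, 0, ⟨0, 0⟩, 0⟩, 0, 0⟩ 0 0))) (.pos 45 .mp ⟨⟨75972900, 0, 0, 0, 0, 51801900, 0, 0, 0, ⟨0, 0⟩, 0⟩, 0, 0⟩ 0 0)) (.cut .l 115343 (.cut .d (-8192) (.pos 45 .mp ⟨⟨75342039, 0, 0, 0, 0, 55669504, 0, 0, 0, ⟨0, 0⟩, 0⟩, 0, 0⟩ 0 0) (.cut .s 10233856 (.pos 45 .mp ⟨⟨76475597, 0, 0, 0, 0, 52501110, 0, 0, 0, ⟨0, 0⟩, 0⟩, 0, 0⟩ 0 0) (.pos 45 .mp ⟨⟨76769662, 0, 0, 0, 0, 52676881, 0, 0, 0, ⟨0, 0⟩, 0⟩, 0, 0⟩ 0 0))) (.pos 45 .mp ⟨⟨76561377, 0, 0, 0, 0,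 52165808, 0, 0, 0, ⟨0, 0⟩, 0⟩, 0, 0⟩ 0 0)))) (.pos 46 .mp ⟨⟨112397234, 0, 0, 0, 0, 0, 0, 0, 0, ⟨0, 0⟩, 0⟩, 0, 0⟩ 0 0)) (.cut .v 16809984 (.cut .s 10264576 (.cut .s 10252288 (.cut .l 115343 (.cut .d (-8192) (.pos 45 .mp ⟨⟨75923226, 0, 0, 0, 0, 56035340, 0, 0, 0, ⟨0, 0⟩, 0⟩, 0, 0⟩ 0 0) (.cut .s 10246144 (.pos 45 .mp ⟨⟨77064744, 0, 0, 0, 0, 52854152, 0, 0, 0, ⟨0, 0⟩, 0⟩, 0, 0⟩ 0 0) (.pos 45 .mp ⟨⟨77360845, 0, 0, 0, 0, 53032921, 0, 0, 0, ⟨0, 0⟩, 0⟩, 0, 0⟩ 0 0))) (.pos 45 .mp ⟨⟨77153938, 0, 0, 0, 0, 52532871, 0, 0, 0, ⟨0, 0⟩, 0⟩, 0, 0⟩ 0 0)) (.cut .l 115343 (.cut .d (-8192) (.pos 45 .mp ⟨⟨76508412, 0, 0, 0, 0, 56409470, 0, 0, 0, ⟨0,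 0⟩, 0⟩, 0, 0⟩ 0 0) (.cut .s 10258432 (.pos 45 .mp ⟨⟨77657967, 0, 0, 0, 0, 53213185, 0, 0, 0, ⟨0, 0⟩, 0⟩, 0, 0⟩ 0 0) (.pos 45 .mp ⟨⟨77956114, 0, 0, 0, 0, 53394943, 0, 0, 0, ⟨0, 0⟩, 0⟩, 0, 0⟩ 0 0))) (.pos 45 .mp ⟨⟨77750604, 0, 0, 0, 0, 52903012, 0, 0, 0, ⟨0, 0⟩, 0⟩, 0, 0⟩ 0 0))) (.cut .s 10276864 (.cut .l 115343 (.cut .d (-8192) (.pos 45 .mp ⟨⟨77097618, 0, 0, 0, 0, 56791951, 0, 0, 0, ⟨0, 0⟩, 0⟩, 0, 0⟩ 0 0) (.cut .s 10270720 (.pos 45 .mp ⟨⟨78255287, 0, 0, 0, 0, 53578192, 0, 0, 0, ⟨0, 0⟩, 0⟩, 0, 0⟩ 0 0) (.pos 45 .mp ⟨⟨78555490, 0, 0, 0, 0, 53762930, 0, 0, 0, ⟨0, 0⟩, 0⟩, 0, 0⟩ 0 0))) (.pos 45 .mp ⟨⟨78351396, 0, 0, 0, 0, 53276150, 0,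 0, 0, ⟨0, 0⟩, 0⟩, 0, 0⟩ 0 0)) (.cut .l 115343 (.cut .d (-8192) (.pos 45 .mp ⟨⟨77690863, 0, 0, 0, 0, 57182840, 0, 0, 0, ⟨0, 0⟩, 0⟩, 0, 0⟩ 0 0) (.cut .s 10283008 (.pos 45 .mp ⟨⟨78856724, 0, 0, 0, 0, 53949156, 0, 0, 0, ⟨0, 0⟩, 0⟩, 0, 0⟩ 0 0) (.pos 45 .mp ⟨⟨79158993, 0, 0, 0, 0, 54136868, 0, 0, 0, ⟨0, 0⟩, 0⟩, 0, 0⟩ 0 0))) (.pos 45 .mp ⟨⟨78956335, 0, 0, 0, 0, 53652207, 0, 0, 0, ⟨0, 0⟩, 0⟩, 0, 0⟩ 0 0)))) (.pos 46 .mp ⟨⟨115588315, 0, 0, 0, 0, 0, 0, 0, 0, ⟨0, 0⟩, 0⟩, 0, 0⟩ 0 0))))) (.pos 38 .mp ⟨⟨116755581, 0, 0, 0, 0, 0, 0, 0, 0, ⟨0, 0⟩, 0⟩, 0, 0⟩ 0 0)) (.cut .v 16842752 (.cut .d (-16384) (.cut .d (-24576) (.void 37 ⟨⟨0, 0, 0, 0, 0, 100000,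 0, 0, 0, ⟨0, 0⟩, 0⟩, 0, 0⟩ 0 0) (.cut .l 115343 (.void 37 ⟨⟨0, 0, 0, 0, 0, 100000, 0, 0, 0, ⟨0, 0⟩, 0⟩, 0, 0⟩ 0 0) (.cut .l 173015 (.void 37 ⟨⟨0, 0, 0, 0, 0, 100000, 0, 0, 0, ⟨0, 0⟩, 0⟩, 0, 0⟩ 0 0) (.cut .s 10387456 (.cut .d (-20480) (.pos 37 .mp ⟨⟨79619968, 0, 0, 0, 0, 65633336, 0, 0, 0, ⟨0, 0⟩, 0⟩, 0, 0⟩ 0 0) (.cut .v 16809984 (.pos 45 .mp ⟨⟨47987023, 0, 0, 0, 0, 102746527, 0, 0, 0, ⟨0, 0⟩, 0⟩, 0, 0⟩ 0 0) (.cut .s 10338304 (.cut .s 10313728 (.pos 46 .mp ⟨⟨80734503, 0, 0, 0, 0, 54043493, 0, 0, 0, ⟨0, 0⟩, 0⟩, 0, 0⟩ 0 0) (.pos 46 .mp ⟨⟨81984448, 0, 0, 0, 0, 54793548, 0, 0, 0, ⟨0, 0⟩, 0⟩, 0, 0⟩ 0 0)) (.pos 46 .mp ⟨⟨84536033, 0, 0,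 0, 0, 55035667, 0, 0, 0, ⟨0, 0⟩, 0⟩, 0, 0⟩ 0 0)))) (.cut .s 10436608 (.cut .s 10412032 (.pos 37 .mp ⟨⟨83366740, 0, 0, 0, 0, 61683139, 0, 0, 0, ⟨0, 0⟩, 0⟩, 0, 0⟩ 0 0) (.pos 37 .mp ⟨⟨84648607, 0, 0, 0, 0, 62585065, 0, 0, 0, ⟨0, 0⟩, 0⟩, 0, 0⟩ 0 0)) (.pos 37 .mp ⟨⟨85947800, 0, 0, 0, 0, 65591248, 0, 0, 0, ⟨0, 0⟩, 0⟩, 0, 0⟩ 0 0)))))) (.cut .s 10387456 (.cut .s 10338304 (.cut .s 10313728 (.cut .v 16809984 (.cut .s 10301440 (.cut .l 115343 (.cut .d (-8192) (.pos 45 .mp ⟨⟨78288168, 0, 0, 0, 0, 57582193, 0, 0, 0, ⟨0, 0⟩, 0⟩, 0, 0⟩ 0 0) (.cut .s 10295296 (.pos 45 .mp ⟨⟨79462300, 0, 0, 0, 0, 54326062, 0, 0, 0, ⟨0, 0⟩, 0⟩, 0, 0⟩ 0 0) (.pos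 45 .mp ⟨⟨79766646, 0, 0, 0, 0, 54516737, 0, 0, 0, ⟨0, 0⟩, 0⟩, 0, 0⟩ 0 0))) (.pos 45 .mp ⟨⟨79565442, 0, 0, 0, 0, 54031106, 0, 0, 0, ⟨0, 0⟩, 0⟩, 0, 0⟩ 0 0)) (.cut .l 115343 (.cut .d (-8192) (.pos 45 .mp ⟨⟨78889554, 0, 0, 0, 0, 57990067, 0, 0, 0, ⟨0, 0⟩, 0⟩, 0, 0⟩ 0 0) (.cut .s 10307584 (.pos 45 .mp ⟨⟨80072035, 0, 0, 0, 0, 54708891, 0, 0, 0, ⟨0, 0⟩, 0⟩, 0, 0⟩ 0 0) (.pos 45 .mp ⟨⟨80378468, 0, 0, 0, 0, 54902522, 0, 0, 0, ⟨0, 0⟩, 0⟩, 0, 0⟩ 0 0))) (.pos 45 .mp ⟨⟨80178737, 0, 0, 0, 0, 54412765, 0, 0, 0, ⟨0, 0⟩, 0⟩, 0, 0⟩ 0 0))) (.pos 46 .mp ⟨⟨117572936, 0, 0, 0, 0, 0, 0, 0, 0, ⟨0, 0⟩, 0⟩, 0, 0⟩ 0 0)) (.cut .v 16809984 (.cut .s 10326016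 (.cut .l 115343 (.cut .d (-8192) (.pos 45 .mp ⟨⟨79495041, 0, 0, 0, 0, 58406521, 0, 0, 0, ⟨0, 0⟩, 0⟩, 0, 0⟩ 0 0) (.cut .v 16793600 (.cut .s 10319872 (.pos 57 .mp ⟨⟨80521690, 0, 0, 0, 0, 55323644, 0, 0, 0, ⟨0, 0⟩, 0⟩, 0, 0⟩ 0 0) (.pos 57 .mp ⟨⟨80829650, 0, 0, 0, 0, 55521107, 0, 0, 0, ⟨0, 0⟩, 0⟩, 0, 0⟩ 0 0)) (.pos 58 .mp ⟨⟨118457494, 0, 0, 0, 0, 0, 0, 0, 0, ⟨0, 0⟩, 0⟩, 0, 0⟩ 0 0))) (.pos 45 .mp ⟨⟨80796242, 0, 0, 0, 0, 54797107, 0, 0, 0, ⟨0, 0⟩, 0⟩, 0, 0⟩ 0 0)) (.cut .l 115343 (.cut .d (-8192) (.pos 45 .mp ⟨⟨80104651, 0, 0, 0, 0, 58831614, 0, 0, 0, ⟨0, 0⟩, 0⟩, 0, 0⟩ 0 0) (.cut .s 10332160 (.pos 45 .mp ⟨⟨81304067, 0, 0, 0, 0, 55492251,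 0, 0, 0, ⟨0, 0⟩, 0⟩, 0, 0⟩ 0 0) (.pos 45 .mp ⟨⟨81614708, 0, 0, 0, 0, 55691766, 0, 0, 0, ⟨0, 0⟩, 0⟩, 0, 0⟩ 0 0))) (.pos 45 .mp ⟨⟨81417980, 0, 0, 0, 0, 55184051, 0, 0, 0, ⟨0, 0⟩, 0⟩, 0, 0⟩ 0 0))) (.pos 46 .mp ⟨⟨119271661, 0, 0, 0, 0, 0, 0, 0, 0, ⟨0, 0⟩, 0⟩, 0, 0⟩ 0 0))) (.cut .s 10362880 (.cut .v 16809984 (.cut .s 10350592 (.cut .l 115343 (.cut .d (-8192) (.pos 45 .mp ⟨⟨80718405, 0, 0, 0, 0, 59265403, 0, 0, 0, ⟨0, 0⟩, 0⟩, 0, 0⟩ 0 0) (.cut .s 10344448 (.pos 45 .mp ⟨⟨81926408, 0, 0, 0, 0, 55892746, 0, 0, 0, ⟨0, 0⟩, 0⟩, 0, 0⟩ 0 0) (.pos 45 .mp ⟨⟨82239168, 0, 0, 0, 0, 56095189, 0, 0, 0, ⟨0, 0⟩, 0⟩, 0, 0⟩ 0 0))) (.pos 45 .mp ⟨⟨82043971,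 0, 0, 0, 0, 55573519, 0, 0, 0, ⟨0, 0⟩, 0⟩, 0, 0⟩ 0 0)) (.cut .l 115343 (.cut .d (-8192) (.pos 45 .mp ⟨⟨81336324, 0, 0, 0, 0, 59707947, 0, 0, 0, ⟨0, 0⟩, 0⟩, 0, 0⟩ 0 0) (.cut .s 10356736 (.pos 45 .mp ⟨⟨82552993, 0, 0, 0, 0, 56299092, 0, 0, 0, ⟨0, 0⟩, 0⟩, 0, 0⟩ 0 0) (.pos 45 .mp ⟨⟨82867885, 0, 0, 0, 0, 56504454, 0, 0, 0, ⟨0, 0⟩, 0⟩, 0, 0⟩ 0 0))) (.pos 45 .mp ⟨⟨82674237, 0, 0, 0, 0, 55965431, 0, 0, 0, ⟨0, 0⟩, 0⟩, 0, 0⟩ 0 0))) (.pos 46 .mp ⟨⟨121008187, 0, 0, 0, 0, 0, 0, 0, 0, ⟨0, 0⟩, 0⟩, 0, 0⟩ 0 0)) (.cut .v 16809984 (.cut .s 10375168 (.cut .l 115343 (.cut .d (-8192) (.pos 45 .mp ⟨⟨81958428, 0, 0, 0, 0, 60159307, 0, 0, 0, ⟨0, 0⟩, 0⟩,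 0, 0⟩ 0 0) (.cut .s 10369024 (.pos 45 .mp ⟨⟨83183846, 0, 0, 0, 0, 56711272, 0, 0, 0, ⟨0, 0⟩, 0⟩, 0, 0⟩ 0 0) (.pos 45 .mp ⟨⟨83500880, 0, 0, 0, 0, 56919543, 0, 0, 0, ⟨0, 0⟩, 0⟩, 0, 0⟩ 0 0))) (.pos 45 .mp ⟨⟨83308801, 0, 0, 0, 0, 56359706, 0, 0, 0, ⟨0, 0⟩, 0⟩, 0, 0⟩ 0 0)) (.cut .l 115343 (.cut .d (-8192) (.pos 45 .mp ⟨⟨82584741, 0, 0, 0, 0, 60619543, 0, 0, 0, ⟨0, 0⟩, 0⟩, 0, 0⟩ 0 0) (.cut .s 10381312 (.pos 45 .mp ⟨⟨83818988, 0, 0, 0, 0, 57129265, 0, 0, 0, ⟨0, 0⟩, 0⟩, 0, 0⟩ 0 0) (.pos 45 .mp ⟨⟨84138174, 0, 0, 0, 0, 57340435, 0, 0, 0, ⟨0, 0⟩, 0⟩, 0, 0⟩ 0 0))) (.pos 45 .mp ⟨⟨83947685, 0, 0, 0, 0, 56756264, 0, 0, 0, ⟨0, 0⟩, 0⟩, 0, 0⟩ 0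 0))) (.pos 46 .mp ⟨⟨122782879, 0, 0, 0, 0, 0, 0, 0, 0, ⟨0, 0⟩, 0⟩, 0, 0⟩ 0 0)))) (.cut .s 10436608 (.cut .s 10412032 (.cut .v 16809984 (.cut .s 10399744 (.cut .l 115343 (.cut .d (-8192) (.pos 45 .mp ⟨⟨83215284, 0, 0, 0, 0, 61088714, 0, 0, 0, ⟨0, 0⟩, 0⟩, 0, 0⟩ 0 0) (.cut .s 10393600 (.pos 45 .mp ⟨⟨84458441, 0, 0, 0, 0, 57553052, 0, 0, 0, ⟨0, 0⟩, 0⟩, 0, 0⟩ 0 0) (.pos 45 .mp ⟨⟨84779792, 0, 0, 0, 0, 57767112, 0, 0, 0, ⟨0, 0⟩, 0⟩, 0, 0⟩ 0 0))) (.pos 45 .mp ⟨⟨84590911, 0, 0, 0, 0, 57155025, 0, 0, 0, ⟨0, 0⟩, 0⟩, 0, 0⟩ 0 0)) (.cut .l 115343 (.cut .d (-8192) (.pos 45 .mp ⟨⟨83850079, 0, 0, 0, 0, 61566882, 0, 0, 0, ⟨0, 0⟩, 0⟩, 0, 0⟩ 0 0)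 (.cut .s 10405888 (.pos 45 .mp ⟨⟨85102228, 0, 0, 0, 0, 57982612, 0, 0, 0, ⟨0, 0⟩, 0⟩, 0, 0⟩ 0 0) (.pos 45 .mp ⟨⟨85425754, 0, 0, 0, 0, 58199552, 0, 0, 0, ⟨0, 0⟩, 0⟩, 0, 0⟩ 0 0))) (.pos 45 .mp ⟨⟨85238502, 0, 0, 0, 0, 57555910, 0, 0, 0, ⟨0, 0⟩, 0⟩, 0, 0⟩ 0 0))) (.pos 46 .mp ⟨⟨124596109, 0, 0, 0, 0, 0, 0, 0, 0, ⟨0, 0⟩, 0⟩, 0, 0⟩ 0 0)) (.cut .v 16809984 (.cut .s 10424320 (.cut .l 115343 (.cut .d (-8192) (.pos 45 .mp ⟨⟨84489147, 0, 0, 0, 0, 62054108, 0, 0, 0, ⟨0, 0⟩, 0⟩, 0, 0⟩ 0 0) (.cut .s 10418176 (.pos 45 .mp ⟨⟨85745465, 0, 0, 0, 0, 58425881, 0, 0, 0, ⟨0, 0⟩, 0⟩, 0, 0⟩ 0 0) (.pos 45 .mp ⟨⟨86050715, 0, 0, 0, 0, 58678871, 0, 0, 0, ⟨0,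 0⟩, 0⟩, 0, 0⟩ 0 0))) (.pos 45 .mp ⟨⟨85890480, 0, 0, 0, 0, 57958836, 0, 0, 0, ⟨0, 0⟩, 0⟩, 0, 0⟩ 0 0)) (.cut .l 115343 (.cut .d (-8192) (.pos 45 .mp ⟨⟨85132512, 0, 0, 0, 0, 62550453, 0, 0, 0, ⟨0, 0⟩, 0⟩, 0, 0⟩ 0 0) (.cut .s 10430464 (.pos 45 .mp ⟨⟨86355601, 0, 0, 0, 0, 58935687, 0, 0, 0, ⟨0, 0⟩, 0⟩, 0, 0⟩ 0 0) (.pos 45 .mp ⟨⟨86660105, 0, 0, 0, 0, 59196357, 0, 0, 0, ⟨0, 0⟩, 0⟩, 0, 0⟩ 0 0))) (.pos 45 .mp ⟨⟨86546868, 0, 0, 0, 0, 58363723, 0, 0, 0, ⟨0, 0⟩, 0⟩, 0, 0⟩ 0 0))) (.pos 46 .mp ⟨⟨126448252, 0, 0, 0, 0, 0, 0, 0, 0, ⟨0, 0⟩, 0⟩, 0, 0⟩ 0 0))) (.cut .v 16809984 (.cut .s 10461184 (.cut .s 10448896 (.cut .s 10442752 (.cut .s 10439680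 (.pos 45 .mp ⟨⟨87821222, 0, 0, 0, 0, 58157000, 0, 0, 0, ⟨0, 0⟩, 0⟩, 0, 0⟩ 0 0) (.pos 45 .mp ⟨⟨88024647, 0, 0, 0, 0, 58215720, 0, 0, 0, ⟨0, 0⟩, 0⟩, 0, 0⟩ 0 0)) (.pos 45 .mp ⟨⟨88166120, 0, 0, 0, 0, 58500008, 0, 0, 0, ⟨0, 0⟩, 0⟩, 0, 0⟩ 0 0)) (.cut .s 10455040 (.pos 45 .mp ⟨⟨88501787, 0, 0, 0, 0, 58720542, 0, 0, 0, ⟨0, 0⟩, 0⟩, 0, 0⟩ 0 0) (.pos 45 .mp ⟨⟨88838589, 0, 0, 0, 0, 58942456, 0, 0, 0, ⟨0, 0⟩, 0⟩, 0, 0⟩ 0 0))) (.cut .l 115343 (.cut .d (-8192) (.pos 45 .mp ⟨⟨87088610, 0, 0, 0, 0, 65411823, 0, 0, 0, ⟨0, 0⟩, 0⟩, 0, 0⟩ 0 0) (.cut .v 16793600 (.cut .l 57671 (.cut .d (-4096) (.pos 57 .mp ⟨⟨87001484, 0, 0, 0, 0, 65332967, 0, 0, 0,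 ⟨0, 0⟩, 0⟩, 0, 0⟩ 0 0) (.cut .s 10473472 (.cut .s 10467328 (.pos 57 .mp ⟨⟨88401885, 0, 0, 0, 0, 60235623, 0, 0, 0, ⟨0, 0⟩, 0⟩, 0, 0⟩ 0 0) (.pos 57 .mp ⟨⟨88787578, 0, 0, 0, 0, 60399850, 0, 0, 0, ⟨0, 0⟩, 0⟩, 0, 0⟩ 0 0)) (.pos 57 .mp ⟨⟨88812693, 0, 0, 0, 0, 61281249, 0, 0, 0, ⟨0, 0⟩, 0⟩, 0, 0⟩ 0 0))) (.pos 57 .mp ⟨⟨88724074, 0, 0, 0, 0, 59593672, 0, 0, 0, ⟨0, 0⟩, 0⟩, 0, 0⟩ 0 0)) (.pos 58 .mp ⟨⟨101418682, 0, 0, 0, 0, 43304143, 0, 0, 0, ⟨0, 0⟩, 0⟩, 0, 0⟩ 0 0))) (.pos 45 .mp ⟨⟨89216994, 0, 0, 0, 0, 59083753, 0, 0, 0, ⟨0, 0⟩, 0⟩, 0, 0⟩ 0 0))) (.pos 46 .mp ⟨⟨129852392, 0, 0, 0, 0, 0, 0, 0, 0, ⟨0, 0⟩, 0⟩, 0, 0⟩ 0 0))))) (.pos 38 .mp ⟨⟨130611596,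 0, 0, 0, 0, 0, 0, 0, 0, ⟨0, 0⟩, 0⟩, 0, 0⟩ 0 0))) (.pos 36 .mp ⟨⟨129674132, 0, 0, 0, 0, 0, 0, 0, 0, ⟨0, 0⟩, 0⟩, 0, 0⟩ 0 0)))))) (.void 34 ⟨⟨100000, 0, 0, 0, 0, 0, 0, 0, 0, ⟨0, 0⟩, 0⟩, 0, 0⟩ 0 0))) (.void 32 ⟨⟨100000, 0, 0, 0, 0, 0, 0, 0, 0, ⟨0, 0⟩, 0⟩, 0, 0⟩ 0 0))) (.void 30 ⟨⟨100000, 0, 0, 0, 0, 0, 0, 0, 0, ⟨0, 0⟩, 0⟩, 0, 0⟩ 0 0))) (.void 28 ⟨⟨100000, 0, 0, 0, 0, 0, 0, 0, 0, ⟨0, 0⟩, 0⟩, 0, 0⟩ 0 0))) (.void 26 ⟨⟨100000, 0, 0, 0, 0, 0, 0, 0, 0, ⟨0, 0⟩, 0⟩, 0, 0⟩ 0 0))) (.void 24 ⟨⟨100000, 0, 0, 0, 0, 0, 0, 0, 0, ⟨0, 0⟩, 0⟩, 0, 0⟩ 0 0)) (.void 97 ⟨⟨100000, 0, 0, 0, 0, 0, 0, 0, 0, ⟨0, 0⟩, 0⟩, 0, 0⟩ 0 0)) (.void 120 ⟨⟨100000, 0, 0,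 0, 0, 0, 0, 0, 0, ⟨0, 0⟩, 0⟩, 0, 0⟩ 0 0))) (.cut .v 16777216 (.cut .v 8388608 (.cut .v 4194304 (.void 4 ⟨⟨0, 0, 66667, 0, 0, 0, 0, 0, 0, ⟨0, 0⟩, 0⟩, 0, 33333⟩ 0 0) (.pos 5 .pm ⟨⟨0, 0, 1262343, 0, 0, 0, 0, 0, 0, ⟨0, 0⟩, 0⟩, 0, 0⟩ 0 0)) (.pos 3 .pm ⟨⟨0, 0, 0, 0, 0, 0, 0, 0, 0, ⟨0, 0⟩, 0⟩, 0, 0⟩ 0 0)) (.cut .v 67108864 (.cut .d 5556092 (.cut .v 33554432 (.cut .d 2778046 (.cut .v 25165824 (.cut .d 1389023 (.cut .d 694511 (.cut .v 20971520 (.cut .d 347255 (.cut .v 18874368 (.cut .s 10289152 (.pos 27 .pp ⟨⟨73123557, 0, 0, 0, 0, 0, 0, 0, 0, ⟨0, 0⟩, 0⟩, 3387603, 0⟩ 0 0) (.pos 27 .pp ⟨⟨82905048, 0, 0, 0, 0, 0, 0, 0, 0, ⟨0, 0⟩, 0⟩, 3719511,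 0⟩ 0 0)) (.pos 28 .pp ⟨⟨150018214, 0, 0, 0, 0, 0, 0, 0, 0, ⟨0, 0⟩, 0⟩, 0, 0⟩ 0 0)) (.pos 25 .pp ⟨⟨87989241, 0, 0, 0, 0, 0, 0, 0, 0, ⟨0, 0⟩, 0⟩, 0, 75733⟩ 0 0)) (.cut .d 347255 (.void 26 ⟨⟨100000, 0, 0, 0, 0, 0, 0, 0, 0, ⟨0, 0⟩, 0⟩, 0, 0⟩ 0 0) (.pos 26 .pp ⟨⟨0, 0, 0, 0, 0, 0, 0, 0, 0, ⟨0, 0⟩, 0⟩, 15051345, 0⟩ 0 0))) (.pos 23 .pp ⟨⟨0, 0, 0, 0, 0, 0, 0, 0, 0, ⟨0, 0⟩, 0⟩, 10156051, 158577⟩ 0 0)) (.pos 23 .pp ⟨⟨0, 0, 0, 0, 0, 0, 0, 0, 0, ⟨0, 0⟩, 0⟩, 0, 591911⟩ 0 0)) (.cut .d 1389023 (.cut .d 694511 (.void 24 ⟨⟨0, 0, 0, 0, 0, 0, 0, 0, 0, ⟨0, 0⟩, 0⟩, 100000, 0⟩ 0 0) (.pos 24 .pp ⟨⟨0, 0, 0, 0, 0, 0, 0, 0, 0, ⟨0, 0⟩, 0⟩, 18863579, 0⟩ 0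 0)) (.pos 24 .pp ⟨⟨0, 0, 0, 0, 0, 0, 114527, 0, 0, ⟨0, 0⟩, 0⟩, 12791994, 0⟩ 0 0))) (.pos 22 .pp ⟨⟨0, 0, 0, 0, 0, 0, 0, 0, 0, ⟨0, 0⟩, 0⟩, 0, 657679⟩ 0 0)) (.cut .v 50331648 (.cut .d 2778046 (.cut .d 1389023 (.void 100 ⟨⟨0, 0, 0, 0, 0, 0, 0, 0, 0, ⟨0, 0⟩, 0⟩, 100000, 0⟩ 0 0) (.pos 100 .pp ⟨⟨0, 0, 0, 0, 0, 0, 0, 0, 0, ⟨0, 0⟩, 0⟩, 25789074, 0⟩ 0 0)) (.pos 100 .pp ⟨⟨0, 0, 0, 0, 0, 0, 0, 0, 0, ⟨0, 0⟩, 0⟩, 15392488, 0⟩ 0 0)) (.pos 101 .pp ⟨⟨0, 0, 0, 0, 0, 0, 0, 0, 0, ⟨0, 0⟩, 0⟩, 53275887, 0⟩ 0 0))) (.pos 96 .pp ⟨⟨0, 0, 0, 0, 0, 0, 0, 0, 0, ⟨0, 0⟩, 0⟩, 0, 15412446⟩ 0 0)) (.void 120 ⟨⟨0, 92439, 0, 0, 0, 0, 0, 0, 0, ⟨0, 0⟩, 0⟩, 7561, 0⟩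 0 0)))),
    by decide +kernel⟩

def covers14 : cell.Covers Vale.Agent.P237.Petty.Cor.Grid.N16.table row14.1 :=
  ⟨(.cut .d 0 (.cut .v 16777216 (.cut .d (-8388608) (.void 1 ⟨⟨0, 0, 0, 0, 0, 100000, 0, 0, 0, ⟨0, 0⟩, 0⟩, 0, 0⟩ 0 0) (.cut .d (-4194304) (.void 1 ⟨⟨0, 0, 0, 0, 0, 100000, 0, 0, 0, ⟨0, 0⟩, 0⟩, 0, 0⟩ 0 0) (.cut .d (-2097152) (.void 1 ⟨⟨0, 0, 0, 0, 0, 100000, 0, 0, 0, ⟨0, 0⟩, 0⟩, 0, 0⟩ 0 0) (.cut .d (-1048576) (.void 1 ⟨⟨0, 0, 0, 0, 0, 100000, 0, 0, 0, ⟨0, 0⟩, 0⟩, 0, 0⟩ 0 0) (.cut .d (-524288) (.void 1 ⟨⟨0, 0, 0, 0, 0, 100000, 0, 0, 0, ⟨0, 0⟩, 0⟩, 0, 0⟩ 0 0) (.cut .d (-262144) (.void 1 ⟨⟨0, 0, 0, 0, 0, 100000, 0, 0, 0,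 ⟨0, 0⟩, 0⟩, 0, 0⟩ 0 0) (.cut .d (-131072) (.void 1 ⟨⟨0, 0, 0, 0, 0, 100000, 0, 0, 0, ⟨0, 0⟩, 0⟩, 0, 0⟩ 0 0) (.cut .d (-65536) (.void 1 ⟨⟨0, 0, 0, 0, 0, 100000, 0, 0, 0, ⟨0, 0⟩, 0⟩, 0, 0⟩ 0 0) (.cut .d (-32768) (.void 1 ⟨⟨0, 0, 0, 0, 0, 100000, 0, 0, 0, ⟨0, 0⟩, 0⟩, 0, 0⟩ 0 0) (.cut .v 8388608 (.cut .v 4194304 (.void 4 ⟨⟨0, 0, 100000, 0, 0, 0, 0, 0, 0, ⟨0, 0⟩, 0⟩, 0, 0⟩ 0 0) (.pos 5 .mm ⟨⟨0, 0, 2040969, 0, 0, 77190928, 0, 0, 0, ⟨0, 0⟩, 0⟩, 0, 0⟩ 0 0)) (.cut .s 10682368 (.pos 3 .mm ⟨⟨0, 0, 0, 0, 0, 196687922, 0, 0, 0, ⟨0, 0⟩, 0⟩, 0, 0⟩ 0 0) (.cut .s 10780672 (.pos 3 .mm ⟨⟨0, 0, 0, 0, 0, 216719116, 0, 0, 0, ⟨0, 0⟩, 0⟩, 0, 0⟩ 0 0) (.pos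 3 .mm ⟨⟨0, 0, 0, 0, 0, 231205918, 0, 0, 0, ⟨0, 0⟩, 0⟩, 0, 0⟩ 0 0))))))))))))) (.cut .v 67108864 (.cut .v 33554432 (.cut .v 25165824 (.cut .d (-8388608) (.void 23 ⟨⟨0, 0, 0, 0, 0, 100000, 0, 0, 0, ⟨0, 0⟩, 0⟩, 0, 0⟩ 0 0) (.cut .v 20971520 (.cut .d (-4194304) (.void 25 ⟨⟨100000, 0, 0, 0, 0, 0, 0, 0, 0, ⟨0, 0⟩, 0⟩, 0, 0⟩ 0 0) (.cut .v 18874368 (.cut .d (-2097152) (.void 27 ⟨⟨100000, 0, 0, 0, 0, 0, 0, 0, 0, ⟨0, 0⟩, 0⟩, 0, 0⟩ 0 0) (.cut .v 17825792 (.cut .d (-1048576) (.void 29 ⟨⟨100000, 0, 0, 0, 0, 0, 0, 0, 0, ⟨0, 0⟩, 0⟩, 0, 0⟩ 0 0) (.cut .v 17301504 (.cut .d (-524288) (.void 31 ⟨⟨100000, 0, 0, 0, 0, 0, 0, 0, 0, ⟨0, 0⟩, 0⟩, 0, 0⟩ 0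 0) (.cut .v 17039360 (.cut .d (-262144) (.void 33 ⟨⟨100000, 0, 0, 0, 0, 0, 0, 0, 0, ⟨0, 0⟩, 0⟩, 0, 0⟩ 0 0) (.cut .d (-131072) (.void 33 ⟨⟨100000, 0, 0, 0, 0, 0, 0, 0, 0, ⟨0, 0⟩, 0⟩, 0, 0⟩ 0 0) (.cut .d (-65536) (.void 33 ⟨⟨100000, 0, 0, 0, 0, 0, 0, 0, 0, ⟨0, 0⟩, 0⟩, 0, 0⟩ 0 0) (.cut .d (-32768) (.void 33 ⟨⟨0, 0, 0, 0, 0, 100000, 0, 0, 0, ⟨0, 0⟩, 0⟩, 0, 0⟩ 0 0) (.cut .v 16908288 (.cut .s 10682368 (.cut .v 16842752 (.cut .d (-16384) (.cut .d (-24576) (.void 37 ⟨⟨0, 0, 0, 0, 0, 100000, 0, 0, 0, ⟨0, 0⟩, 0⟩, 0, 0⟩ 0 0) (.cut .d (-20480) (.void 37 ⟨⟨0, 0, 0, 0, 0, 100000, 0, 0, 0, ⟨0, 0⟩, 0⟩, 0, 0⟩ 0 0) (.cut .l 115343 (.void 37 ⟨⟨0,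 0, 0, 0, 0, 100000, 0, 0, 0, ⟨0, 0⟩, 0⟩, 0, 0⟩ 0 0) (.cut .l 173015 (.void 37 ⟨⟨0, 0, 0, 0, 0, 100000, 0, 0, 0, ⟨0, 0⟩, 0⟩, 0, 0⟩ 0 0) (.cut .s 10584064 (.cut .s 10534912 (.pos 37 .mp ⟨⟨89054316, 0, 0, 0, 0, 67433622, 0, 0, 0, ⟨0, 0⟩, 0⟩, 0, 0⟩ 0 0) (.pos 37 .mp ⟨⟨91600347, 0, 0, 0, 0, 69627584, 0, 0, 0, ⟨0, 0⟩, 0⟩, 0, 0⟩ 0 0)) (.cut .v 16809984 (.pos 45 .mp ⟨⟨0, 0, 0, 0, 0, 214450767, 0, 0, 0, ⟨0, 0⟩, 0⟩, 0, 0⟩ 0 0) (.cut .s 10633216 (.pos 46 .mp ⟨⟨98408492, 0, 0, 0, 0, 64396216, 0, 0, 0, ⟨0, 0⟩, 0⟩, 0, 0⟩ 0 0) (.pos 46 .mp ⟨⟨101422731, 0, 0, 0, 0, 66166020, 0, 0, 0, ⟨0, 0⟩, 0⟩, 0, 0⟩ 0 0)))))))) (.cut .s 10584064 (.cut .s 10534912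 (.cut .v 16809984 (.cut .s 10510336 (.cut .l 115343 (.cut .d (-8192) (.pos 45 .mp ⟨⟨88414582, 0, 0, 0, 0, 66511797, 0, 0, 0, ⟨0, 0⟩, 0⟩, 0, 0⟩ 0 0) (.cut .v 16793600 (.cut .l 57671 (.cut .d (-4096) (.pos 57 .mp ⟨⟨88323221, 0, 0, 0, 0, 66435985, 0, 0, 0, ⟨0, 0⟩, 0⟩, 0, 0⟩ 0 0) (.cut .s 10498048 (.pos 57 .mp ⟨⟨89483959, 0, 0, 0, 0, 61759902, 0, 0, 0, ⟨0, 0⟩, 0⟩, 0, 0⟩ 0 0) (.cut .s 10504192 (.pos 57 .mp ⟨⟨90508809, 0, 0, 0, 0, 61439415, 0, 0, 0, ⟨0, 0⟩, 0⟩, 0, 0⟩ 0 0) (.pos 57 .mp ⟨⟨90793237, 0, 0, 0, 0, 61705917, 0, 0, 0, ⟨0, 0⟩, 0⟩, 0, 0⟩ 0 0)))) (.pos 57 .mp ⟨⟨87922534, 0, 0, 0, 0, 63901332, 0, 0, 0, ⟨0, 0⟩, 0⟩, 0, 0⟩ 0 0)) (.pos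 58 .mp ⟨⟨103588221, 0, 0, 0, 0, 43080683, 0, 0, 0, ⟨0, 0⟩, 0⟩, 0, 0⟩ 0 0))) (.pos 45 .mp ⟨⟨87612771, 0, 0, 0, 0, 64606113, 0, 0, 0, ⟨0, 0⟩, 0⟩, 0, 0⟩ 0 0)) (.cut .s 10522624 (.cut .s 10516480 (.pos 45 .mp ⟨⟨90742450, 0, 0, 0, 0, 62592096, 0, 0, 0, ⟨0, 0⟩, 0⟩, 0, 0⟩ 0 0) (.pos 45 .mp ⟨⟨90834288, 0, 0, 0, 0, 63169653, 0, 0, 0, ⟨0, 0⟩, 0⟩, 0, 0⟩ 0 0)) (.cut .s 10528768 (.pos 45 .mp ⟨⟨91035886, 0, 0, 0, 0, 63585241, 0, 0, 0, ⟨0, 0⟩, 0⟩, 0, 0⟩ 0 0) (.pos 45 .mp ⟨⟨91300325, 0, 0, 0, 0, 63909705, 0, 0, 0, ⟨0, 0⟩, 0⟩, 0, 0⟩ 0 0)))) (.pos 46 .mp ⟨⟨112407803, 0, 0, 0, 0, 32380602, 0, 0, 0, ⟨0, 0⟩, 0⟩, 0, 0⟩ 0 0)) (.cut .v 16809984 (.cut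 .s 10559488 (.cut .s 10547200 (.cut .d (-8192) (.pos 45 .mp ⟨⟨91640059, 0, 0, 0, 0, 64915264, 0, 0, 0, ⟨0, 0⟩, 0⟩, 0, 0⟩ 0 0) (.cut .s 10541056 (.pos 45 .mp ⟨⟨92389284, 0, 0, 0, 0, 62900471, 0, 0, 0, ⟨0, 0⟩, 0⟩, 0, 0⟩ 0 0) (.pos 45 .mp ⟨⟨92721583, 0, 0, 0, 0, 63118765, 0, 0, 0, ⟨0, 0⟩, 0⟩, 0, 0⟩ 0 0))) (.cut .l 115343 (.cut .d (-8192) (.pos 45 .mp ⟨⟨91814313, 0, 0, 0, 0, 67137585, 0, 0, 0, ⟨0, 0⟩, 0⟩, 0, 0⟩ 0 0) (.cut .s 10553344 (.pos 45 .mp ⟨⟨93156366, 0, 0, 0, 0, 63148132, 0, 0, 0, ⟨0, 0⟩, 0⟩, 0, 0⟩ 0 0) (.pos 45 .mp ⟨⟨93528615, 0, 0, 0, 0, 63321081, 0, 0, 0, ⟨0, 0⟩, 0⟩, 0, 0⟩ 0 0))) (.pos 45 .mp ⟨⟨90965530, 0, 0, 0, 0, 66296149,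 0, 0, 0, ⟨0, 0⟩, 0⟩, 0, 0⟩ 0 0))) (.cut .s 10571776 (.cut .l 115343 (.cut .d (-8192) (.pos 45 .mp ⟨⟨92508469, 0, 0, 0, 0, 67564026, 0, 0, 0, ⟨0, 0⟩, 0⟩, 0, 0⟩ 0 0) (.cut .s 10565632 (.pos 45 .mp ⟨⟨93881015, 0, 0, 0, 0, 63530432, 0, 0, 0, ⟨0, 0⟩, 0⟩, 0, 0⟩ 0 0) (.pos 45 .mp ⟨⟨94234637, 0, 0, 0, 0, 63741788, 0, 0, 0, ⟨0, 0⟩, 0⟩, 0, 0⟩ 0 0))) (.pos 45 .mp ⟨⟨91649942, 0, 0, 0, 0, 66775235, 0, 0, 0, ⟨0, 0⟩, 0⟩, 0, 0⟩ 0 0)) (.cut .l 115343 (.cut .d (-8192) (.pos 45 .mp ⟨⟨93207420, 0, 0, 0, 0, 68001384, 0, 0, 0, ⟨0, 0⟩, 0⟩, 0, 0⟩ 0 0) (.cut .s 10577920 (.pos 45 .mp ⟨⟨94589486, 0, 0, 0, 0, 63955145, 0, 0, 0, ⟨0, 0⟩, 0⟩, 0, 0⟩ 0 0) (.pos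 45 .mp ⟨⟨94945565, 0, 0, 0, 0, 64170501, 0, 0, 0, ⟨0, 0⟩, 0⟩, 0, 0⟩ 0 0))) (.pos 45 .mp ⟨⟨92339032, 0, 0, 0, 0, 67259364, 0, 0, 0, ⟨0, 0⟩, 0⟩, 0, 0⟩ 0 0)))) (.pos 46 .mp ⟨⟨114984738, 0, 0, 0, 0, 34179937, 0, 0, 0, ⟨0, 0⟩, 0⟩, 0, 0⟩ 0 0))) (.cut .s 10633216 (.cut .s 10608640 (.cut .v 16809984 (.cut .s 10596352 (.cut .l 115343 (.cut .d (-8192) (.pos 45 .mp ⟨⟨93911192, 0, 0, 0, 0, 68449737, 0, 0, 0, ⟨0, 0⟩, 0⟩, 0, 0⟩ 0 0) (.cut .s 10590208 (.pos 45 .mp ⟨⟨95302876, 0, 0, 0, 0, 64387854, 0, 0, 0, ⟨0, 0⟩, 0⟩, 0, 0⟩ 0 0) (.pos 45 .mp ⟨⟨95661423, 0, 0, 0, 0, 64607201, 0, 0, 0, ⟨0, 0⟩, 0⟩, 0, 0⟩ 0 0))) (.pos 45 .mp ⟨⟨93032825, 0, 0, 0,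 0, 67748436, 0, 0, 0, ⟨0, 0⟩, 0⟩, 0, 0⟩ 0 0)) (.cut .l 115343 (.cut .d (-8192) (.pos 45 .mp ⟨⟨94619811, 0, 0, 0, 0, 68909162, 0, 0, 0, ⟨0, 0⟩, 0⟩, 0, 0⟩ 0 0) (.cut .s 10602496 (.pos 45 .mp ⟨⟨96021211, 0, 0, 0, 0, 64828539, 0, 0, 0, ⟨0, 0⟩, 0⟩, 0, 0⟩ 0 0) (.pos 45 .mp ⟨⟨96382241, 0, 0, 0, 0, 65051865, 0, 0, 0, ⟨0, 0⟩, 0⟩, 0, 0⟩ 0 0))) (.pos 45 .mp ⟨⟨93731346, 0, 0, 0, 0, 68242356, 0, 0, 0, ⟨0, 0⟩, 0⟩, 0, 0⟩ 0 0))) (.pos 46 .mp ⟨⟨107837669, 0, 0, 0, 0, 48421277, 0, 0, 0, ⟨0, 0⟩, 0⟩, 0, 0⟩ 0 0)) (.cut .v 16809984 (.cut .s 10620928 (.cut .l 115343 (.cut .d (-8192) (.pos 45 .mp ⟨⟨95333305, 0, 0, 0, 0, 69379737, 0, 0, 0, ⟨0, 0⟩, 0⟩,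 0, 0⟩ 0 0) (.cut .v 16793600 (.cut .s 10614784 (.pos 57 .mp ⟨⟨95854298, 0, 0, 0, 0, 66608882, 0, 0, 0, ⟨0, 0⟩, 0⟩, 0, 0⟩ 0 0) (.pos 57 .mp ⟨⟨96127653, 0, 0, 0, 0, 66973829, 0, 0, 0, ⟨0, 0⟩, 0⟩, 0, 0⟩ 0 0)) (.pos 58 .mp ⟨⟨104546213, 0, 0, 0, 0, 54948734, 0, 0, 0, ⟨0, 0⟩, 0⟩, 0, 0⟩ 0 0))) (.pos 45 .mp ⟨⟨94434622, 0, 0, 0, 0, 68741025, 0, 0, 0, ⟨0, 0⟩, 0⟩, 0, 0⟩ 0 0)) (.cut .l 115343 (.cut .d (-8192) (.pos 45 .mp ⟨⟨96051698, 0, 0, 0, 0, 69861542, 0, 0, 0, ⟨0, 0⟩, 0⟩, 0, 0⟩ 0 0) (.cut .v 16793600 (.cut .s 10627072 (.pos 57 .mp ⟨⟨96427596, 0, 0, 0, 0, 67302288, 0, 0, 0, ⟨0, 0⟩, 0⟩, 0, 0⟩ 0 0) (.pos 57 .mp ⟨⟨96766186, 0, 0, 0, 0, 67575852,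 0, 0, 0, ⟨0, 0⟩, 0⟩, 0, 0⟩ 0 0)) (.pos 58 .mp ⟨⟨105255284, 0, 0, 0, 0, 55428692, 0, 0, 0, ⟨0, 0⟩, 0⟩, 0, 0⟩ 0 0))) (.pos 45 .mp ⟨⟨95142678, 0, 0, 0, 0, 69244346, 0, 0, 0, ⟨0, 0⟩, 0⟩, 0, 0⟩ 0 0))) (.pos 46 .mp ⟨⟨109276033, 0, 0, 0, 0, 49315694, 0, 0, 0, ⟨0, 0⟩, 0⟩, 0, 0⟩ 0 0))) (.cut .s 10657792 (.cut .v 16809984 (.cut .s 10645504 (.cut .l 115343 (.cut .d (-8192) (.pos 45 .mp ⟨⟨96775018, 0, 0, 0, 0, 70354657, 0, 0, 0, ⟨0, 0⟩, 0⟩, 0, 0⟩ 0 0) (.cut .v 16793600 (.cut .s 10639360 (.pos 57 .mp ⟨⟨97109666, 0, 0, 0, 0, 67845890, 0, 0, 0, ⟨0, 0⟩, 0⟩, 0, 0⟩ 0 0) (.pos 57 .mp ⟨⟨97458084, 0, 0, 0, 0, 68112325, 0, 0, 0, ⟨0, 0⟩, 0⟩, 0, 0⟩ 0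 0)) (.pos 58 .mp ⟨⟨105995772, 0, 0, 0, 0, 55879486, 0, 0, 0, ⟨0, 0⟩, 0⟩, 0, 0⟩ 0 0))) (.pos 45 .mp ⟨⟨95855539, 0, 0, 0, 0, 69752220, 0, 0, 0, ⟨0, 0⟩, 0⟩, 0, 0⟩ 0 0)) (.cut .l 115343 (.cut .d (-8192) (.pos 45 .mp ⟨⟨97503291, 0, 0, 0, 0, 70859160, 0, 0, 0, ⟨0, 0⟩, 0⟩, 0, 0⟩ 0 0) (.cut .v 16793600 (.cut .s 10651648 (.pos 57 .mp ⟨⟨97811489, 0, 0, 0, 0, 68375078, 0, 0, 0, ⟨0, 0⟩, 0⟩, 0, 0⟩ 0 0) (.cut .s 10654720 (.pos 57 .mp ⟨⟨99439882, 0, 0, 0, 0, 66575455, 0, 0, 0, ⟨0, 0⟩, 0⟩, 0, 0⟩ 0 0) (.pos 57 .mp ⟨⟨99624197, 0, 0, 0, 0, 66697621, 0, 0, 0, ⟨0, 0⟩, 0⟩, 0, 0⟩ 0 0))) (.pos 58 .mp ⟨⟨106768410, 0, 0, 0, 0, 56300005, 0, 0, 0, ⟨0, 0⟩,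 0⟩, 0, 0⟩ 0 0))) (.pos 45 .mp ⟨⟨96573233, 0, 0, 0, 0, 70264549, 0, 0, 0, ⟨0, 0⟩, 0⟩, 0, 0⟩ 0 0))) (.pos 46 .mp ⟨⟨110837409, 0, 0, 0, 0, 50097059, 0, 0, 0, ⟨0, 0⟩, 0⟩, 0, 0⟩ 0 0)) (.cut .v 16809984 (.cut .s 10670080 (.cut .s 10663936 (.cut .d (-8192) (.pos 45 .mp ⟨⟨98704763, 0, 0, 0, 0, 69148437, 0, 0, 0, ⟨0, 0⟩, 0⟩, 0, 0⟩ 0 0) (.cut .s 10660864 (.pos 45 .mp ⟨⟨99440762, 0, 0, 0, 0, 67413994, 0, 0, 0, ⟨0, 0⟩, 0⟩, 0, 0⟩ 0 0) (.pos 45 .mp ⟨⟨99626811, 0, 0, 0, 0, 67535955, 0, 0, 0, ⟨0, 0⟩, 0⟩, 0, 0⟩ 0 0))) (.cut .d (-8192) (.pos 45 .mp ⟨⟨99075682, 0, 0, 0, 0, 69398839, 0, 0, 0, ⟨0, 0⟩, 0⟩, 0, 0⟩ 0 0) (.cut .s 10667008 (.pos 45 .mp ⟨⟨99813877,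 0, 0, 0, 0, 67657505, 0, 0, 0, ⟨0, 0⟩, 0⟩, 0, 0⟩ 0 0) (.pos 45 .mp ⟨⟨100001964, 0, 0, 0, 0, 67778636, 0, 0, 0, ⟨0, 0⟩, 0⟩, 0, 0⟩ 0 0)))) (.cut .l 115343 (.cut .d (-8192) (.pos 45 .mp ⟨⟨98974806, 0, 0, 0, 0, 71902659, 0, 0, 0, ⟨0, 0⟩, 0⟩, 0, 0⟩ 0 0) (.cut .v 16793600 (.cut .s 10676224 (.cut .s 10673152 (.pos 57 .mp ⟨⟨100564463, 0, 0, 0, 0, 67296733, 0, 0, 0, ⟨0, 0⟩, 0⟩, 0, 0⟩ 0 0) (.pos 57 .mp ⟨⟨100756303, 0, 0, 0, 0, 67414142, 0, 0, 0, ⟨0, 0⟩, 0⟩, 0, 0⟩ 0 0)) (.pos 57 .mp ⟨⟨99655044, 0, 0, 0, 0, 69630852, 0, 0, 0, ⟨0, 0⟩, 0⟩, 0, 0⟩ 0 0)) (.pos 58 .mp ⟨⟨108413083, 0, 0, 0, 0, 57045726, 0, 0, 0, ⟨0, 0⟩, 0⟩, 0, 0⟩ 0 0))) (.pos 45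 .mp ⟨⟨98023223, 0, 0, 0, 0, 71302179, 0, 0, 0, ⟨0, 0⟩, 0⟩, 0, 0⟩ 0 0))) (.pos 46 .mp ⟨⟨112527628, 0, 0, 0, 0, 50756530, 0, 0, 0, ⟨0, 0⟩, 0⟩, 0, 0⟩ 0 0)))))) (.pos 38 .mp ⟨⟨146917863, 0, 0, 0, 0, 0, 0, 0, 0, ⟨0, 0⟩, 0⟩, 0, 0⟩ 0 0)) (.cut .v 16842752 (.cut .d (-16384) (.cut .d (-24576) (.void 37 ⟨⟨0, 0, 0, 0, 0, 100000, 0, 0, 0, ⟨0, 0⟩, 0⟩, 0, 0⟩ 0 0) (.cut .d (-20480) (.void 37 ⟨⟨0, 0, 0, 0, 0, 100000, 0, 0, 0, ⟨0, 0⟩, 0⟩, 0, 0⟩ 0 0) (.cut .d (-18432) (.pos 37 .mp ⟨⟨100231278, 0, 0, 0, 0, 102029766, 0, 0, 0, ⟨0, 0⟩, 0⟩, 0, 0⟩ 0 0) (.cut .l 115343 (.void 37 ⟨⟨0, 0, 0, 0, 0, 100000, 0, 0, 0, ⟨0, 0⟩, 0⟩, 0, 0⟩ 0 0) (.cut .l 173015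 (.void 37 ⟨⟨0, 0, 0, 0, 0, 100000, 0, 0, 0, ⟨0, 0⟩, 0⟩, 0, 0⟩ 0 0) (.cut .v 16809984 (.pos 45 .mp ⟨⟨0, 0, 0, 0, 0, 233641084, 0, 0, 0, ⟨0, 0⟩, 0⟩, 0, 0⟩ 0 0) (.cut .s 10780672 (.cut .s 10731520 (.pos 46 .mp ⟨⟨104267874, 0, 0, 0, 0, 67828671, 0, 0, 0, ⟨0, 0⟩, 0⟩, 0, 0⟩ 0 0) (.pos 46 .mp ⟨⟨107439908, 0, 0, 0, 0, 69833384, 0, 0, 0, ⟨0, 0⟩, 0⟩, 0, 0⟩ 0 0)) (.pos 46 .mp ⟨⟨114047453, 0, 0, 0, 0, 71033326, 0, 0, 0, ⟨0, 0⟩, 0⟩, 0, 0⟩ 0 0)))))))) (.cut .s 10780672 (.cut .s 10731520 (.cut .s 10706944 (.cut .v 16809984 (.cut .s 10694656 (.cut .l 115343 (.cut .d (-8192) (.pos 45 .mp ⟨⟨99718103, 0, 0, 0, 0, 72441817, 0, 0, 0, ⟨0, 0⟩, 0⟩, 0,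 0⟩ 0 0) (.cut .v 16793600 (.cut .s 10688512 (.pos 57 .mp ⟨⟨100039406, 0, 0, 0, 0, 69869853, 0, 0, 0, ⟨0, 0⟩, 0⟩, 0, 0⟩ 0 0) (.pos 57 .mp ⟨⟨100429101, 0, 0, 0, 0, 70104615, 0, 0, 0, ⟨0, 0⟩, 0⟩, 0, 0⟩ 0 0)) (.pos 58 .mp ⟨⟨109286603, 0, 0, 0, 0, 57368658, 0, 0, 0, ⟨0, 0⟩, 0⟩, 0, 0⟩ 0 0))) (.pos 45 .mp ⟨⟨98755573, 0, 0, 0, 0, 71827281, 0, 0, 0, ⟨0, 0⟩, 0⟩, 0, 0⟩ 0 0)) (.cut .l 115343 (.cut .d (-8192) (.pos 45 .mp ⟨⟨100466463, 0, 0, 0, 0, 72992693, 0, 0, 0, ⟨0, 0⟩, 0⟩, 0, 0⟩ 0 0) (.cut .v 16793600 (.cut .s 10700800 (.pos 57 .mp ⟨⟨100824178, 0, 0, 0, 0, 70335058, 0, 0, 0, ⟨0, 0⟩, 0⟩, 0, 0⟩ 0 0) (.pos 57 .mp ⟨⟨101239482, 0, 0, 0, 0, 70538471,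 0, 0, 0, ⟨0, 0⟩, 0⟩, 0, 0⟩ 0 0)) (.pos 58 .mp ⟨⟨110195242, 0, 0, 0, 0, 57656778, 0, 0, 0, ⟨0, 0⟩, 0⟩, 0, 0⟩ 0 0))) (.pos 45 .mp ⟨⟨99492862, 0, 0, 0, 0, 72356443, 0, 0, 0, ⟨0, 0⟩, 0⟩, 0, 0⟩ 0 0))) (.pos 46 .mp ⟨⟨114352583, 0, 0, 0, 0, 51285125, 0, 0, 0, ⟨0, 0⟩, 0⟩, 0, 0⟩ 0 0)) (.cut .v 16809984 (.cut .s 10719232 (.cut .l 115343 (.cut .d (-8192) (.pos 45 .mp ⟨⟨101219915, 0, 0, 0, 0, 73555367, 0, 0, 0, ⟨0, 0⟩, 0⟩, 0, 0⟩ 0 0) (.cut .s 10713088 (.cut .s 10710016 (.pos 45 .mp ⟨⟨102412913, 0, 0, 0, 0, 69434555, 0, 0, 0, ⟨0, 0⟩, 0⟩, 0, 0⟩ 0 0) (.pos 45 .mp ⟨⟨102614349, 0, 0, 0, 0, 69550549, 0, 0, 0, ⟨0, 0⟩, 0⟩, 0, 0⟩ 0 0)) (.pos 45 .mp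 ⟨⟨103097225, 0, 0, 0, 0, 69408464, 0, 0, 0, ⟨0, 0⟩, 0⟩, 0, 0⟩ 0 0))) (.pos 45 .mp ⟨⟨100235118, 0, 0, 0, 0, 72889565, 0, 0, 0, ⟨0, 0⟩, 0⟩, 0, 0⟩ 0 0)) (.cut .l 115343 (.cut .d (-8192) (.pos 45 .mp ⟨⟨101978485, 0, 0, 0, 0, 74129926, 0, 0, 0, ⟨0, 0⟩, 0⟩, 0, 0⟩ 0 0) (.cut .s 10725376 (.pos 45 .mp ⟨⟨103482526, 0, 0, 0, 0, 69669011, 0, 0, 0, ⟨0, 0⟩, 0⟩, 0, 0⟩ 0 0) (.pos 45 .mp ⟨⟨103869139, 0, 0, 0, 0, 69931487, 0, 0, 0, ⟨0, 0⟩, 0⟩, 0, 0⟩ 0 0))) (.pos 45 .mp ⟨⟨100982368, 0, 0, 0, 0, 73426547, 0, 0, 0, ⟨0, 0⟩, 0⟩, 0, 0⟩ 0 0))) (.pos 46 .mp ⟨⟨116318229, 0, 0, 0, 0, 51673714, 0, 0, 0, ⟨0, 0⟩, 0⟩, 0, 0⟩ 0 0))) (.cut .s 10756096 (.cut .v 16809984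 (.cut .s 10743808 (.cut .l 115343 (.cut .d (-8192) (.pos 45 .mp ⟨⟨102742203, 0, 0, 0, 0, 74716452, 0, 0, 0, ⟨0, 0⟩, 0⟩, 0, 0⟩ 0 0) (.cut .s 10737664 (.pos 45 .mp ⟨⟨104257069, 0, 0, 0, 0, 70195886, 0, 0, 0, ⟨0, 0⟩, 0⟩, 0, 0⟩ 0 0) (.pos 45 .mp ⟨⟨104646320, 0, 0, 0, 0, 70462207, 0, 0, 0, ⟨0, 0⟩, 0⟩, 0, 0⟩ 0 0))) (.pos 45 .mp ⟨⟨101734640, 0, 0, 0, 0, 73967290, 0, 0, 0, ⟨0, 0⟩, 0⟩, 0, 0⟩ 0 0)) (.cut .l 115343 (.cut .d (-8192) (.pos 45 .mp ⟨⟨103511098, 0, 0, 0, 0, 75315032, 0, 0, 0, ⟨0, 0⟩, 0⟩, 0, 0⟩ 0 0) (.cut .s 10749952 (.pos 45 .mp ⟨⟨105036894, 0, 0, 0, 0, 70730444, 0, 0, 0, ⟨0, 0⟩, 0⟩, 0, 0⟩ 0 0) (.pos 45 .mp ⟨⟨105428796, 0, 0,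 0, 0, 71000596, 0, 0, 0, ⟨0, 0⟩, 0⟩, 0, 0⟩ 0 0))) (.pos 45 .mp ⟨⟨102491962, 0, 0, 0, 0, 74511692, 0, 0, 0, ⟨0, 0⟩, 0⟩, 0, 0⟩ 0 0))) (.pos 46 .mp ⟨⟨118430589, 0, 0, 0, 0, 51913016, 0, 0, 0, ⟨0, 0⟩, 0⟩, 0, 0⟩ 0 0)) (.cut .v 16809984 (.cut .s 10768384 (.cut .l 115343 (.cut .d (-8192) (.pos 45 .mp ⟨⟨104285198, 0, 0, 0, 0, 75925751, 0, 0, 0, ⟨0, 0⟩, 0⟩, 0, 0⟩ 0 0) (.cut .s 10762240 (.pos 45 .mp ⟨⟨105822029, 0, 0, 0, 0, 71272658, 0, 0, 0, ⟨0, 0⟩, 0⟩, 0, 0⟩ 0 0) (.pos 45 .mp ⟨⟨106216597, 0, 0, 0, 0, 71546627, 0, 0, 0, ⟨0, 0⟩, 0⟩, 0, 0⟩ 0 0))) (.pos 45 .mp ⟨⟨103254362, 0, 0, 0, 0, 75059654, 0, 0, 0, ⟨0, 0⟩, 0⟩, 0, 0⟩ 0 0)) (.cut .d (-8192)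 (.pos 45 .mp ⟨⟨105498633, 0, 0, 0, 0, 74672417, 0, 0, 0, ⟨0, 0⟩, 0⟩, 0, 0⟩ 0 0) (.cut .s 10774528 (.pos 45 .mp ⟨⟨106558373, 0, 0, 0, 0, 71949105, 0, 0, 0, ⟨0, 0⟩, 0⟩, 0, 0⟩ 0 0) (.pos 45 .mp ⟨⟨106916799, 0, 0, 0, 0, 72295666, 0, 0, 0, ⟨0, 0⟩, 0⟩, 0, 0⟩ 0 0)))) (.pos 46 .mp ⟨⟨120695749, 0, 0, 0, 0, 51993602, 0, 0, 0, ⟨0, 0⟩, 0⟩, 0, 0⟩ 0 0)))) (.cut .s 10829824 (.cut .v 16809984 (.cut .s 10805248 (.cut .s 10792960 (.cut .d (-8192) (.pos 45 .mp ⟨⟨106446077, 0, 0, 0, 0, 75009010, 0, 0, 0, ⟨0, 0⟩, 0⟩, 0, 0⟩ 0 0) (.cut .s 10786816 (.pos 45 .mp ⟨⟨107274024, 0, 0, 0, 0, 72648664, 0, 0, 0, ⟨0, 0⟩, 0⟩, 0, 0⟩ 0 0) (.pos 45 .mp ⟨⟨107722225,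 0, 0, 0, 0, 72870088, 0, 0, 0, ⟨0, 0⟩, 0⟩, 0, 0⟩ 0 0))) (.cut .s 10799104 (.pos 45 .mp ⟨⟨107191571, 0, 0, 0, 0, 74697533, 0, 0, 0, ⟨0, 0⟩, 0⟩, 0, 0⟩ 0 0) (.pos 45 .mp ⟨⟨107682562, 0, 0, 0, 0, 74848580, 0, 0, 0, ⟨0, 0⟩, 0⟩, 0, 0⟩ 0 0))) (.cut .s 10817536 (.cut .s 10811392 (.pos 45 .mp ⟨⟨108342245, 0, 0, 0, 0, 74743919, 0, 0, 0, ⟨0, 0⟩, 0⟩, 0, 0⟩ 0 0) (.pos 45 .mp ⟨⟨109032137, 0, 0, 0, 0, 74596456, 0, 0, 0, ⟨0, 0⟩, 0⟩, 0, 0⟩ 0 0)) (.cut .s 10823680 (.pos 45 .mp ⟨⟨109736765, 0, 0, 0, 0, 74429973, 0, 0, 0, ⟨0, 0⟩, 0⟩, 0, 0⟩ 0 0) (.pos 45 .mp ⟨⟨110456221, 0, 0, 0, 0, 74244309, 0, 0, 0, ⟨0, 0⟩, 0⟩, 0, 0⟩ 0 0)))) (.pos 46 .mp ⟨⟨135208081,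 0, 0, 0, 0, 36378219, 0, 0, 0, ⟨0, 0⟩, 0⟩, 0, 0⟩ 0 0)) (.cut .v 16809984 (.cut .s 10854400 (.cut .l 115343 (.cut .d (-8192) (.pos 45 .mp ⟨⟨109040760, 0, 0, 0, 0, 81670123, 0, 0, 0, ⟨0, 0⟩, 0⟩, 0, 0⟩ 0 0) (.cut .v 16793600 (.cut .s 10842112 (.cut .s 10835968 (.pos 57 .mp ⟨⟨111679689, 0, 0, 0, 0, 73241257, 0, 0, 0, ⟨0, 0⟩, 0⟩, 0, 0⟩ 0 0) (.pos 57 .mp ⟨⟨112213876, 0, 0, 0, 0, 73365790, 0, 0, 0, ⟨0, 0⟩, 0⟩, 0, 0⟩ 0 0)) (.pos 57 .mp ⟨⟨110559408, 0, 0, 0, 0, 77088705, 0, 0, 0, ⟨0, 0⟩, 0⟩, 0, 0⟩ 0 0)) (.pos 58 .mp ⟨⟨128990318, 0, 0, 0, 0, 50105575, 0, 0, 0, ⟨0, 0⟩, 0⟩, 0, 0⟩ 0 0))) (.pos 45 .mp ⟨⟨107937019, 0, 0, 0, 0, 79156395, 0, 0,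 0, ⟨0, 0⟩, 0⟩, 0, 0⟩ 0 0)) (.cut .l 115343 (.cut .d (-8192) (.pos 45 .mp ⟨⟨110668941, 0, 0, 0, 0, 83114906, 0, 0, 0, ⟨0, 0⟩, 0⟩, 0, 0⟩ 0 0) (.cut .s 10866688 (.pos 45 .mp ⟨⟨112714355, 0, 0, 0, 0, 75673767, 0, 0, 0, ⟨0, 0⟩, 0⟩, 0, 0⟩ 0 0) (.pos 45 .mp ⟨⟨113551459, 0, 0, 0, 0, 76282314, 0, 0, 0, ⟨0, 0⟩, 0⟩, 0, 0⟩ 0 0))) (.pos 45 .mp ⟨⟨109539850, 0, 0, 0, 0, 80306038, 0, 0, 0, ⟨0, 0⟩, 0⟩, 0, 0⟩ 0 0))) (.pos 46 .mp ⟨⟨141050337, 0, 0, 0, 0, 34952813, 0, 0, 0, ⟨0, 0⟩, 0⟩, 0, 0⟩ 0 0))))) (.pos 38 .mp ⟨⟨164216516, 0, 0, 0, 0, 0, 0, 0, 0, ⟨0, 0⟩, 0⟩, 0, 0⟩ 0 0))) (.pos 36 .mp ⟨⟨163105028, 0, 0, 0, 0, 0, 0, 0, 0, ⟨0, 0⟩, 0⟩, 0, 0⟩ 0 0))))))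 (.void 34 ⟨⟨100000, 0, 0, 0, 0, 0, 0, 0, 0, ⟨0, 0⟩, 0⟩, 0, 0⟩ 0 0))) (.void 32 ⟨⟨100000, 0, 0, 0, 0, 0, 0, 0, 0, ⟨0, 0⟩, 0⟩, 0, 0⟩ 0 0))) (.void 30 ⟨⟨100000, 0, 0, 0, 0, 0, 0, 0, 0, ⟨0, 0⟩, 0⟩, 0, 0⟩ 0 0))) (.void 28 ⟨⟨100000, 0, 0, 0, 0, 0, 0, 0, 0, ⟨0, 0⟩, 0⟩, 0, 0⟩ 0 0))) (.void 26 ⟨⟨100000, 0, 0, 0, 0, 0, 0, 0, 0, ⟨0, 0⟩, 0⟩, 0, 0⟩ 0 0))) (.void 24 ⟨⟨100000, 0, 0, 0, 0, 0, 0, 0, 0, ⟨0, 0⟩, 0⟩, 0, 0⟩ 0 0)) (.void 97 ⟨⟨100000, 0, 0, 0, 0, 0, 0, 0, 0, ⟨0, 0⟩, 0⟩, 0, 0⟩ 0 0)) (.void 120 ⟨⟨100000, 0, 0, 0, 0, 0, 0, 0, 0, ⟨0, 0⟩, 0⟩, 0, 0⟩ 0 0))) (.cut .v 16777216 (.cut .v 8388608 (.cut .v 4194304 (.pos 4 .pm ⟨⟨0, 0, 265644808, 0,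 0, 0, 0, 0, 0, ⟨0, 0⟩, 0⟩, 0, 118998855⟩ 0 0) (.pos 5 .pm ⟨⟨0, 0, 1981036, 0, 0, 0, 0, 0, 0, ⟨0, 0⟩, 0⟩, 0, 0⟩ 0 0)) (.pos 3 .pm ⟨⟨0, 0, 0, 0, 0, 0, 0, 0, 0, ⟨0, 0⟩, 0⟩, 0, 0⟩ 0 0)) (.cut .v 67108864 (.cut .d 5033166 (.cut .v 33554432 (.cut .d 2516583 (.cut .v 25165824 (.cut .d 1258291 (.cut .d 629145 (.cut .v 20971520 (.cut .d 314572 (.cut .v 18874368 (.cut .s 10682368 (.pos 27 .pp ⟨⟨93512126, 0, 0, 0, 0, 0, 0, 0, 0, ⟨0, 0⟩, 0⟩, 4135724, 0⟩ 0 0) (.pos 27 .pp ⟨⟨106369386, 0, 0, 0, 0, 0, 0, 0, 0, ⟨0, 0⟩, 0⟩, 4463433, 0⟩ 0 0)) (.pos 28 .pp ⟨⟨187908171, 0, 0, 0, 0, 0, 0, 0, 0, ⟨0, 0⟩, 0⟩, 0, 0⟩ 0 0)) (.pos 25 .pp ⟨⟨108805446, 0, 0,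 0, 0, 0, 0, 0, 0, ⟨0, 0⟩, 0⟩, 0, 69094⟩ 0 0)) (.cut .d 314572 (.void 26 ⟨⟨100000, 0, 0, 0, 0, 0, 0, 0, 0, ⟨0, 0⟩, 0⟩, 0, 0⟩ 0 0) (.pos 26 .pp ⟨⟨0, 0, 0, 0, 0, 0, 0, 0, 0, ⟨0, 0⟩, 0⟩, 18702292, 0⟩ 0 0))) (.pos 23 .pp ⟨⟨0, 0, 0, 0, 0, 0, 0, 0, 0, ⟨0, 0⟩, 0⟩, 12379209, 120429⟩ 0 0)) (.pos 23 .pp ⟨⟨0, 0, 0, 0, 0, 0, 0, 0, 0, ⟨0, 0⟩, 0⟩, 0, 500611⟩ 0 0)) (.cut .d 1258291 (.cut .d 629145 (.void 24 ⟨⟨0, 0, 0, 0, 0, 0, 0, 0, 0, ⟨0, 0⟩, 0⟩, 100000, 0⟩ 0 0) (.pos 24 .pp ⟨⟨0, 0, 0, 0, 0, 0, 0, 0, 0, ⟨0, 0⟩, 0⟩, 23069454, 0⟩ 0 0)) (.pos 24 .pp ⟨⟨0, 0, 0, 0, 0, 0, 198188, 0, 0, ⟨0, 0⟩, 0⟩, 14635504, 0⟩ 0 0))) (.pos 22 .pp ⟨⟨0, 0, 0, 0, 0, 0,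 0, 0, 0, ⟨0, 0⟩, 0⟩, 0, 556234⟩ 0 0)) (.cut .d 2516583 (.cut .v 50331648 (.pos 100 .pp ⟨⟨0, 0, 0, 0, 0, 0, 0, 0, 0, ⟨0, 0⟩, 0⟩, 45078889, 0⟩ 0 0) (.void 101 ⟨⟨0, 0, 0, 0, 0, 0, 0, 0, 0, ⟨0, 0⟩, 0⟩, 100000, 0⟩ 0 0)) (.pos 97 .pp ⟨⟨0, 0, 0, 0, 0, 0, 0, 0, 0, ⟨0, 0⟩, 0⟩, 24376190, 0⟩ 0 0))) (.pos 96 .pp ⟨⟨0, 0, 0, 0, 0, 0, 0, 0, 0, ⟨0, 0⟩, 0⟩, 0, 50969969⟩ 0 0)) (.void 120 ⟨⟨0, 92628, 0, 0, 0, 0, 0, 0, 0, ⟨0, 0⟩, 0⟩, 7372, 0⟩ 0 0)))),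
    by decide +kernel⟩

def covers15 : cell.Covers Vale.Agent.P237.Petty.Cor.Grid.N16.table row15.1 :=
  ⟨(.cut .d 0 (.cut .v 16777216 (.cut .d (-8388608) (.void 1 ⟨⟨0, 0, 0, 0, 0, 100000, 0, 0, 0, ⟨0, 0⟩, 0⟩, 0, 0⟩ 0 0) (.cut .d (-4194304) (.void 1 ⟨⟨0, 0, 0, 0, 0, 100000, 0, 0, 0, ⟨0, 0⟩, 0⟩, 0, 0⟩ 0 0) (.cut .d (-2097152) (.void 1 ⟨⟨0, 0, 0, 0, 0, 100000, 0, 0, 0, ⟨0, 0⟩, 0⟩, 0, 0⟩ 0 0) (.cut .d (-1048576) (.void 1 ⟨⟨0, 0, 0, 0, 0, 100000, 0, 0, 0, ⟨0, 0⟩, 0⟩, 0, 0⟩ 0 0) (.cut .d (-524288) (.void 1 ⟨⟨0, 0, 0, 0, 0, 100000, 0, 0, 0, ⟨0, 0⟩, 0⟩, 0, 0⟩ 0 0) (.cut .d (-262144) (.void 1 ⟨⟨0, 0, 0, 0, 0, 100000, 0, 0, 0, ⟨0, 0⟩, 0⟩,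 0, 0⟩ 0 0) (.cut .d (-131072) (.void 1 ⟨⟨0, 0, 0, 0, 0, 100000, 0, 0, 0, ⟨0, 0⟩, 0⟩, 0, 0⟩ 0 0) (.cut .d (-65536) (.void 1 ⟨⟨0, 0, 0, 0, 0, 100000, 0, 0, 0, ⟨0, 0⟩, 0⟩, 0, 0⟩ 0 0) (.cut .d (-32768) (.void 1 ⟨⟨0, 0, 0, 0, 0, 100000, 0, 0, 0, ⟨0, 0⟩, 0⟩, 0, 0⟩ 0 0) (.cut .v 8388608 (.cut .v 4194304 (.void 4 ⟨⟨0, 0, 100000, 0, 0, 0, 0, 0, 0, ⟨0, 0⟩, 0⟩, 0, 0⟩ 0 0) (.pos 5 .mm ⟨⟨0, 0, 2942993, 0, 0, 97697637, 0, 0, 0, ⟨0, 0⟩, 0⟩, 0, 0⟩ 0 0)) (.cut .d (-16384) (.pos 3 .mm ⟨⟨0, 0, 0, 0, 0, 326625519, 0, 0, 0, ⟨0, 0⟩, 0⟩, 0, 0⟩ 0 0) (.cut .v 12582912 (.pos 8 .mm ⟨⟨0, 0, 0, 0, 0, 157577591, 0, 0, 0, ⟨0, 0⟩, 0⟩, 0, 0⟩ 0 0) (.cut .v 14680064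 (.pos 12 .mm ⟨⟨0, 0, 0, 0, 0, 189448876, 0, 0, 0, ⟨0, 0⟩, 0⟩, 0, 0⟩ 0 0) (.cut .v 15728640 (.pos 20 .mm ⟨⟨0, 0, 0, 0, 0, 206222942, 0, 0, 0, ⟨0, 0⟩, 0⟩, 0, 0⟩ 0 0) (.cut .v 16252928 (.pos 41 .mm ⟨⟨0, 0, 0, 0, 0, 214819581, 0, 0, 0, ⟨0, 0⟩, 0⟩, 0, 0⟩ 0 0) (.cut .v 16515072 (.pos 43 .mm ⟨⟨0, 0, 0, 0, 0, 249579910, 0, 0, 0, ⟨0, 0⟩, 0⟩, 0, 0⟩ 0 0) (.cut .v 16646144 (.pos 51 .mm ⟨⟨0, 0, 0, 0, 0, 264057314, 0, 0, 0, ⟨0, 0⟩, 0⟩, 0, 0⟩ 0 0) (.cut .v 16711680 (.pos 53 .mm ⟨⟨0, 0, 0, 0, 0, 271023975, 0, 0, 0, ⟨0, 0⟩, 0⟩, 0, 0⟩ 0 0) (.cut .v 16744448 (.pos 55 .mm ⟨⟨0, 0, 0, 0, 0, 274529451, 0, 0, 0, ⟨0, 0⟩, 0⟩, 0, 0⟩ 0 0) (.cut .s 11108352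 (.cut .s 10993664 (.pos 56 .mm ⟨⟨0, 0, 0, 0, 0, 250438497, 0, 0, 0, ⟨0, 0⟩, 0⟩, 0, 0⟩ 0 0) (.pos 56 .mm ⟨⟨0, 0, 0, 0, 0, 268897178, 0, 0, 0, ⟨0, 0⟩, 0⟩, 0, 0⟩ 0 0)) (.cut .s 11223040 (.pos 56 .mm ⟨⟨0, 0, 0, 0, 0, 289429031, 0, 0, 0, ⟨0, 0⟩, 0⟩, 0, 0⟩ 0 0) (.pos 56 .mm ⟨⟨0, 0, 0, 0, 0, 312106110, 0, 0, 0, ⟨0, 0⟩, 0⟩, 0, 0⟩ 0 0)))))))))))))))))))))) (.cut .v 67108864 (.cut .v 33554432 (.cut .v 25165824 (.cut .d (-8388608) (.void 23 ⟨⟨0, 0, 0, 0, 0, 100000, 0, 0, 0, ⟨0, 0⟩, 0⟩, 0, 0⟩ 0 0) (.cut .v 20971520 (.cut .d (-4194304) (.void 25 ⟨⟨100000, 0, 0, 0, 0, 0, 0, 0, 0, ⟨0, 0⟩, 0⟩, 0, 0⟩ 0 0) (.cut .v 18874368 (.cut .d (-2097152) (.void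 27 ⟨⟨100000, 0, 0, 0, 0, 0, 0, 0, 0, ⟨0, 0⟩, 0⟩, 0, 0⟩ 0 0) (.cut .v 17825792 (.cut .d (-1048576) (.void 29 ⟨⟨100000, 0, 0, 0, 0, 0, 0, 0, 0, ⟨0, 0⟩, 0⟩, 0, 0⟩ 0 0) (.cut .v 17301504 (.cut .d (-524288) (.void 31 ⟨⟨100000, 0, 0, 0, 0, 0, 0, 0, 0, ⟨0, 0⟩, 0⟩, 0, 0⟩ 0 0) (.cut .v 17039360 (.cut .d (-262144) (.void 33 ⟨⟨100000, 0, 0, 0, 0, 0, 0, 0, 0, ⟨0, 0⟩, 0⟩, 0, 0⟩ 0 0) (.cut .v 16908288 (.cut .d (-131072) (.void 35 ⟨⟨100000, 0, 0, 0, 0, 0, 0, 0, 0, ⟨0, 0⟩, 0⟩, 0, 0⟩ 0 0) (.cut .d (-65536) (.void 35 ⟨⟨100000, 0, 0, 0, 0, 0, 0, 0, 0, ⟨0, 0⟩, 0⟩, 0, 0⟩ 0 0) (.cut .d (-32768) (.void 35 ⟨⟨0, 0, 0, 0, 0, 100000, 0, 0, 0, ⟨0, 0⟩, 0⟩,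 0, 0⟩ 0 0) (.cut .d (-16384) (.cut .v 16842752 (.cut .s 11108352 (.cut .s 10993664 (.pos 37 .mp ⟨⟨115530769, 0, 0, 0, 0, 93327919, 0, 0, 0, ⟨0, 0⟩, 0⟩, 0, 0⟩ 0 0) (.cut .s 11051008 (.pos 37 .mp ⟨⟨122260167, 0, 0, 0, 0, 92100803, 0, 0, 0, ⟨0, 0⟩, 0⟩, 0, 0⟩ 0 0) (.pos 37 .mp ⟨⟨126390801, 0, 0, 0, 0, 95511812, 0, 0, 0, ⟨0, 0⟩, 0⟩, 0, 0⟩ 0 0))) (.pos 37 .mp ⟨⟨129432524, 0, 0, 0, 0, 140309238, 0, 0, 0, ⟨0, 0⟩, 0⟩, 0, 0⟩ 0 0)) (.void 38 ⟨⟨100000, 0, 0, 0, 0, 0, 0, 0, 0, ⟨0, 0⟩, 0⟩, 0, 0⟩ 0 0)) (.cut .s 11108352 (.cut .v 16842752 (.cut .s 10993664 (.cut .s 10936320 (.cut .v 16809984 (.cut .s 10907648 (.cut .s 10893312 (.cut .s 10886144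 (.pos 45 .mp ⟨⟨115713045, 0, 0, 0, 0, 74759662, 0, 0, 0, ⟨0, 0⟩, 0⟩, 0, 0⟩ 0 0) (.pos 45 .mp ⟨⟨115984904, 0, 0, 0, 0, 75340682, 0, 0, 0, ⟨0, 0⟩, 0⟩, 0, 0⟩ 0 0)) (.cut .s 10900480 (.pos 45 .mp ⟨⟨116264175, 0, 0, 0, 0, 75918064, 0, 0, 0, ⟨0, 0⟩, 0⟩, 0, 0⟩ 0 0) (.pos 45 .mp ⟨⟨116325232, 0, 0, 0, 0, 76859937, 0, 0, 0, ⟨0, 0⟩, 0⟩, 0, 0⟩ 0 0))) (.cut .s 10921984 (.cut .s 10914816 (.pos 45 .mp ⟨⟨116332993, 0, 0, 0, 0, 77897696, 0, 0, 0, ⟨0, 0⟩, 0⟩, 0, 0⟩ 0 0) (.pos 45 .mp ⟨⟨116358031, 0, 0, 0, 0, 78916255, 0, 0, 0, ⟨0, 0⟩, 0⟩, 0, 0⟩ 0 0)) (.cut .s 10929152 (.pos 45 .mp ⟨⟨116400550, 0, 0, 0, 0, 79915271, 0, 0, 0, ⟨0, 0⟩, 0⟩, 0, 0⟩ 0 0)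 (.pos 45 .mp ⟨⟨116478325, 0, 0, 0, 0, 80867173, 0, 0, 0, ⟨0, 0⟩, 0⟩, 0, 0⟩ 0 0)))) (.pos 46 .mp ⟨⟨151768698, 0, 0, 0, 0, 27377794, 0, 0, 0, ⟨0, 0⟩, 0⟩, 0, 0⟩ 0 0)) (.cut .v 16809984 (.cut .s 10964992 (.cut .s 10950656 (.cut .s 10943488 (.pos 45 .mp ⟨⟨116823637, 0, 0, 0, 0, 81411707, 0, 0, 0, ⟨0, 0⟩, 0⟩, 0, 0⟩ 0 0) (.cut .s 10947072 (.pos 45 .mp ⟨⟨119559283, 0, 0, 0, 0, 77987006, 0, 0, 0, ⟨0, 0⟩, 0⟩, 0, 0⟩ 0 0) (.pos 45 .mp ⟨⟨119658491, 0, 0, 0, 0, 78374589, 0, 0, 0, ⟨0, 0⟩, 0⟩, 0, 0⟩ 0 0))) (.cut .d (-8192) (.pos 45 .mp ⟨⟨115994682, 0, 0, 0, 0, 86579683, 0, 0, 0, ⟨0, 0⟩, 0⟩, 0, 0⟩ 0 0) (.cut .s 10957824 (.pos 45 .mp ⟨⟨119006243,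 0, 0, 0, 0, 80041315, 0, 0, 0, ⟨0, 0⟩, 0⟩, 0, 0⟩ 0 0) (.pos 45 .mp ⟨⟨119577692, 0, 0, 0, 0, 80238740, 0, 0, 0, ⟨0, 0⟩, 0⟩, 0, 0⟩ 0 0)))) (.cut .s 10979328 (.cut .d (-8192) (.pos 45 .mp ⟨⟨116999095, 0, 0, 0, 0, 87193020, 0, 0, 0, ⟨0, 0⟩, 0⟩, 0, 0⟩ 0 0) (.cut .s 10972160 (.pos 45 .mp ⟨⟨120093070, 0, 0, 0, 0, 80535196, 0, 0, 0, ⟨0, 0⟩, 0⟩, 0, 0⟩ 0 0) (.pos 45 .mp ⟨⟨120610540, 0, 0, 0, 0, 80835824, 0, 0, 0, ⟨0, 0⟩, 0⟩, 0, 0⟩ 0 0))) (.cut .s 10986496 (.cut .s 10982912 (.pos 45 .mp ⟨⟨120415117, 0, 0, 0, 0, 82187090, 0, 0, 0, ⟨0, 0⟩, 0⟩, 0, 0⟩ 0 0) (.pos 45 .mp ⟨⟨120522859, 0, 0, 0, 0, 82583184, 0, 0, 0, ⟨0, 0⟩, 0⟩, 0, 0⟩ 0 0)) (.cut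 .s 10990080 (.pos 45 .mp ⟨⟨120635428, 0, 0, 0, 0, 82973617, 0, 0, 0, ⟨0, 0⟩, 0⟩, 0, 0⟩ 0 0) (.pos 45 .mp ⟨⟨120752850, 0, 0, 0, 0, 83358347, 0, 0, 0, ⟨0, 0⟩, 0⟩, 0, 0⟩ 0 0))))) (.pos 46 .mp ⟨⟨155328684, 0, 0, 0, 0, 30242265, 0, 0, 0, ⟨0, 0⟩, 0⟩, 0, 0⟩ 0 0))) (.cut .s 11051008 (.cut .s 11022336 (.cut .v 16809984 (.cut .s 11008000 (.cut .s 11000832 (.cut .s 10997248 (.pos 45 .mp ⟨⟨120875149, 0, 0, 0, 0, 83737331, 0, 0, 0, ⟨0, 0⟩, 0⟩, 0, 0⟩ 0 0) (.pos 45 .mp ⟨⟨121037477, 0, 0, 0, 0, 84055870, 0, 0, 0, ⟨0, 0⟩, 0⟩, 0, 0⟩ 0 0)) (.cut .s 11004416 (.pos 45 .mp ⟨⟨121249256, 0, 0, 0, 0, 84299263, 0, 0, 0, ⟨0, 0⟩, 0⟩, 0, 0⟩ 0 0) (.pos 45 .mp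 ⟨⟨121463136, 0, 0, 0, 0, 84541171, 0, 0, 0, ⟨0, 0⟩, 0⟩, 0, 0⟩ 0 0))) (.cut .s 11015168 (.cut .s 11011584 (.pos 45 .mp ⟨⟨121679131, 0, 0, 0, 0, 84781570, 0, 0, 0, ⟨0, 0⟩, 0⟩, 0, 0⟩ 0 0) (.cut .s 11013376 (.pos 45 .mp ⟨⟨123088642, 0, 0, 0, 0, 83021498, 0, 0, 0, ⟨0, 0⟩, 0⟩, 0, 0⟩ 0 0) (.pos 45 .mp ⟨⟨123165418, 0, 0, 0, 0, 83191478, 0, 0, 0, ⟨0, 0⟩, 0⟩, 0, 0⟩ 0 0))) (.cut .d (-8192) (.pos 45 .mp ⟨⟨120578188, 0, 0, 0, 0, 88877403, 0, 0, 0, ⟨0, 0⟩, 0⟩, 0, 0⟩ 0 0) (.cut .s 11018752 (.pos 45 .mp ⟨⟨123372606, 0, 0, 0, 0, 83157119, 0, 0, 0, ⟨0, 0⟩, 0⟩, 0, 0⟩ 0 0) (.pos 45 .mp ⟨⟨123608753, 0, 0, 0, 0, 83363945, 0, 0, 0, ⟨0, 0⟩, 0⟩, 0, 0⟩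 0 0))))) (.pos 46 .mp ⟨⟨142416836, 0, 0, 0, 0, 55013106, 0, 0, 0, ⟨0, 0⟩, 0⟩, 0, 0⟩ 0 0)) (.cut .v 16809984 (.cut .s 11036672 (.cut .d (-8192) (.cut .s 11029504 (.pos 45 .mp ⟨⟨121097662, 0, 0, 0, 0, 89224743, 0, 0, 0, ⟨0, 0⟩, 0⟩, 0, 0⟩ 0 0) (.pos 45 .mp ⟨⟨121619201, 0, 0, 0, 0, 89577464, 0, 0, 0, ⟨0, 0⟩, 0⟩, 0, 0⟩ 0 0)) (.cut .l 115343 (.cut .v 16793600 (.cut .l 57671 (.cut .d (-4096) (.pos 57 .mp ⟨⟨122577068, 0, 0, 0, 0, 88316147, 0, 0, 0, ⟨0, 0⟩, 0⟩, 0, 0⟩ 0 0) (.cut .s 11029504 (.pos 57 .mp ⟨⟨123383814, 0, 0, 0, 0, 84368333, 0, 0, 0, ⟨0, 0⟩, 0⟩, 0, 0⟩ 0 0) (.pos 57 .mp ⟨⟨123912868, 0, 0, 0, 0, 84716248, 0, 0, 0, ⟨0, 0⟩, 0⟩,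 0, 0⟩ 0 0))) (.pos 57 .mp ⟨⟨121532226, 0, 0, 0, 0, 87245195, 0, 0, 0, ⟨0, 0⟩, 0⟩, 0, 0⟩ 0 0)) (.pos 58 .mp ⟨⟨136240925, 0, 0, 0, 0, 66766704, 0, 0, 0, ⟨0, 0⟩, 0⟩, 0, 0⟩ 0 0)) (.pos 45 .mp ⟨⟨123483390, 0, 0, 0, 0, 0, 0, 0, 0, ⟨0, 0⟩, 0⟩, 0, 0⟩ 0 0))) (.cut .d (-8192) (.cut .s 11043840 (.pos 45 .mp ⟨⟨122142811, 0, 0, 0, 0, 89935590, 0, 0, 0, ⟨0, 0⟩, 0⟩, 0, 0⟩ 0 0) (.pos 45 .mp ⟨⟨122668501, 0, 0, 0, 0, 90299145, 0, 0, 0, ⟨0, 0⟩, 0⟩, 0, 0⟩ 0 0)) (.cut .l 115343 (.cut .v 16793600 (.cut .l 57671 (.cut .d (-4096) (.pos 57 .mp ⟨⟨123620993, 0, 0, 0, 0, 89051780, 0, 0, 0, ⟨0, 0⟩, 0⟩, 0, 0⟩ 0 0) (.cut .s 11043840 (.pos 57 .mp ⟨⟨124444045,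 0, 0, 0, 0, 85067876, 0, 0, 0, ⟨0, 0⟩, 0⟩, 0, 0⟩ 0 0) (.cut .s 11047424 (.pos 57 .mp ⟨⟨125124468, 0, 0, 0, 0, 85000837, 0, 0, 0, ⟨0, 0⟩, 0⟩, 0, 0⟩ 0 0) (.pos 57 .mp ⟨⟨125376248, 0, 0, 0, 0, 85200613, 0, 0, 0, ⟨0, 0⟩, 0⟩, 0, 0⟩ 0 0)))) (.pos 57 .mp ⟨⟨122574003, 0, 0, 0, 0, 88005619, 0, 0, 0, ⟨0, 0⟩, 0⟩, 0, 0⟩ 0 0)) (.pos 58 .mp ⟨⟨137224385, 0, 0, 0, 0, 67569982, 0, 0, 0, ⟨0, 0⟩, 0⟩, 0, 0⟩ 0 0)) (.pos 45 .mp ⟨⟨124547804, 0, 0, 0, 0, 0, 0, 0, 0, ⟨0, 0⟩, 0⟩, 0, 0⟩ 0 0)))) (.pos 46 .mp ⟨⟨144438540, 0, 0, 0, 0, 56470898, 0, 0, 0, ⟨0, 0⟩, 0⟩, 0, 0⟩ 0 0))) (.cut .s 11079680 (.cut .v 16809984 (.cut .s 11065344 (.cut .d (-8192) (.cut .s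 11058176 (.pos 45 .mp ⟨⟨123196278, 0, 0, 0, 0, 90668152, 0, 0, 0, ⟨0, 0⟩, 0⟩, 0, 0⟩ 0 0) (.pos 45 .mp ⟨⟨123726147, 0, 0, 0, 0, 91042637, 0, 0, 0, ⟨0, 0⟩, 0⟩, 0, 0⟩ 0 0)) (.cut .l 115343 (.cut .v 16793600 (.cut .s 11058176 (.cut .s 11054592 (.pos 57 .mp ⟨⟨126147124, 0, 0, 0, 0, 84638882, 0, 0, 0, ⟨0, 0⟩, 0⟩, 0, 0⟩ 0 0) (.pos 57 .mp ⟨⟨126393013, 0, 0, 0, 0, 84851714, 0, 0, 0, ⟨0, 0⟩, 0⟩, 0, 0⟩ 0 0)) (.cut .s 11061760 (.pos 57 .mp ⟨⟨126641523, 0, 0, 0, 0, 85062464, 0, 0, 0, ⟨0, 0⟩, 0⟩, 0, 0⟩ 0 0) (.pos 57 .mp ⟨⟨126892673, 0, 0, 0, 0, 85271108, 0, 0, 0, ⟨0, 0⟩, 0⟩, 0, 0⟩ 0 0))) (.pos 58 .mp ⟨⟨138267659, 0, 0, 0, 0, 68314066, 0, 0,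 0, ⟨0, 0⟩, 0⟩, 0, 0⟩ 0 0)) (.pos 45 .mp ⟨⟨125620747, 0, 0, 0, 0, 0, 0, 0, 0, ⟨0, 0⟩, 0⟩, 0, 0⟩ 0 0))) (.cut .d (-8192) (.cut .s 11072512 (.pos 45 .mp ⟨⟨124258118, 0, 0, 0, 0, 91422621, 0, 0, 0, ⟨0, 0⟩, 0⟩, 0, 0⟩ 0 0) (.pos 45 .mp ⟨⟨124792197, 0, 0, 0, 0, 91808131, 0, 0, 0, ⟨0, 0⟩, 0⟩, 0, 0⟩ 0 0)) (.cut .l 115343 (.cut .v 16793600 (.cut .s 11072512 (.cut .s 11068928 (.pos 57 .mp ⟨⟨127146479, 0, 0, 0, 0, 85477618, 0, 0, 0, ⟨0, 0⟩, 0⟩, 0, 0⟩ 0 0) (.pos 57 .mp ⟨⟨127402958, 0, 0, 0, 0, 85681967, 0, 0, 0, ⟨0, 0⟩, 0⟩, 0, 0⟩ 0 0)) (.cut .s 11076096 (.pos 57 .mp ⟨⟨127662127, 0, 0, 0, 0, 85884129, 0, 0, 0, ⟨0, 0⟩, 0⟩, 0, 0⟩ 0 0) (.pos 57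 .mp ⟨⟨127924004, 0, 0, 0, 0, 86084077, 0, 0, 0, ⟨0, 0⟩, 0⟩, 0, 0⟩ 0 0))) (.pos 58 .mp ⟨⟨139372373, 0, 0, 0, 0, 68996413, 0, 0, 0, ⟨0, 0⟩, 0⟩, 0, 0⟩ 0 0)) (.pos 45 .mp ⟨⟨126702280, 0, 0, 0, 0, 0, 0, 0, 0, ⟨0, 0⟩, 0⟩, 0, 0⟩ 0 0)))) (.pos 46 .mp ⟨⟨146693784, 0, 0, 0, 0, 57699778, 0, 0, 0, ⟨0, 0⟩, 0⟩, 0, 0⟩ 0 0)) (.cut .v 16809984 (.cut .s 11094016 (.cut .d (-8192) (.cut .s 11086848 (.pos 45 .mp ⟨⟨125328392, 0, 0, 0, 0, 92199189, 0, 0, 0, ⟨0, 0⟩, 0⟩, 0, 0⟩ 0 0) (.pos 45 .mp ⟨⟨125866710, 0, 0, 0, 0, 92595820, 0, 0, 0, ⟨0, 0⟩, 0⟩, 0, 0⟩ 0 0)) (.cut .l 115343 (.cut .v 16793600 (.cut .s 11086848 (.cut .s 11083264 (.pos 57 .mp ⟨⟨128188606,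 0, 0, 0, 0, 86281785, 0, 0, 0, ⟨0, 0⟩, 0⟩, 0, 0⟩ 0 0) (.pos 57 .mp ⟨⟨128455951, 0, 0, 0, 0, 86477226, 0, 0, 0, ⟨0, 0⟩, 0⟩, 0, 0⟩ 0 0)) (.cut .s 11090432 (.pos 57 .mp ⟨⟨128726054, 0, 0, 0, 0, 86670371, 0, 0, 0, ⟨0, 0⟩, 0⟩, 0, 0⟩ 0 0) (.pos 57 .mp ⟨⟨128998935, 0, 0, 0, 0, 86861196, 0, 0, 0, ⟨0, 0⟩, 0⟩, 0, 0⟩ 0 0))) (.pos 58 .mp ⟨⟨140540167, 0, 0, 0, 0, 69614456, 0, 0, 0, ⟨0, 0⟩, 0⟩, 0, 0⟩ 0 0)) (.pos 45 .mp ⟨⟨127792460, 0, 0, 0, 0, 0, 0, 0, 0, ⟨0, 0⟩, 0⟩, 0, 0⟩ 0 0))) (.cut .d (-8192) (.cut .s 11101184 (.pos 45 .mp ⟨⟨126407158, 0, 0, 0, 0, 92998049, 0, 0, 0, ⟨0, 0⟩, 0⟩, 0, 0⟩ 0 0) (.pos 45 .mp ⟨⟨126949744, 0, 0, 0, 0, 93405901, 0,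 0, 0, ⟨0, 0⟩, 0⟩, 0, 0⟩ 0 0)) (.cut .l 115343 (.cut .v 16793600 (.cut .s 11101184 (.cut .s 11097600 (.pos 57 .mp ⟨⟨129274610, 0, 0, 0, 0, 87049671, 0, 0, 0, ⟨0, 0⟩, 0⟩, 0, 0⟩ 0 0) (.pos 57 .mp ⟨⟨129553097, 0, 0, 0, 0, 87235771, 0, 0, 0, ⟨0, 0⟩, 0⟩, 0, 0⟩ 0 0)) (.cut .s 11104768 (.pos 57 .mp ⟨⟨129834413, 0, 0, 0, 0, 87419467, 0, 0, 0, ⟨0, 0⟩, 0⟩, 0, 0⟩ 0 0) (.pos 57 .mp ⟨⟨130118576, 0, 0, 0, 0, 87600733, 0, 0, 0, ⟨0, 0⟩, 0⟩, 0, 0⟩ 0 0))) (.pos 58 .mp ⟨⟨141772692, 0, 0, 0, 0, 70165600, 0, 0, 0, ⟨0, 0⟩, 0⟩, 0, 0⟩ 0 0)) (.pos 45 .mp ⟨⟨128891350, 0, 0, 0, 0, 0, 0, 0, 0, ⟨0, 0⟩, 0⟩, 0, 0⟩ 0 0)))) (.pos 46 .mp ⟨⟨149195502, 0, 0, 0, 0,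 58679561, 0, 0, 0, ⟨0, 0⟩, 0⟩, 0, 0⟩ 0 0))))) (.pos 38 .mp ⟨⟨182069067, 0, 0, 0, 0, 0, 0, 0, 0, ⟨0, 0⟩, 0⟩, 0, 0⟩ 0 0)) (.cut .v 16842752 (.cut .s 11223040 (.cut .s 11165696 (.cut .s 11137024 (.cut .v 16809984 (.cut .s 11122688 (.cut .d (-8192) (.cut .s 11115520 (.pos 45 .mp ⟨⟨127494475, 0, 0, 0, 0, 93819399, 0, 0, 0, ⟨0, 0⟩, 0⟩, 0, 0⟩ 0 0) (.pos 45 .mp ⟨⟨128041359, 0, 0, 0, 0, 94238570, 0, 0, 0, ⟨0, 0⟩, 0⟩, 0, 0⟩ 0 0)) (.cut .l 115343 (.cut .v 16793600 (.cut .s 11115520 (.cut .s 11111936 (.pos 57 .mp ⟨⟨130405603, 0, 0, 0, 0, 87779541, 0, 0, 0, ⟨0, 0⟩, 0⟩, 0, 0⟩ 0 0) (.pos 57 .mp ⟨⟨130695512, 0, 0, 0, 0, 87955864, 0, 0, 0, ⟨0,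 0⟩, 0⟩, 0, 0⟩ 0 0)) (.cut .s 11119104 (.pos 57 .mp ⟨⟨130988321, 0, 0, 0, 0, 88129674, 0, 0, 0, ⟨0, 0⟩, 0⟩, 0, 0⟩ 0 0) (.pos 57 .mp ⟨⟨131284047, 0, 0, 0, 0, 88300943, 0, 0, 0, ⟨0, 0⟩, 0⟩, 0, 0⟩ 0 0))) (.pos 58 .mp ⟨⟨143071608, 0, 0, 0, 0, 70647225, 0, 0, 0, ⟨0, 0⟩, 0⟩, 0, 0⟩ 0 0)) (.pos 45 .mp ⟨⟨129999011, 0, 0, 0, 0, 0, 0, 0, 0, ⟨0, 0⟩, 0⟩, 0, 0⟩ 0 0))) (.cut .d (-8192) (.cut .s 11129856 (.pos 45 .mp ⟨⟨128590404, 0, 0, 0, 0, 94663437, 0, 0, 0, ⟨0, 0⟩, 0⟩, 0, 0⟩ 0 0) (.pos 45 .mp ⟨⟨129141617, 0, 0, 0, 0, 95094026, 0, 0, 0, ⟨0, 0⟩, 0⟩, 0, 0⟩ 0 0)) (.cut .l 115343 (.cut .v 16793600 (.cut .s 11129856 (.cut .s 11126272 (.pos 57 .mp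 ⟨⟨131582708, 0, 0, 0, 0, 88469643, 0, 0, 0, ⟨0, 0⟩, 0⟩, 0, 0⟩ 0 0) (.pos 57 .mp ⟨⟨131884321, 0, 0, 0, 0, 88635747, 0, 0, 0, ⟨0, 0⟩, 0⟩, 0, 0⟩ 0 0)) (.cut .s 11133440 (.pos 57 .mp ⟨⟨132188905, 0, 0, 0, 0, 88799227, 0, 0, 0, ⟨0, 0⟩, 0⟩, 0, 0⟩ 0 0) (.pos 57 .mp ⟨⟨132496477, 0, 0, 0, 0, 88960055, 0, 0, 0, ⟨0, 0⟩, 0⟩, 0, 0⟩ 0 0))) (.pos 58 .mp ⟨⟨144438590, 0, 0, 0, 0, 71056687, 0, 0, 0, ⟨0, 0⟩, 0⟩, 0, 0⟩ 0 0)) (.pos 45 .mp ⟨⟨131115505, 0, 0, 0, 0, 12244186, 0, 0, 0, ⟨0, 0⟩, 0⟩, 0, 0⟩ 0 0)))) (.pos 46 .mp ⟨⟨151956803, 0, 0, 0, 0, 59389656, 0, 0, 0, ⟨0, 0⟩, 0⟩, 0, 0⟩ 0 0)) (.cut .v 16809984 (.cut .s 11151360 (.cut .d (-8192) (.cut .s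 11144192 (.pos 45 .mp ⟨⟨129695007, 0, 0, 0, 0, 95530362, 0, 0, 0, ⟨0, 0⟩, 0⟩, 0, 0⟩ 0 0) (.pos 45 .mp ⟨⟨130250579, 0, 0, 0, 0, 95972470, 0, 0, 0, ⟨0, 0⟩, 0⟩, 0, 0⟩ 0 0)) (.cut .l 115343 (.cut .v 16793600 (.cut .s 11144192 (.cut .s 11140608 (.pos 57 .mp ⟨⟨132807055, 0, 0, 0, 0, 89118203, 0, 0, 0, ⟨0, 0⟩, 0⟩, 0, 0⟩ 0 0) (.pos 57 .mp ⟨⟨133120657, 0, 0, 0, 0, 89273643, 0, 0, 0, ⟨0, 0⟩, 0⟩, 0, 0⟩ 0 0)) (.cut .s 11147776 (.pos 57 .mp ⟨⟨133437300, 0, 0, 0, 0, 89426346, 0, 0, 0, ⟨0, 0⟩, 0⟩, 0, 0⟩ 0 0) (.pos 57 .mp ⟨⟨133757004, 0, 0, 0, 0, 89576284, 0, 0, 0, ⟨0, 0⟩, 0⟩, 0, 0⟩ 0 0))) (.pos 58 .mp ⟨⟨145875324, 0, 0, 0, 0, 71391310, 0, 0,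 0, ⟨0, 0⟩, 0⟩, 0, 0⟩ 0 0)) (.pos 45 .mp ⟨⟨131486433, 0, 0, 0, 0, 90160446, 0, 0, 0, ⟨0, 0⟩, 0⟩, 0, 0⟩ 0 0))) (.cut .d (-8192) (.cut .s 11158528 (.pos 45 .mp ⟨⟨130808343, 0, 0, 0, 0, 96420376, 0, 0, 0, ⟨0, 0⟩, 0⟩, 0, 0⟩ 0 0) (.pos 45 .mp ⟨⟨131368306, 0, 0, 0, 0, 96874106, 0, 0, 0, ⟨0, 0⟩, 0⟩, 0, 0⟩ 0 0)) (.cut .l 115343 (.cut .v 16793600 (.cut .l 57671 (.cut .d (-4096) (.void 57 ⟨⟨0, 0, 0, 0, 0, 100000, 0, 0, 0, ⟨0, 0⟩, 0⟩, 0, 0⟩ 0 0) (.cut .s 11158528 (.pos 57 .mp ⟨⟨133237597, 0, 0, 0, 0, 91193460, 0, 0, 0, ⟨0, 0⟩, 0⟩, 0, 0⟩ 0 0) (.pos 57 .mp ⟨⟨133806005, 0, 0, 0, 0, 91607164, 0, 0, 0, ⟨0, 0⟩, 0⟩, 0, 0⟩ 0 0))) (.pos 57 .mp ⟨⟨131211613,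 0, 0, 0, 0, 94372842, 0, 0, 0, ⟨0, 0⟩, 0⟩, 0, 0⟩ 0 0)) (.pos 58 .mp ⟨⟨147383508, 0, 0, 0, 0, 71648395, 0, 0, 0, ⟨0, 0⟩, 0⟩, 0, 0⟩ 0 0)) (.pos 45 .mp ⟨⟨132603347, 0, 0, 0, 0, 90958821, 0, 0, 0, ⟨0, 0⟩, 0⟩, 0, 0⟩ 0 0)))) (.pos 46 .mp ⟨⟨154990984, 0, 0, 0, 0, 59809059, 0, 0, 0, ⟨0, 0⟩, 0⟩, 0, 0⟩ 0 0))) (.cut .s 11194368 (.cut .v 16809984 (.cut .s 11180032 (.cut .d (-8192) (.cut .s 11172864 (.pos 45 .mp ⟨⟨131930476, 0, 0, 0, 0, 97333685, 0, 0, 0, ⟨0, 0⟩, 0⟩, 0, 0⟩ 0 0) (.pos 45 .mp ⟨⟨132494861, 0, 0, 0, 0, 97799138, 0, 0, 0, ⟨0, 0⟩, 0⟩, 0, 0⟩ 0 0)) (.cut .l 115343 (.cut .v 16793600 (.cut .d (-4096) (.pos 57 .mp ⟨⟨132360266, 0, 0, 0,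 0, 97040543, 0, 0, 0, ⟨0, 0⟩, 0⟩, 0, 0⟩ 0 0) (.cut .s 11172864 (.pos 57 .mp ⟨⟨134376674, 0, 0, 0, 0, 92043568, 0, 0, 0, ⟨0, 0⟩, 0⟩, 0, 0⟩ 0 0) (.pos 57 .mp ⟨⟨134930854, 0, 0, 0, 0, 92502537, 0, 0, 0, ⟨0, 0⟩, 0⟩, 0, 0⟩ 0 0))) (.pos 58 .mp ⟨⟨148964852, 0, 0, 0, 0, 71825213, 0, 0, 0, ⟨0, 0⟩, 0⟩, 0, 0⟩ 0 0)) (.pos 45 .mp ⟨⟨133728984, 0, 0, 0, 0, 91763984, 0, 0, 0, ⟨0, 0⟩, 0⟩, 0, 0⟩ 0 0))) (.cut .d (-8192) (.cut .s 11187200 (.pos 45 .mp ⟨⟨133061468, 0, 0, 0, 0, 98270493, 0, 0, 0, ⟨0, 0⟩, 0⟩, 0, 0⟩ 0 0) (.pos 45 .mp ⟨⟨133630306, 0, 0, 0, 0, 98747775, 0, 0, 0, ⟨0, 0⟩, 0⟩, 0, 0⟩ 0 0)) (.cut .l 115343 (.cut .v 16793600 (.cut .s 11187200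 (.cut .s 11183616 (.pos 57 .mp ⟨⟨136775006, 0, 0, 0, 0, 90796603, 0, 0, 0, ⟨0, 0⟩, 0⟩, 0, 0⟩ 0 0) (.pos 57 .mp ⟨⟨137124493, 0, 0, 0, 0, 90920336, 0, 0, 0, ⟨0, 0⟩, 0⟩, 0, 0⟩ 0 0)) (.pos 57 .mp ⟨⟨135362076, 0, 0, 0, 0, 94596615, 0, 0, 0, ⟨0, 0⟩, 0⟩, 0, 0⟩ 0 0)) (.pos 58 .mp ⟨⟨150621079, 0, 0, 0, 0, 71919007, 0, 0, 0, ⟨0, 0⟩, 0⟩, 0, 0⟩ 0 0)) (.pos 45 .mp ⟨⟨134863408, 0, 0, 0, 0, 92575721, 0, 0, 0, ⟨0, 0⟩, 0⟩, 0, 0⟩ 0 0)))) (.pos 46 .mp ⟨⟨158311529, 0, 0, 0, 0, 59916337, 0, 0, 0, ⟨0, 0⟩, 0⟩, 0, 0⟩ 0 0)) (.cut .v 16809984 (.cut .s 11208704 (.cut .s 11201536 (.cut .s 11197952 (.pos 45 .mp ⟨⟨136282764, 0, 0, 0, 0, 94462149, 0, 0, 0, ⟨0,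 0⟩, 0⟩, 0, 0⟩ 0 0) (.pos 45 .mp ⟨⟨136724520, 0, 0, 0, 0, 94442296, 0, 0, 0, ⟨0, 0⟩, 0⟩, 0, 0⟩ 0 0)) (.cut .s 11205120 (.pos 45 .mp ⟨⟨137172607, 0, 0, 0, 0, 94414180, 0, 0, 0, ⟨0, 0⟩, 0⟩, 0, 0⟩ 0 0) (.pos 45 .mp ⟨⟨137627048, 0, 0, 0, 0, 94377757, 0, 0, 0, ⟨0, 0⟩, 0⟩, 0, 0⟩ 0 0))) (.cut .d (-8192) (.pos 45 .mp ⟨⟨135350285, 0, 0, 0, 0, 100959735, 0, 0, 0, ⟨0, 0⟩, 0⟩, 0, 0⟩ 0 0) (.cut .s 11215872 (.pos 45 .mp ⟨⟨138908454, 0, 0, 0, 0, 93111788, 0, 0, 0, ⟨0, 0⟩, 0⟩, 0, 0⟩ 0 0) (.pos 45 .mp ⟨⟨139501492, 0, 0, 0, 0, 93555503, 0, 0, 0, ⟨0, 0⟩, 0⟩, 0, 0⟩ 0 0)))) (.pos 46 .mp ⟨⟨161932118, 0, 0, 0, 0, 59689619, 0, 0, 0, ⟨0, 0⟩, 0⟩, 0, 0⟩ 0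 0)))) (.cut .s 11280384 (.cut .v 16809984 (.cut .s 11251712 (.cut .s 11237376 (.cut .d (-8192) (.pos 45 .mp ⟨⟨136508239, 0, 0, 0, 0, 101977215, 0, 0, 0, ⟨0, 0⟩, 0⟩, 0, 0⟩ 0 0) (.cut .s 11230208 (.pos 45 .mp ⟨⟨140096894, 0, 0, 0, 0, 94003452, 0, 0, 0, ⟨0, 0⟩, 0⟩, 0, 0⟩ 0 0) (.pos 45 .mp ⟨⟨140694667, 0, 0, 0, 0, 94455635, 0, 0, 0, ⟨0, 0⟩, 0⟩, 0, 0⟩ 0 0))) (.cut .d (-8192) (.pos 45 .mp ⟨⟨137675309, 0, 0, 0, 0, 103019078, 0, 0, 0, ⟨0, 0⟩, 0⟩, 0, 0⟩ 0 0) (.cut .s 11244544 (.pos 45 .mp ⟨⟨141226104, 0, 0, 0, 0, 95026022, 0, 0, 0, ⟨0, 0⟩, 0⟩, 0, 0⟩ 0 0) (.pos 45 .mp ⟨⟨141736132, 0, 0, 0, 0, 95640919, 0, 0, 0, ⟨0, 0⟩, 0⟩, 0, 0⟩ 0 0))))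 (.cut .s 11266048 (.cut .s 11258880 (.pos 45 .mp ⟨⟨140939330, 0, 0, 0, 0, 98500919, 0, 0, 0, ⟨0, 0⟩, 0⟩, 0, 0⟩ 0 0) (.pos 45 .mp ⟨⟨141836624, 0, 0, 0, 0, 98499059, 0, 0, 0, ⟨0, 0⟩, 0⟩, 0, 0⟩ 0 0)) (.cut .s 11273216 (.pos 45 .mp ⟨⟨142955070, 0, 0, 0, 0, 98154640, 0, 0, 0, ⟨0, 0⟩, 0⟩, 0, 0⟩ 0 0) (.pos 45 .mp ⟨⟨144100844, 0, 0, 0, 0, 97773618, 0, 0, 0, ⟨0, 0⟩, 0⟩, 0, 0⟩ 0 0)))) (.pos 46 .mp ⟨⟨187072972, 0, 0, 0, 0, 30748679, 0, 0, 0, ⟨0, 0⟩, 0⟩, 0, 0⟩ 0 0)) (.cut .v 16809984 (.cut .s 11309056 (.cut .s 11294720 (.cut .s 11287552 (.pos 45 .mp ⟨⟨145274149, 0, 0, 0, 0, 97355631, 0, 0, 0, ⟨0, 0⟩, 0⟩, 0, 0⟩ 0 0) (.pos 45 .mp ⟨⟨146475186,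 0, 0, 0, 0, 96900315, 0, 0, 0, ⟨0, 0⟩, 0⟩, 0, 0⟩ 0 0)) (.cut .s 11301888 (.pos 45 .mp ⟨⟨147704158, 0, 0, 0, 0, 96407308, 0, 0, 0, ⟨0, 0⟩, 0⟩, 0, 0⟩ 0 0) (.pos 45 .mp ⟨⟨148729857, 0, 0, 0, 0, 96265026, 0, 0, 0, ⟨0, 0⟩, 0⟩, 0, 0⟩ 0 0))) (.cut .d (-8192) (.pos 45 .mp ⟨⟨143649759, 0, 0, 0, 0, 110226836, 0, 0, 0, ⟨0, 0⟩, 0⟩, 0, 0⟩ 0 0) (.cut .s 11323392 (.pos 45 .mp ⟨⟨148056101, 0, 0, 0, 0, 99194072, 0, 0, 0, ⟨0, 0⟩, 0⟩, 0, 0⟩ 0 0) (.pos 45 .mp ⟨⟨149317401, 0, 0, 0, 0, 100200446, 0, 0, 0, ⟨0, 0⟩, 0⟩, 0, 0⟩ 0 0)))) (.pos 46 .mp ⟨⟨196944623, 0, 0, 0, 0, 26927368, 0, 0, 0, ⟨0, 0⟩, 0⟩, 0, 0⟩ 0 0)))) (.pos 38 .mp ⟨⟨207495457, 0, 0, 0, 0,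 0, 0, 0, 0, ⟨0, 0⟩, 0⟩, 0, 0⟩ 0 0))))))) (.pos 36 .mp ⟨⟨229126123, 0, 0, 0, 0, 0, 0, 0, 0, ⟨0, 0⟩, 0⟩, 0, 0⟩ 0 0))) (.void 34 ⟨⟨100000, 0, 0, 0, 0, 0, 0, 0, 0, ⟨0, 0⟩, 0⟩, 0, 0⟩ 0 0))) (.void 32 ⟨⟨100000, 0, 0, 0, 0, 0, 0, 0, 0, ⟨0, 0⟩, 0⟩, 0, 0⟩ 0 0))) (.void 30 ⟨⟨100000, 0, 0, 0, 0, 0, 0, 0, 0, ⟨0, 0⟩, 0⟩, 0, 0⟩ 0 0))) (.void 28 ⟨⟨100000, 0, 0, 0, 0, 0, 0, 0, 0, ⟨0, 0⟩, 0⟩, 0, 0⟩ 0 0))) (.void 26 ⟨⟨100000, 0, 0, 0, 0, 0, 0, 0, 0, ⟨0, 0⟩, 0⟩, 0, 0⟩ 0 0))) (.void 24 ⟨⟨100000, 0, 0, 0, 0, 0, 0, 0, 0, ⟨0, 0⟩, 0⟩, 0, 0⟩ 0 0)) (.void 97 ⟨⟨100000, 0, 0, 0, 0, 0, 0, 0, 0, ⟨0, 0⟩, 0⟩, 0, 0⟩ 0 0)) (.void 120 ⟨⟨100000, 0, 0, 0, 0, 0, 0,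 0, 0, ⟨0, 0⟩, 0⟩, 0, 0⟩ 0 0))) (.cut .v 16777216 (.cut .v 8388608 (.cut .v 4194304 (.cut .v 2097152 (.void 6 ⟨⟨0, 0, 66667, 0, 0, 0, 0, 0, 0, ⟨0, 0⟩, 0⟩, 0, 33333⟩ 0 0) (.pos 7 .pm ⟨⟨0, 0, 28148816, 0, 0, 0, 0, 0, 0, ⟨0, 0⟩, 0⟩, 0, 102779⟩ 0 0)) (.pos 5 .pm ⟨⟨0, 0, 2877036, 0, 0, 0, 0, 0, 0, ⟨0, 0⟩, 0⟩, 0, 0⟩ 0 0)) (.pos 3 .pm ⟨⟨0, 0, 0, 0, 0, 0, 0, 0, 0, ⟨0, 0⟩, 0⟩, 0, 0⟩ 0 0)) (.cut .v 67108864 (.cut .d 4548041 (.cut .d 2274020 (.cut .v 33554432 (.cut .v 25165824 (.cut .d 1137010 (.cut .d 568505 (.cut .v 20971520 (.cut .d 284252 (.cut .v 18874368 (.cut .s 11108352 (.pos 27 .pp ⟨⟨140119668, 0, 0, 0, 0, 0, 0, 0, 0, ⟨0, 0⟩, 0⟩,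 2859527, 0⟩ 0 0) (.pos 27 .pp ⟨⟨162586488, 0, 0, 0, 0, 0, 0, 0, 0, ⟨0, 0⟩, 0⟩, 2939918, 0⟩ 0 0)) (.pos 28 .pp ⟨⟨240859531, 0, 0, 0, 0, 0, 0, 0, 0, ⟨0, 0⟩, 0⟩, 0, 0⟩ 0 0)) (.pos 25 .pp ⟨⟨134176539, 0, 0, 0, 0, 0, 0, 0, 0, ⟨0, 0⟩, 0⟩, 0, 61936⟩ 0 0)) (.cut .d 284252 (.pos 26 .pp ⟨⟨389529973, 0, 0, 0, 0, 0, 0, 0, 0, ⟨0, 0⟩, 0⟩, 0, 0⟩ 0 0) (.pos 26 .pp ⟨⟨0, 0, 0, 0, 0, 0, 0, 0, 0, ⟨0, 0⟩, 0⟩, 23414318, 0⟩ 0 0))) (.pos 23 .pp ⟨⟨0, 0, 0, 0, 0, 0, 0, 0, 0, ⟨0, 0⟩, 0⟩, 14669243, 112442⟩ 0 0)) (.pos 23 .pp ⟨⟨0, 0, 0, 0, 0, 0, 0, 0, 0, ⟨0, 0⟩, 0⟩, 0, 409554⟩ 0 0)) (.cut .d 1137010 (.cut .d 568505 (.void 24 ⟨⟨0, 0, 0, 0, 0, 0, 0, 0, 0, ⟨0,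 0⟩, 0⟩, 100000, 0⟩ 0 0) (.pos 24 .pp ⟨⟨0, 0, 0, 0, 0, 0, 0, 0, 0, ⟨0, 0⟩, 0⟩, 28332556, 0⟩ 0 0)) (.pos 24 .pp ⟨⟨0, 0, 0, 0, 0, 0, 240063, 0, 0, ⟨0, 0⟩, 0⟩, 16733666, 0⟩ 0 0))) (.cut .d 1137010 (.void 97 ⟨⟨0, 0, 0, 0, 0, 0, 0, 0, 0, ⟨0, 0⟩, 0⟩, 100000, 0⟩ 0 0) (.pos 97 .pp ⟨⟨0, 0, 0, 0, 0, 0, 0, 0, 0, ⟨0, 0⟩, 0⟩, 48560271, 0⟩ 0 0))) (.cut .v 33554432 (.pos 22 .pp ⟨⟨0, 0, 0, 0, 0, 0, 0, 0, 0, ⟨0, 0⟩, 0⟩, 0, 455060⟩ 0 0) (.pos 97 .pp ⟨⟨0, 0, 0, 0, 0, 0, 0, 0, 0, ⟨0, 0⟩, 0⟩, 26206667, 0⟩ 0 0))) (.pos 96 .pp ⟨⟨0, 0, 0, 0, 0, 0, 0, 0, 0, ⟨0, 0⟩, 0⟩, 0, 341295⟩ 0 0)) (.void 120 ⟨⟨0, 92841, 0, 0, 0, 0, 0, 0, 0, ⟨0, 0⟩, 0⟩, 7159, 0⟩ 0 0)))),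
    by decide +kernel⟩

def covers16 : cell.Covers Vale.Agent.P237.Petty.Cor.Grid.N16.table row16.1 :=
  ⟨(.cut .d 0 (.cut .v 16777216 (.cut .d (-8388608) (.void 1 ⟨⟨0, 0, 0, 0, 0, 100000, 0, 0, 0, ⟨0, 0⟩, 0⟩, 0, 0⟩ 0 0) (.cut .d (-4194304) (.void 1 ⟨⟨0, 0, 0, 0, 0, 100000, 0, 0, 0, ⟨0, 0⟩, 0⟩, 0, 0⟩ 0 0) (.cut .d (-2097152) (.void 1 ⟨⟨0, 0, 0, 0, 0, 100000, 0, 0, 0, ⟨0, 0⟩, 0⟩, 0, 0⟩ 0 0) (.cut .d (-1048576) (.void 1 ⟨⟨0, 0, 0, 0, 0, 100000, 0, 0, 0, ⟨0, 0⟩, 0⟩, 0, 0⟩ 0 0) (.cut .d (-524288) (.void 1 ⟨⟨0, 0, 0, 0, 0, 100000, 0, 0, 0, ⟨0, 0⟩, 0⟩, 0, 0⟩ 0 0) (.cut .d (-262144) (.void 1 ⟨⟨0, 0, 0, 0, 0, 100000, 0, 0, 0, ⟨0, 0⟩, 0⟩,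 0, 0⟩ 0 0) (.cut .d (-131072) (.void 1 ⟨⟨0, 0, 0, 0, 0, 100000, 0, 0, 0, ⟨0, 0⟩, 0⟩, 0, 0⟩ 0 0) (.cut .d (-65536) (.void 1 ⟨⟨0, 0, 0, 0, 0, 100000, 0, 0, 0, ⟨0, 0⟩, 0⟩, 0, 0⟩ 0 0) (.cut .d (-32768) (.void 1 ⟨⟨0, 0, 0, 0, 0, 100000, 0, 0, 0, ⟨0, 0⟩, 0⟩, 0, 0⟩ 0 0) (.cut .d (-16384) (.void 1 ⟨⟨0, 0, 0, 0, 0, 100000, 0, 0, 0, ⟨0, 0⟩, 0⟩, 0, 0⟩ 0 0) (.cut .v 8388608 (.cut .v 4194304 (.void 4 ⟨⟨0, 0, 100000, 0, 0, 0, 0, 0, 0, ⟨0, 0⟩, 0⟩, 0, 0⟩ 0 0) (.pos 5 .mm ⟨⟨0, 0, 4283470, 0, 0, 128789346, 0, 0, 0, ⟨0, 0⟩, 0⟩, 0, 0⟩ 0 0)) (.cut .s 11534336 (.pos 3 .mm ⟨⟨0, 0, 0, 0, 0, 343474477, 0, 0, 0, ⟨0, 0⟩, 0⟩, 0, 0⟩ 0 0) (.cut .s 11632640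 (.pos 3 .mm ⟨⟨0, 0, 0, 0, 0, 379405024, 0, 0, 0, ⟨0, 0⟩, 0⟩, 0, 0⟩ 0 0) (.pos 3 .mm ⟨⟨0, 0, 0, 0, 0, 404287587, 0, 0, 0, ⟨0, 0⟩, 0⟩, 0, 0⟩ 0 0)))))))))))))) (.cut .v 268435456 (.cut .v 67108864 (.cut .v 33554432 (.cut .v 25165824 (.cut .d (-8388608) (.void 23 ⟨⟨100000, 0, 0, 0, 0, 0, 0, 0, 0, ⟨0, 0⟩, 0⟩, 0, 0⟩ 0 0) (.cut .v 20971520 (.cut .d (-4194304) (.void 25 ⟨⟨100000, 0, 0, 0, 0, 0, 0, 0, 0, ⟨0, 0⟩, 0⟩, 0, 0⟩ 0 0) (.cut .v 18874368 (.cut .d (-2097152) (.void 27 ⟨⟨100000, 0, 0, 0, 0, 0, 0, 0, 0, ⟨0, 0⟩, 0⟩, 0, 0⟩ 0 0) (.cut .d (-1048576) (.void 27 ⟨⟨100000, 0, 0, 0, 0, 0, 0, 0, 0, ⟨0, 0⟩, 0⟩, 0, 0⟩ 0 0) (.cut .v 17825792 (.cut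 .d (-524288) (.void 29 ⟨⟨100000, 0, 0, 0, 0, 0, 0, 0, 0, ⟨0, 0⟩, 0⟩, 0, 0⟩ 0 0) (.cut .d (-262144) (.void 29 ⟨⟨100000, 0, 0, 0, 0, 0, 0, 0, 0, ⟨0, 0⟩, 0⟩, 0, 0⟩ 0 0) (.cut .d (-131072) (.void 29 ⟨⟨100000, 0, 0, 0, 0, 0, 0, 0, 0, ⟨0, 0⟩, 0⟩, 0, 0⟩ 0 0) (.cut .d (-65536) (.void 29 ⟨⟨100000, 0, 0, 0, 0, 0, 0, 0, 0, ⟨0, 0⟩, 0⟩, 0, 0⟩ 0 0) (.cut .d (-32768) (.void 29 ⟨⟨100000, 0, 0, 0, 0, 0, 0, 0, 0, ⟨0, 0⟩, 0⟩, 0, 0⟩ 0 0) (.cut .d (-16384) (.void 29 ⟨⟨0, 0, 0, 0, 0, 100000, 0, 0, 0, ⟨0, 0⟩, 0⟩, 0, 0⟩ 0 0) (.cut .v 17301504 (.cut .v 17039360 (.cut .v 16908288 (.cut .s 11534336 (.cut .v 16842752 (.cut .s 11436032 (.cut .s 11386880 (.cut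 .v 16809984 (.cut .s 11362304 (.cut .s 11350016 (.pos 45 .mp ⟨⟨150772898, 0, 0, 0, 0, 100939374, 0, 0, 0, ⟨0, 0⟩, 0⟩, 0, 0⟩ 0 0) (.pos 45 .mp ⟨⟨150439791, 0, 0, 0, 0, 103815431, 0, 0, 0, ⟨0, 0⟩, 0⟩, 0, 0⟩ 0 0)) (.cut .d (-8192) (.pos 45 .mp ⟨⟨148251344, 0, 0, 0, 0, 113358700, 0, 0, 0, ⟨0, 0⟩, 0⟩, 0, 0⟩ 0 0) (.cut .s 11374592 (.pos 45 .mp ⟨⟨152444111, 0, 0, 0, 0, 102785120, 0, 0, 0, ⟨0, 0⟩, 0⟩, 0, 0⟩ 0 0) (.pos 45 .mp ⟨⟨153721441, 0, 0, 0, 0, 103101613, 0, 0, 0, ⟨0, 0⟩, 0⟩, 0, 0⟩ 0 0)))) (.pos 46 .mp ⟨⟨191450741, 0, 0, 0, 0, 45392688, 0, 0, 0, ⟨0, 0⟩, 0⟩, 0, 0⟩ 0 0)) (.cut .v 16809984 (.cut .s 11411456 (.cut .d (-8192) (.pos 45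 .mp ⟨⟨150426736, 0, 0, 0, 0, 114583631, 0, 0, 0, ⟨0, 0⟩, 0⟩, 0, 0⟩ 0 0) (.cut .s 11399168 (.pos 45 .mp ⟨⟨154841856, 0, 0, 0, 0, 103710057, 0, 0, 0, ⟨0, 0⟩, 0⟩, 0, 0⟩ 0 0) (.cut .s 11405312 (.pos 45 .mp ⟨⟨156214149, 0, 0, 0, 0, 103630159, 0, 0, 0, ⟨0, 0⟩, 0⟩, 0, 0⟩ 0 0) (.pos 45 .mp ⟨⟨156615595, 0, 0, 0, 0, 104191269, 0, 0, 0, ⟨0, 0⟩, 0⟩, 0, 0⟩ 0 0)))) (.cut .s 11423744 (.cut .s 11417600 (.pos 45 .mp ⟨⟨156116104, 0, 0, 0, 0, 106286781, 0, 0, 0, ⟨0, 0⟩, 0⟩, 0, 0⟩ 0 0) (.pos 45 .mp ⟨⟨156182050, 0, 0, 0, 0, 107434570, 0, 0, 0, ⟨0, 0⟩, 0⟩, 0, 0⟩ 0 0)) (.cut .s 11429888 (.pos 45 .mp ⟨⟨156267232, 0, 0, 0, 0, 108559129, 0, 0, 0, ⟨0, 0⟩,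 0⟩, 0, 0⟩ 0 0) (.pos 45 .mp ⟨⟨156472543, 0, 0, 0, 0, 109499576, 0, 0, 0, ⟨0, 0⟩, 0⟩, 0, 0⟩ 0 0)))) (.pos 46 .mp ⟨⟨194687215, 0, 0, 0, 0, 49671316, 0, 0, 0, ⟨0, 0⟩, 0⟩, 0, 0⟩ 0 0))) (.cut .s 11485184 (.cut .s 11460608 (.cut .v 16809984 (.cut .s 11448320 (.cut .d (-8192) (.pos 45 .mp ⟨⟨154868167, 0, 0, 0, 0, 115716648, 0, 0, 0, ⟨0, 0⟩, 0⟩, 0, 0⟩ 0 0) (.cut .s 11442176 (.pos 45 .mp ⟨⟨158725776, 0, 0, 0, 0, 106954934, 0, 0, 0, ⟨0, 0⟩, 0⟩, 0, 0⟩ 0 0) (.pos 45 .mp ⟨⟨159291055, 0, 0, 0, 0, 107307357, 0, 0, 0, ⟨0, 0⟩, 0⟩, 0, 0⟩ 0 0))) (.cut .d (-8192) (.pos 45 .mp ⟨⟨155997694, 0, 0, 0, 0, 116429890, 0, 0, 0, ⟨0, 0⟩, 0⟩, 0, 0⟩ 0 0) (.cut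 .s 11454464 (.pos 45 .mp ⟨⟨159967908, 0, 0, 0, 0, 107492901, 0, 0, 0, ⟨0, 0⟩, 0⟩, 0, 0⟩ 0 0) (.pos 45 .mp ⟨⟨160562883, 0, 0, 0, 0, 107823425, 0, 0, 0, ⟨0, 0⟩, 0⟩, 0, 0⟩ 0 0)))) (.pos 46 .mp ⟨⟨181534082, 0, 0, 0, 0, 75984822, 0, 0, 0, ⟨0, 0⟩, 0⟩, 0, 0⟩ 0 0)) (.cut .v 16809984 (.cut .s 11472896 (.cut .d (-8192) (.pos 45 .mp ⟨⟨157134990, 0, 0, 0, 0, 117165337, 0, 0, 0, ⟨0, 0⟩, 0⟩, 0, 0⟩ 0 0) (.cut .s 11466752 (.pos 45 .mp ⟨⟨161146043, 0, 0, 0, 0, 108181419, 0, 0, 0, ⟨0, 0⟩, 0⟩, 0, 0⟩ 0 0) (.pos 45 .mp ⟨⟨161731239, 0, 0, 0, 0, 108543649, 0, 0, 0, ⟨0, 0⟩, 0⟩, 0, 0⟩ 0 0))) (.cut .d (-8192) (.pos 45 .mp ⟨⟨158280103, 0, 0, 0, 0, 117923167,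 0, 0, 0, ⟨0, 0⟩, 0⟩, 0, 0⟩ 0 0) (.cut .s 11479040 (.pos 45 .mp ⟨⟨162318479, 0, 0, 0, 0, 108910117, 0, 0, 0, ⟨0, 0⟩, 0⟩, 0, 0⟩ 0 0) (.pos 45 .mp ⟨⟨162907768, 0, 0, 0, 0, 109280824, 0, 0, 0, ⟨0, 0⟩, 0⟩, 0, 0⟩ 0 0)))) (.pos 46 .mp ⟨⟨183365735, 0, 0, 0, 0, 78174023, 0, 0, 0, ⟨0, 0⟩, 0⟩, 0, 0⟩ 0 0))) (.cut .s 11509760 (.cut .v 16809984 (.cut .s 11497472 (.cut .d (-8192) (.pos 45 .mp ⟨⟨159433087, 0, 0, 0, 0, 118703558, 0, 0, 0, ⟨0, 0⟩, 0⟩, 0, 0⟩ 0 0) (.cut .s 11491328 (.pos 45 .mp ⟨⟨163499114, 0, 0, 0, 0, 109655771, 0, 0, 0, ⟨0, 0⟩, 0⟩, 0, 0⟩ 0 0) (.cut .s 11494400 (.pos 45 .mp ⟨⟨163823867, 0, 0, 0, 0, 110260759, 0, 0, 0, ⟨0, 0⟩, 0⟩,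 0, 0⟩ 0 0) (.pos 45 .mp ⟨⟨164081031, 0, 0, 0, 0, 110511312, 0, 0, 0, ⟨0, 0⟩, 0⟩, 0, 0⟩ 0 0)))) (.cut .d (-8192) (.pos 45 .mp ⟨⟨160593991, 0, 0, 0, 0, 119506691, 0, 0, 0, ⟨0, 0⟩, 0⟩, 0, 0⟩ 0 0) (.cut .l 115343 (.cut .d (-4096) (.pos 45 .mp ⟨⟨163103904, 0, 0, 0, 0, 114868601, 0, 0, 0, ⟨0, 0⟩, 0⟩, 0, 0⟩ 0 0) (.cut .s 11503616 (.pos 45 .mp ⟨⟨163606175, 0, 0, 0, 0, 112048441, 0, 0, 0, ⟨0, 0⟩, 0⟩, 0, 0⟩ 0 0) (.pos 45 .mp ⟨⟨164221369, 0, 0, 0, 0, 112402389, 0, 0, 0, ⟨0, 0⟩, 0⟩, 0, 0⟩ 0 0))) (.pos 45 .mp ⟨⟨163522607, 0, 0, 0, 0, 110913097, 0, 0, 0, ⟨0, 0⟩, 0⟩, 0, 0⟩ 0 0)))) (.pos 46 .mp ⟨⟨185452914, 0, 0, 0, 0, 80092133, 0, 0, 0, ⟨0, 0⟩,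 0⟩, 0, 0⟩ 0 0)) (.cut .v 16809984 (.cut .s 11522048 (.cut .d (-8192) (.pos 45 .mp ⟨⟨161762868, 0, 0, 0, 0, 120332751, 0, 0, 0, ⟨0, 0⟩, 0⟩, 0, 0⟩ 0 0) (.cut .l 115343 (.cut .d (-4096) (.pos 45 .mp ⟨⟨164174712, 0, 0, 0, 0, 115897533, 0, 0, 0, ⟨0, 0⟩, 0⟩, 0, 0⟩ 0 0) (.cut .s 11515904 (.pos 45 .mp ⟨⟨164836632, 0, 0, 0, 0, 112764241, 0, 0, 0, ⟨0, 0⟩, 0⟩, 0, 0⟩ 0 0) (.pos 45 .mp ⟨⟨165439540, 0, 0, 0, 0, 113156779, 0, 0, 0, ⟨0, 0⟩, 0⟩, 0, 0⟩ 0 0))) (.pos 45 .mp ⟨⟨164711732, 0, 0, 0, 0, 111745765, 0, 0, 0, ⟨0, 0⟩, 0⟩, 0, 0⟩ 0 0))) (.cut .d (-8192) (.pos 45 .mp ⟨⟨162939772, 0, 0, 0, 0, 121181920, 0, 0, 0, ⟨0, 0⟩, 0⟩, 0, 0⟩ 0 0) (.cut .l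 115343 (.cut .d (-4096) (.pos 45 .mp ⟨⟨165275189, 0, 0, 0, 0, 116904692, 0, 0, 0, ⟨0, 0⟩, 0⟩, 0, 0⟩ 0 0) (.cut .s 11528192 (.pos 45 .mp ⟨⟨166037394, 0, 0, 0, 0, 113566658, 0, 0, 0, ⟨0, 0⟩, 0⟩, 0, 0⟩ 0 0) (.pos 45 .mp ⟨⟨166637318, 0, 0, 0, 0, 113980843, 0, 0, 0, ⟨0, 0⟩, 0⟩, 0, 0⟩ 0 0))) (.pos 45 .mp ⟨⟨165909092, 0, 0, 0, 0, 112585703, 0, 0, 0, ⟨0, 0⟩, 0⟩, 0, 0⟩ 0 0)))) (.pos 46 .mp ⟨⟨187807460, 0, 0, 0, 0, 81720080, 0, 0, 0, ⟨0, 0⟩, 0⟩, 0, 0⟩ 0 0))))) (.pos 38 .mp ⟨⟨235088180, 0, 0, 0, 0, 0, 0, 0, 0, ⟨0, 0⟩, 0⟩, 0, 0⟩ 0 0)) (.cut .v 16842752 (.cut .s 11632640 (.cut .s 11583488 (.cut .s 11558912 (.cut .v 16809984 (.cut .s 11546624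 (.cut .d (-8192) (.pos 45 .mp ⟨⟨164124754, 0, 0, 0, 0, 122054385, 0, 0, 0, ⟨0, 0⟩, 0⟩, 0, 0⟩ 0 0) (.cut .l 115343 (.cut .v 16793600 (.cut .d (-4096) (.pos 57 .mp ⟨⟨164530110, 0, 0, 0, 0, 120976968, 0, 0, 0, ⟨0, 0⟩, 0⟩, 0, 0⟩ 0 0) (.cut .s 11540480 (.pos 57 .mp ⟨⟨166916451, 0, 0, 0, 0, 114896170, 0, 0, 0, ⟨0, 0⟩, 0⟩, 0, 0⟩ 0 0) (.pos 57 .mp ⟨⟨167519444, 0, 0, 0, 0, 115320847, 0, 0, 0, ⟨0, 0⟩, 0⟩, 0, 0⟩ 0 0))) (.pos 58 .mp ⟨⟨181727319, 0, 0, 0, 0, 94015151, 0, 0, 0, ⟨0, 0⟩, 0⟩, 0, 0⟩ 0 0)) (.pos 45 .mp ⟨⟨167114741, 0, 0, 0, 0, 113432729, 0, 0, 0, ⟨0, 0⟩, 0⟩, 0, 0⟩ 0 0))) (.cut .d (-8192) (.pos 45 .mp ⟨⟨165317868, 0, 0, 0, 0, 122950334,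 0, 0, 0, ⟨0, 0⟩, 0⟩, 0, 0⟩ 0 0) (.cut .l 115343 (.cut .v 16793600 (.cut .d (-4096) (.pos 57 .mp ⟨⟨165721478, 0, 0, 0, 0, 121871885, 0, 0, 0, ⟨0, 0⟩, 0⟩, 0, 0⟩ 0 0) (.cut .s 11552768 (.pos 57 .mp ⟨⟨168124524, 0, 0, 0, 0, 115749841, 0, 0, 0, ⟨0, 0⟩, 0⟩, 0, 0⟩ 0 0) (.pos 57 .mp ⟨⟨168731697, 0, 0, 0, 0, 116183152, 0, 0, 0, ⟨0, 0⟩, 0⟩, 0, 0⟩ 0 0))) (.pos 58 .mp ⟨⟨183002887, 0, 0, 0, 0, 94767472, 0, 0, 0, ⟨0, 0⟩, 0⟩, 0, 0⟩ 0 0)) (.pos 45 .mp ⟨⟨168328733, 0, 0, 0, 0, 114286660, 0, 0, 0, ⟨0, 0⟩, 0⟩, 0, 0⟩ 0 0)))) (.pos 46 .mp ⟨⟨190441381, 0, 0, 0, 0, 83038429, 0, 0, 0, ⟨0, 0⟩, 0⟩, 0, 0⟩ 0 0)) (.cut .v 16809984 (.cut .s 11571200 (.cut .d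 (-8192) (.pos 45 .mp ⟨⟨166519170, 0, 0, 0, 0, 123869956, 0, 0, 0, ⟨0, 0⟩, 0⟩, 0, 0⟩ 0 0) (.cut .l 115343 (.cut .v 16793600 (.cut .d (-4096) (.pos 57 .mp ⟨⟨166921037, 0, 0, 0, 0, 122790430, 0, 0, 0, ⟨0, 0⟩, 0⟩, 0, 0⟩ 0 0) (.cut .s 11565056 (.pos 57 .mp ⟨⟨169340972, 0, 0, 0, 0, 116620781, 0, 0, 0, ⟨0, 0⟩, 0⟩, 0, 0⟩ 0 0) (.pos 57 .mp ⟨⟨169952355, 0, 0, 0, 0, 117062730, 0, 0, 0, ⟨0, 0⟩, 0⟩, 0, 0⟩ 0 0))) (.pos 58 .mp ⟨⟨184351776, 0, 0, 0, 0, 95436901, 0, 0, 0, ⟨0, 0⟩, 0⟩, 0, 0⟩ 0 0)) (.pos 45 .mp ⟨⟨169551124, 0, 0, 0, 0, 115147315, 0, 0, 0, ⟨0, 0⟩, 0⟩, 0, 0⟩ 0 0))) (.cut .d (-8192) (.pos 45 .mp ⟨⟨167728712, 0, 0, 0, 0, 124813443, 0,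 0, 0, ⟨0, 0⟩, 0⟩, 0, 0⟩ 0 0) (.cut .l 115343 (.cut .v 16793600 (.cut .d (-4096) (.pos 57 .mp ⟨⟨168128842, 0, 0, 0, 0, 123732794, 0, 0, 0, ⟨0, 0⟩, 0⟩, 0, 0⟩ 0 0) (.cut .s 11577344 (.pos 57 .mp ⟨⟨170565853, 0, 0, 0, 0, 117509000, 0, 0, 0, ⟨0, 0⟩, 0⟩, 0, 0⟩ 0 0) (.pos 57 .mp ⟨⟨171181473, 0, 0, 0, 0, 117959590, 0, 0, 0, ⟨0, 0⟩, 0⟩, 0, 0⟩ 0 0))) (.pos 58 .mp ⟨⟨185775529, 0, 0, 0, 0, 96020917, 0, 0, 0, ⟨0, 0⟩, 0⟩, 0, 0⟩ 0 0)) (.pos 45 .mp ⟨⟨170781972, 0, 0, 0, 0, 116014509, 0, 0, 0, ⟨0, 0⟩, 0⟩, 0, 0⟩ 0 0)))) (.cut .s 11571200 (.pos 46 .mp ⟨⟨183205494, 0, 0, 0, 0, 97737595, 0, 0, 0, ⟨0, 0⟩, 0⟩, 0, 0⟩ 0 0) (.pos 46 .mp ⟨⟨184614035, 0,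 0, 0, 0, 98351575, 0, 0, 0, ⟨0, 0⟩, 0⟩, 0, 0⟩ 0 0)))) (.cut .s 11608064 (.cut .v 16809984 (.cut .s 11595776 (.cut .d (-8192) (.pos 45 .mp ⟨⟨168946551, 0, 0, 0, 0, 125780987, 0, 0, 0, ⟨0, 0⟩, 0⟩, 0, 0⟩ 0 0) (.cut .l 115343 (.cut .v 16793600 (.cut .d (-4096) (.pos 57 .mp ⟨⟨169344948, 0, 0, 0, 0, 124699171, 0, 0, 0, ⟨0, 0⟩, 0⟩, 0, 0⟩ 0 0) (.cut .s 11589632 (.pos 57 .mp ⟨⟨171799223, 0, 0, 0, 0, 118414504, 0, 0, 0, ⟨0, 0⟩, 0⟩, 0, 0⟩ 0 0) (.pos 57 .mp ⟨⟨172419109, 0, 0, 0, 0, 118873740, 0, 0, 0, ⟨0, 0⟩, 0⟩, 0, 0⟩ 0 0))) (.pos 58 .mp ⟨⟨187275699, 0, 0, 0, 0, 96516976, 0, 0, 0, ⟨0, 0⟩, 0⟩, 0, 0⟩ 0 0)) (.pos 45 .mp ⟨⟨172021331, 0, 0, 0,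 0, 116888057, 0, 0, 0, ⟨0, 0⟩, 0⟩, 0, 0⟩ 0 0))) (.cut .d (-8192) (.pos 45 .mp ⟨⟨170172742, 0, 0, 0, 0, 126772784, 0, 0, 0, ⟨0, 0⟩, 0⟩, 0, 0⟩ 0 0) (.cut .l 115343 (.cut .d (-4096) (.pos 45 .mp ⟨⟨172530972, 0, 0, 0, 0, 122437855, 0, 0, 0, ⟨0, 0⟩, 0⟩, 0, 0⟩ 0 0) (.cut .s 11601920 (.pos 45 .mp ⟨⟨173375100, 0, 0, 0, 0, 118821371, 0, 0, 0, ⟨0, 0⟩, 0⟩, 0, 0⟩ 0 0) (.pos 45 .mp ⟨⟨174000410, 0, 0, 0, 0, 119287308, 0, 0, 0, ⟨0, 0⟩, 0⟩, 0, 0⟩ 0 0))) (.pos 45 .mp ⟨⟨173269260, 0, 0, 0, 0, 117767776, 0, 0, 0, ⟨0, 0⟩, 0⟩, 0, 0⟩ 0 0)))) (.pos 46 .mp ⟨⟨196596246, 0, 0, 0, 0, 84666710, 0, 0, 0, ⟨0, 0⟩, 0⟩, 0, 0⟩ 0 0)) (.cut .v 16809984 (.cut .s 11620352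 (.cut .d (-8192) (.pos 45 .mp ⟨⟨171407340, 0, 0, 0, 0, 127789029, 0, 0, 0, ⟨0, 0⟩, 0⟩, 0, 0⟩ 0 0) (.cut .l 115343 (.cut .d (-4096) (.pos 45 .mp ⟨⟨173854128, 0, 0, 0, 0, 123266182, 0, 0, 0, ⟨0, 0⟩, 0⟩, 0, 0⟩ 0 0) (.cut .s 11614208 (.pos 45 .mp ⟨⟨174627882, 0, 0, 0, 0, 119757563, 0, 0, 0, ⟨0, 0⟩, 0⟩, 0, 0⟩ 0 0) (.pos 45 .mp ⟨⟨175257524, 0, 0, 0, 0, 120232138, 0, 0, 0, ⟨0, 0⟩, 0⟩, 0, 0⟩ 0 0))) (.pos 45 .mp ⟨⟨174525816, 0, 0, 0, 0, 118653477, 0, 0, 0, ⟨0, 0⟩, 0⟩, 0, 0⟩ 0 0))) (.cut .d (-8192) (.pos 45 .mp ⟨⟨172650404, 0, 0, 0, 0, 128829921, 0, 0, 0, ⟨0, 0⟩, 0⟩, 0, 0⟩ 0 0) (.cut .l 115343 (.cut .d (-4096) (.pos 45 .mp ⟨⟨175211273, 0,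 0, 0, 0, 124065104, 0, 0, 0, ⟨0, 0⟩, 0⟩, 0, 0⟩ 0 0) (.cut .s 11626496 (.pos 45 .mp ⟨⟨175889341, 0, 0, 0, 0, 120711032, 0, 0, 0, ⟨0, 0⟩, 0⟩, 0, 0⟩ 0 0) (.pos 45 .mp ⟨⟨176505363, 0, 0, 0, 0, 121227360, 0, 0, 0, ⟨0, 0⟩, 0⟩, 0, 0⟩ 0 0))) (.pos 45 .mp ⟨⟨175791058, 0, 0, 0, 0, 119544975, 0, 0, 0, ⟨0, 0⟩, 0⟩, 0, 0⟩ 0 0)))) (.pos 46 .mp ⟨⟨200142088, 0, 0, 0, 0, 84935862, 0, 0, 0, ⟨0, 0⟩, 0⟩, 0, 0⟩ 0 0)))) (.cut .s 11681792 (.cut .s 11657216 (.cut .v 16809984 (.cut .s 11644928 (.cut .d (-8192) (.pos 45 .mp ⟨⟨173901991, 0, 0, 0, 0, 129895661, 0, 0, 0, ⟨0, 0⟩, 0⟩, 0, 0⟩ 0 0) (.cut .l 115343 (.cut .d (-4096) (.pos 45 .mp ⟨⟨176602960, 0, 0,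 0, 0, 124833635, 0, 0, 0, ⟨0, 0⟩, 0⟩, 0, 0⟩ 0 0) (.cut .s 11638784 (.pos 45 .mp ⟨⟨177116502, 0, 0, 0, 0, 121761059, 0, 0, 0, ⟨0, 0⟩, 0⟩, 0, 0⟩ 0 0) (.pos 45 .mp ⟨⟨177727144, 0, 0, 0, 0, 122304073, 0, 0, 0, ⟨0, 0⟩, 0⟩, 0, 0⟩ 0 0))) (.pos 45 .mp ⟨⟨177065044, 0, 0, 0, 0, 120442082, 0, 0, 0, ⟨0, 0⟩, 0⟩, 0, 0⟩ 0 0))) (.cut .d (-8192) (.pos 45 .mp ⟨⟨175162157, 0, 0, 0, 0, 130986450, 0, 0, 0, ⟨0, 0⟩, 0⟩, 0, 0⟩ 0 0) (.cut .s 11651072 (.cut .s 11648000 (.pos 45 .mp ⟨⟨179375262, 0, 0, 0, 0, 121057021, 0, 0, 0, ⟨0, 0⟩, 0⟩, 0, 0⟩ 0 0) (.pos 45 .mp ⟨⟨179747582, 0, 0, 0, 0, 121229009, 0, 0, 0, ⟨0, 0⟩, 0⟩, 0, 0⟩ 0 0)) (.pos 45 .mp ⟨⟨180268206,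 0, 0, 0, 0, 121386072, 0, 0, 0, ⟨0, 0⟩, 0⟩, 0, 0⟩ 0 0)))) (.pos 46 .mp ⟨⟨204017112, 0, 0, 0, 0, 84813835, 0, 0, 0, ⟨0, 0⟩, 0⟩, 0, 0⟩ 0 0)) (.cut .v 16809984 (.cut .s 11669504 (.cut .d (-8192) (.pos 45 .mp ⟨⟨176430962, 0, 0, 0, 0, 132102491, 0, 0, 0, ⟨0, 0⟩, 0⟩, 0, 0⟩ 0 0) (.cut .s 11663360 (.pos 45 .mp ⟨⟨180919989, 0, 0, 0, 0, 121880132, 0, 0, 0, ⟨0, 0⟩, 0⟩, 0, 0⟩ 0 0) (.pos 45 .mp ⟨⟨181574038, 0, 0, 0, 0, 122378453, 0, 0, 0, ⟨0, 0⟩, 0⟩, 0, 0⟩ 0 0))) (.cut .d (-8192) (.pos 45 .mp ⟨⟨177708464, 0, 0, 0, 0, 133243992, 0, 0, 0, ⟨0, 0⟩, 0⟩, 0, 0⟩ 0 0) (.cut .s 11675648 (.pos 45 .mp ⟨⟨182230359, 0, 0, 0, 0, 122881035, 0, 0, 0, ⟨0, 0⟩,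 0⟩, 0, 0⟩ 0 0) (.pos 45 .mp ⟨⟨182888961, 0, 0, 0, 0, 123387878, 0, 0, 0, ⟨0, 0⟩, 0⟩, 0, 0⟩ 0 0)))) (.pos 46 .mp ⟨⟨208234241, 0, 0, 0, 0, 84279222, 0, 0, 0, ⟨0, 0⟩, 0⟩, 0, 0⟩ 0 0))) (.cut .s 11706368 (.cut .v 16809984 (.cut .s 11694080 (.cut .d (-8192) (.pos 45 .mp ⟨⟨178994724, 0, 0, 0, 0, 134411160, 0, 0, 0, ⟨0, 0⟩, 0⟩, 0, 0⟩ 0 0) (.cut .s 11687936 (.pos 45 .mp ⟨⟨183549852, 0, 0, 0, 0, 123898982, 0, 0, 0, ⟨0, 0⟩, 0⟩, 0, 0⟩ 0 0) (.pos 45 .mp ⟨⟨184213040, 0, 0, 0, 0, 124414346, 0, 0, 0, ⟨0, 0⟩, 0⟩, 0, 0⟩ 0 0))) (.cut .s 11700224 (.cut .s 11697152 (.pos 45 .mp ⟨⟨185194552, 0, 0, 0, 0, 124345341, 0, 0, 0, ⟨0, 0⟩, 0⟩, 0, 0⟩ 0 0) (.pos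 45 .mp ⟨⟨185759426, 0, 0, 0, 0, 124224664, 0, 0, 0, ⟨0, 0⟩, 0⟩, 0, 0⟩ 0 0)) (.pos 45 .mp ⟨⟨183103392, 0, 0, 0, 0, 129732912, 0, 0, 0, ⟨0, 0⟩, 0⟩, 0, 0⟩ 0 0))) (.pos 46 .mp ⟨⟨212806597, 0, 0, 0, 0, 83310192, 0, 0, 0, ⟨0, 0⟩, 0⟩, 0, 0⟩ 0 0)) (.cut .v 16809984 (.cut .d (-8192) (.pos 45 .mp ⟨⟨181593756, 0, 0, 0, 0, 138825189, 0, 0, 0, ⟨0, 0⟩, 0⟩, 0, 0⟩ 0 0) (.cut .l 115343 (.cut .v 16793600 (.cut .d (-4096) (.pos 57 .mp ⟨⟨181975095, 0, 0, 0, 0, 137725171, 0, 0, 0, ⟨0, 0⟩, 0⟩, 0, 0⟩ 0 0) (.cut .l 57671 (.cut .d (-2048) (.pos 57 .mp ⟨⟨185364293, 0, 0, 0, 0, 131328382, 0, 0, 0, ⟨0, 0⟩, 0⟩, 0, 0⟩ 0 0) (.cut .s 11718656 (.pos 57 .mp ⟨⟨184649508,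 0, 0, 0, 0, 128859213, 0, 0, 0, ⟨0, 0⟩, 0⟩, 0, 0⟩ 0 0) (.pos 57 .mp ⟨⟨185916118, 0, 0, 0, 0, 130077157, 0, 0, 0, ⟨0, 0⟩, 0⟩, 0, 0⟩ 0 0))) (.pos 57 .mp ⟨⟨185559981, 0, 0, 0, 0, 124857157, 0, 0, 0, ⟨0, 0⟩, 0⟩, 0, 0⟩ 0 0))) (.pos 58 .mp ⟨⟨219090478, 0, 0, 0, 0, 79185847, 0, 0, 0, ⟨0, 0⟩, 0⟩, 0, 0⟩ 0 0)) (.pos 45 .mp ⟨⟨186188351, 0, 0, 0, 0, 124139093, 0, 0, 0, ⟨0, 0⟩, 0⟩, 0, 0⟩ 0 0))) (.pos 46 .mp ⟨⟨217747510, 0, 0, 0, 0, 81884474, 0, 0, 0, ⟨0, 0⟩, 0⟩, 0, 0⟩ 0 0))))) (.pos 38 .mp ⟨⟨262632191, 0, 0, 0, 0, 0, 0, 0, 0, ⟨0, 0⟩, 0⟩, 0, 0⟩ 0 0))) (.pos 36 .mp ⟨⟨260493153, 0, 0, 0, 0, 0, 0, 0, 0, ⟨0, 0⟩, 0⟩, 0, 0⟩ 0 0)) (.void 34 ⟨⟨100000,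 0, 0, 0, 0, 0, 0, 0, 0, ⟨0, 0⟩, 0⟩, 0, 0⟩ 0 0)) (.void 32 ⟨⟨100000, 0, 0, 0, 0, 0, 0, 0, 0, ⟨0, 0⟩, 0⟩, 0, 0⟩ 0 0)))))))) (.void 30 ⟨⟨100000, 0, 0, 0, 0, 0, 0, 0, 0, ⟨0, 0⟩, 0⟩, 0, 0⟩ 0 0)))) (.void 28 ⟨⟨100000, 0, 0, 0, 0, 0, 0, 0, 0, ⟨0, 0⟩, 0⟩, 0, 0⟩ 0 0))) (.void 26 ⟨⟨100000, 0, 0, 0, 0, 0, 0, 0, 0, ⟨0, 0⟩, 0⟩, 0, 0⟩ 0 0))) (.void 24 ⟨⟨100000, 0, 0, 0, 0, 0, 0, 0, 0, ⟨0, 0⟩, 0⟩, 0, 0⟩ 0 0)) (.void 97 ⟨⟨100000, 0, 0, 0, 0, 0, 0, 0, 0, ⟨0, 0⟩, 0⟩, 0, 0⟩ 0 0)) (.void 120 ⟨⟨100000, 0, 0, 0, 0, 0, 0, 0, 0, ⟨0, 0⟩, 0⟩, 0, 0⟩ 0 0)) (.void 125 ⟨⟨96227, 0, 0, 3841, 0, 0, 1330, 0, 0, ⟨0, 0⟩, 0⟩, 0, 0⟩ 0 0))) (.cut .v 16777216 (.cut .v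 8388608 (.cut .v 4194304 (.cut .v 2097152 (.cut .v 1048576 (.pos 126 .pm ⟨⟨0, 0, 34421532, 0, 0, 0, 0, 0, 48327679, ⟨0, 0⟩, 1983364⟩, 0, 0⟩ 0 0) (.pos 127 .pm ⟨⟨0, 0, 23192968, 0, 0, 0, 0, 0, 0, ⟨0, 0⟩, 0⟩, 0, 42366⟩ 0 0)) (.pos 7 .pm ⟨⟨0, 0, 26742257, 0, 0, 0, 0, 0, 0, ⟨0, 0⟩, 0⟩, 0, 76259⟩ 0 0)) (.pos 5 .pm ⟨⟨0, 0, 4209539, 0, 0, 0, 0, 0, 0, ⟨0, 0⟩, 0⟩, 0, 0⟩ 0 0)) (.pos 3 .pm ⟨⟨0, 0, 0, 0, 0, 0, 0, 0, 0, ⟨0, 0⟩, 0⟩, 0, 0⟩ 0 0)) (.cut .v 268435456 (.cut .v 67108864 (.cut .d 4024593 (.cut .d 2012296 (.cut .v 33554432 (.cut .d 1006148 (.cut .v 25165824 (.cut .d 503074 (.cut .v 20971520 (.cut .d 251537 (.cut .v 18874368 (.cut .s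 11534336 (.pos 27 .pp ⟨⟨160791285, 0, 0, 0, 0, 0, 0, 0, 0, ⟨0, 0⟩, 0⟩, 5893751, 0⟩ 0 0) (.pos 27 .pp ⟨⟨180943328, 0, 0, 0, 0, 0, 0, 0, 0, ⟨0, 0⟩, 0⟩, 6457888, 0⟩ 0 0)) (.pos 28 .pp ⟨⟨303814438, 0, 0, 0, 0, 0, 0, 0, 0, ⟨0, 0⟩, 0⟩, 0, 0⟩ 0 0)) (.pos 25 .pp ⟨⟨170985775, 0, 0, 0, 0, 0, 0, 0, 0, ⟨0, 0⟩, 0⟩, 0, 51289⟩ 0 0)) (.pos 26 .pp ⟨⟨0, 0, 0, 0, 0, 0, 0, 0, 0, ⟨0, 0⟩, 0⟩, 36191656, 0⟩ 0 0)) (.pos 23 .pp ⟨⟨0, 0, 0, 0, 0, 0, 0, 0, 0, ⟨0, 0⟩, 0⟩, 17921105, 95410⟩ 0 0)) (.pos 24 .pp ⟨⟨0, 0, 0, 0, 0, 0, 0, 0, 0, ⟨0, 0⟩, 0⟩, 47626913, 0⟩ 0 0)) (.pos 22 .pp ⟨⟨0, 0, 0, 0, 0, 0, 0, 0, 0, ⟨0, 0⟩, 0⟩, 19989194, 76780⟩ 0 0)) (.cut .d 1006148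 (.void 97 ⟨⟨0, 0, 0, 0, 0, 0, 0, 0, 0, ⟨0, 0⟩, 0⟩, 100000, 0⟩ 0 0) (.pos 97 .pp ⟨⟨0, 0, 0, 0, 0, 0, 0, 0, 0, ⟨0, 0⟩, 0⟩, 57930029, 0⟩ 0 0))) (.pos 96 .pp ⟨⟨0, 0, 0, 0, 0, 0, 0, 0, 0, ⟨0, 0⟩, 0⟩, 16600946, 107302⟩ 0 0)) (.pos 96 .pp ⟨⟨0, 0, 0, 0, 0, 0, 0, 0, 0, ⟨0, 0⟩, 0⟩, 0, 256843⟩ 0 0)) (.void 120 ⟨⟨0, 93015, 0, 0, 0, 0, 0, 0, 0, ⟨0, 0⟩, 0⟩, 6985, 0⟩ 0 0)) (.void 125 ⟨⟨0, 0, 0, 0, 0, 0, 0, 0, 0, ⟨0, 0⟩, 0⟩, 100000, 0⟩ 0 0)))),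
    by decide +kernel⟩

def covers17 : cell.Covers Vale.Agent.P237.Petty.Cor.Grid.N16.table row17.1 :=
  ⟨(.cut .d 0 (.cut .v 16777216 (.cut .d (-8388608) (.void 1 ⟨⟨0, 0, 0, 0, 0, 100000, 0, 0, 0, ⟨0, 0⟩, 0⟩, 0, 0⟩ 0 0) (.cut .d (-4194304) (.void 1 ⟨⟨0, 0, 0, 0, 0, 100000, 0, 0, 0, ⟨0, 0⟩, 0⟩, 0, 0⟩ 0 0) (.cut .d (-2097152) (.void 1 ⟨⟨0, 0, 0, 0, 0, 100000, 0, 0, 0, ⟨0, 0⟩, 0⟩, 0, 0⟩ 0 0) (.cut .d (-1048576) (.void 1 ⟨⟨0, 0, 0, 0, 0, 100000, 0, 0, 0, ⟨0, 0⟩, 0⟩, 0, 0⟩ 0 0) (.cut .d (-524288) (.void 1 ⟨⟨0, 0, 0, 0, 0, 100000, 0, 0, 0, ⟨0, 0⟩, 0⟩, 0, 0⟩ 0 0) (.cut .d (-262144) (.void 1 ⟨⟨0, 0, 0, 0, 0, 100000, 0, 0, 0, ⟨0, 0⟩, 0⟩,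 0, 0⟩ 0 0) (.cut .d (-131072) (.void 1 ⟨⟨0, 0, 0, 0, 0, 100000, 0, 0, 0, ⟨0, 0⟩, 0⟩, 0, 0⟩ 0 0) (.cut .d (-65536) (.void 1 ⟨⟨0, 0, 0, 0, 0, 100000, 0, 0, 0, ⟨0, 0⟩, 0⟩, 0, 0⟩ 0 0) (.cut .d (-32768) (.void 1 ⟨⟨0, 0, 0, 0, 0, 100000, 0, 0, 0, ⟨0, 0⟩, 0⟩, 0, 0⟩ 0 0) (.cut .d (-16384) (.void 1 ⟨⟨0, 0, 0, 0, 0, 100000, 0, 0, 0, ⟨0, 0⟩, 0⟩, 0, 0⟩ 0 0) (.cut .v 8388608 (.cut .v 4194304 (.void 4 ⟨⟨0, 0, 100000, 0, 0, 0, 0, 0, 0, ⟨0, 0⟩, 0⟩, 0, 0⟩ 0 0) (.pos 5 .mm ⟨⟨0, 0, 5758664, 0, 0, 163954202, 0, 0, 0, ⟨0, 0⟩, 0⟩, 0, 0⟩ 0 0)) (.cut .s 11862016 (.pos 3 .mm ⟨⟨0, 0, 0, 0, 0, 434860857, 0, 0, 0, ⟨0, 0⟩, 0⟩, 0, 0⟩ 0 0) (.pos 3 .mm ⟨⟨0, 0,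 0, 0, 0, 472113947, 0, 0, 0, ⟨0, 0⟩, 0⟩, 0, 0⟩ 0 0))))))))))))) (.cut .v 268435456 (.cut .v 67108864 (.cut .v 33554432 (.cut .v 25165824 (.cut .d (-8388608) (.void 23 ⟨⟨100000, 0, 0, 0, 0, 0, 0, 0, 0, ⟨0, 0⟩, 0⟩, 0, 0⟩ 0 0) (.cut .v 20971520 (.cut .d (-4194304) (.void 25 ⟨⟨100000, 0, 0, 0, 0, 0, 0, 0, 0, ⟨0, 0⟩, 0⟩, 0, 0⟩ 0 0) (.cut .d (-2097152) (.void 25 ⟨⟨100000, 0, 0, 0, 0, 0, 0, 0, 0, ⟨0, 0⟩, 0⟩, 0, 0⟩ 0 0) (.cut .v 18874368 (.cut .d (-1048576) (.void 27 ⟨⟨100000, 0, 0, 0, 0, 0, 0, 0, 0, ⟨0, 0⟩, 0⟩, 0, 0⟩ 0 0) (.cut .v 17825792 (.cut .d (-524288) (.void 29 ⟨⟨100000, 0, 0, 0, 0, 0, 0, 0, 0, ⟨0, 0⟩, 0⟩, 0, 0⟩ 0 0) (.cut .d (-262144)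 (.void 29 ⟨⟨100000, 0, 0, 0, 0, 0, 0, 0, 0, ⟨0, 0⟩, 0⟩, 0, 0⟩ 0 0) (.cut .d (-131072) (.void 29 ⟨⟨100000, 0, 0, 0, 0, 0, 0, 0, 0, ⟨0, 0⟩, 0⟩, 0, 0⟩ 0 0) (.cut .d (-65536) (.void 29 ⟨⟨100000, 0, 0, 0, 0, 0, 0, 0, 0, ⟨0, 0⟩, 0⟩, 0, 0⟩ 0 0) (.cut .d (-32768) (.void 29 ⟨⟨100000, 0, 0, 0, 0, 0, 0, 0, 0, ⟨0, 0⟩, 0⟩, 0, 0⟩ 0 0) (.cut .d (-16384) (.void 29 ⟨⟨0, 0, 0, 0, 0, 100000, 0, 0, 0, ⟨0, 0⟩, 0⟩, 0, 0⟩ 0 0) (.cut .v 17301504 (.cut .v 17039360 (.cut .v 16908288 (.cut .s 11862016 (.cut .v 16842752 (.cut .s 11796480 (.cut .s 11763712 (.cut .v 16809984 (.cut .s 11747328 (.cut .s 11739136 (.pos 45 .mp ⟨⟨186824363, 0, 0, 0, 0, 132053257,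 0, 0, 0, ⟨0, 0⟩, 0⟩, 0, 0⟩ 0 0) (.cut .s 11743232 (.pos 45 .mp ⟨⟨191653839, 0, 0, 0, 0, 125690878, 0, 0, 0, ⟨0, 0⟩, 0⟩, 0, 0⟩ 0 0) (.pos 45 .mp ⟨⟨191704374, 0, 0, 0, 0, 126632091, 0, 0, 0, ⟨0, 0⟩, 0⟩, 0, 0⟩ 0 0))) (.cut .d (-8192) (.pos 45 .mp ⟨⟨186008222, 0, 0, 0, 0, 141150751, 0, 0, 0, ⟨0, 0⟩, 0⟩, 0, 0⟩ 0 0) (.cut .s 11755520 (.pos 45 .mp ⟨⟨190971236, 0, 0, 0, 0, 129045244, 0, 0, 0, ⟨0, 0⟩, 0⟩, 0, 0⟩ 0 0) (.pos 45 .mp ⟨⟨191890959, 0, 0, 0, 0, 129594758, 0, 0, 0, ⟨0, 0⟩, 0⟩, 0, 0⟩ 0 0)))) (.pos 46 .mp ⟨⟨222306385, 0, 0, 0, 0, 82294431, 0, 0, 0, ⟨0, 0⟩, 0⟩, 0, 0⟩ 0 0)) (.cut .v 16809984 (.cut .s 11780096 (.cut .d (-8192) (.pos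 45 .mp ⟨⟨187807590, 0, 0, 0, 0, 142284627, 0, 0, 0, ⟨0, 0⟩, 0⟩, 0, 0⟩ 0 0) (.cut .s 11771904 (.pos 45 .mp ⟨⟨192815032, 0, 0, 0, 0, 130153987, 0, 0, 0, ⟨0, 0⟩, 0⟩, 0, 0⟩ 0 0) (.pos 45 .mp ⟨⟨193743477, 0, 0, 0, 0, 130722934, 0, 0, 0, ⟨0, 0⟩, 0⟩, 0, 0⟩ 0 0))) (.cut .d (-8192) (.pos 45 .mp ⟨⟨189623690, 0, 0, 0, 0, 143470519, 0, 0, 0, ⟨0, 0⟩, 0⟩, 0, 0⟩ 0 0) (.cut .l 115343 (.cut .d (-4096) (.pos 45 .mp ⟨⟨193183130, 0, 0, 0, 0, 136659961, 0, 0, 0, ⟨0, 0⟩, 0⟩, 0, 0⟩ 0 0) (.cut .s 11788288 (.pos 45 .mp ⟨⟨193266642, 0, 0, 0, 0, 133459988, 0, 0, 0, ⟨0, 0⟩, 0⟩, 0, 0⟩ 0 0) (.pos 45 .mp ⟨⟨194262576, 0, 0, 0, 0, 133936986, 0, 0, 0, ⟨0, 0⟩, 0⟩,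 0, 0⟩ 0 0))) (.pos 45 .mp ⟨⟨193533225, 0, 0, 0, 0, 131532772, 0, 0, 0, ⟨0, 0⟩, 0⟩, 0, 0⟩ 0 0)))) (.cut .s 11780096 (.pos 46 .mp ⟨⟨212165230, 0, 0, 0, 0, 103210076, 0, 0, 0, ⟨0, 0⟩, 0⟩, 0, 0⟩ 0 0) (.pos 46 .mp ⟨⟨213384250, 0, 0, 0, 0, 105379588, 0, 0, 0, ⟨0, 0⟩, 0⟩, 0, 0⟩ 0 0)))) (.cut .s 11829248 (.cut .s 11812864 (.cut .v 16809984 (.cut .d (-8192) (.pos 45 .mp ⟨⟨191456680, 0, 0, 0, 0, 144709013, 0, 0, 0, ⟨0, 0⟩, 0⟩, 0, 0⟩ 0 0) (.cut .l 115343 (.cut .d (-4096) (.pos 45 .mp ⟨⟨194735054, 0, 0, 0, 0, 138493041, 0, 0, 0, ⟨0, 0⟩, 0⟩, 0, 0⟩ 0 0) (.cut .s 11804672 (.pos 45 .mp ⟨⟨195195506, 0, 0, 0, 0, 134548764, 0, 0, 0, ⟨0, 0⟩, 0⟩, 0,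 0⟩ 0 0) (.pos 45 .mp ⟨⟨196131290, 0, 0, 0, 0, 135173228, 0, 0, 0, ⟨0, 0⟩, 0⟩, 0, 0⟩ 0 0))) (.pos 45 .mp ⟨⟨195402135, 0, 0, 0, 0, 132853371, 0, 0, 0, ⟨0, 0⟩, 0⟩, 0, 0⟩ 0 0))) (.pos 46 .mp ⟨⟨214751961, 0, 0, 0, 0, 107385426, 0, 0, 0, ⟨0, 0⟩, 0⟩, 0, 0⟩ 0 0)) (.cut .v 16809984 (.cut .d (-8192) (.pos 45 .mp ⟨⟨193306717, 0, 0, 0, 0, 146000702, 0, 0, 0, ⟨0, 0⟩, 0⟩, 0, 0⟩ 0 0) (.cut .l 115343 (.cut .d (-4096) (.pos 45 .mp ⟨⟨196352029, 0, 0, 0, 0, 140278276, 0, 0, 0, ⟨0, 0⟩, 0⟩, 0, 0⟩ 0 0) (.cut .v 16793600 (.cut .s 11821056 (.pos 57 .mp ⟨⟨196694747, 0, 0, 0, 0, 136397618, 0, 0, 0, ⟨0, 0⟩, 0⟩, 0, 0⟩ 0 0) (.cut .s 11825152 (.pos 57 .mp ⟨⟨198454523,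 0, 0, 0, 0, 135450715, 0, 0, 0, ⟨0, 0⟩, 0⟩, 0, 0⟩ 0 0) (.pos 57 .mp ⟨⟨198865986, 0, 0, 0, 0, 135869848, 0, 0, 0, ⟨0, 0⟩, 0⟩, 0, 0⟩ 0 0))) (.pos 58 .mp ⟨⟨280761391, 0, 0, 0, 0, 0, 0, 0, 0, ⟨0, 0⟩, 0⟩, 0, 0⟩ 0 0))) (.pos 45 .mp ⟨⟨197288599, 0, 0, 0, 0, 134191668, 0, 0, 0, ⟨0, 0⟩, 0⟩, 0, 0⟩ 0 0))) (.pos 46 .mp ⟨⟨216273022, 0, 0, 0, 0, 109219946, 0, 0, 0, ⟨0, 0⟩, 0⟩, 0, 0⟩ 0 0))) (.cut .d (-8192) (.cut .d (-12288) (.pos 37 .mp ⟨⟨198193161, 0, 0, 0, 0, 149413014, 0, 0, 0, ⟨0, 0⟩, 0⟩, 0, 0⟩ 0 0) (.cut .v 16809984 (.cut .s 11845632 (.pos 45 .mp ⟨⟨195173964, 0, 0, 0, 0, 147346187, 0, 0, 0, ⟨0, 0⟩, 0⟩, 0, 0⟩ 0 0) (.pos 45 .mp ⟨⟨197058582,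 0, 0, 0, 0, 148746076, 0, 0, 0, ⟨0, 0⟩, 0⟩, 0, 0⟩ 0 0)) (.pos 46 .mp ⟨⟨236519477, 0, 0, 0, 0, 84030632, 0, 0, 0, ⟨0, 0⟩, 0⟩, 0, 0⟩ 0 0))) (.cut .v 16809984 (.cut .l 115343 (.cut .s 11845632 (.cut .d (-4096) (.pos 45 .mp ⟨⟨198035685, 0, 0, 0, 0, 142012777, 0, 0, 0, ⟨0, 0⟩, 0⟩, 0, 0⟩ 0 0) (.cut .v 16793600 (.cut .l 57671 (.cut .d (-2048) (.pos 57 .mp ⟨⟨198444990, 0, 0, 0, 0, 140625777, 0, 0, 0, ⟨0, 0⟩, 0⟩, 0, 0⟩ 0 0) (.cut .s 11837440 (.pos 57 .mp ⟨⟨197861458, 0, 0, 0, 0, 138808298, 0, 0, 0, ⟨0, 0⟩, 0⟩, 0, 0⟩ 0 0) (.pos 57 .mp ⟨⟨198831419, 0, 0, 0, 0, 139440099, 0, 0, 0, ⟨0, 0⟩, 0⟩, 0, 0⟩ 0 0))) (.pos 57 .mp ⟨⟨198468546, 0, 0, 0,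 0, 136386659, 0, 0, 0, ⟨0, 0⟩, 0⟩, 0, 0⟩ 0 0)) (.pos 58 .mp ⟨⟨283333195, 0, 0, 0, 0, 0, 0, 0, 0, ⟨0, 0⟩, 0⟩, 0, 0⟩ 0 0))) (.cut .v 16793600 (.cut .d (-4096) (.pos 57 .mp ⟨⟨197401339, 0, 0, 0, 0, 147663632, 0, 0, 0, ⟨0, 0⟩, 0⟩, 0, 0⟩ 0 0) (.cut .l 57671 (.cut .d (-2048) (.pos 57 .mp ⟨⟨200201450, 0, 0, 0, 0, 142288768, 0, 0, 0, ⟨0, 0⟩, 0⟩, 0, 0⟩ 0 0) (.cut .s 11853824 (.pos 57 .mp ⟨⟨199782276, 0, 0, 0, 0, 140125610, 0, 0, 0, ⟨0, 0⟩, 0⟩, 0, 0⟩ 0 0) (.pos 57 .mp ⟨⟨200737581, 0, 0, 0, 0, 140821095, 0, 0, 0, ⟨0, 0⟩, 0⟩, 0, 0⟩ 0 0))) (.pos 57 .mp ⟨⟨200375534, 0, 0, 0, 0, 137778243, 0, 0, 0, ⟨0, 0⟩, 0⟩, 0, 0⟩ 0 0))) (.pos 58 .mp ⟨⟨221355454,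 0, 0, 0, 0, 109223202, 0, 0, 0, ⟨0, 0⟩, 0⟩, 0, 0⟩ 0 0))) (.pos 45 .mp ⟨⟨201114852, 0, 0, 0, 0, 133354601, 0, 0, 0, ⟨0, 0⟩, 0⟩, 0, 0⟩ 0 0)) (.pos 46 .mp ⟨⟨285448169, 0, 0, 0, 0, 0, 0, 0, 0, ⟨0, 0⟩, 0⟩, 0, 0⟩ 0 0))))) (.pos 38 .mp ⟨⟨287786299, 0, 0, 0, 0, 0, 0, 0, 0, ⟨0, 0⟩, 0⟩, 0, 0⟩ 0 0)) (.cut .v 16842752 (.cut .s 11927552 (.cut .s 11894784 (.cut .d (-8192) (.cut .l 115343 (.void 37 ⟨⟨0, 0, 0, 0, 0, 100000, 0, 0, 0, ⟨0, 0⟩, 0⟩, 0, 0⟩ 0 0) (.cut .d (-12288) (.pos 37 .mp ⟨⟨201899946, 0, 0, 0, 0, 152672326, 0, 0, 0, ⟨0, 0⟩, 0⟩, 0, 0⟩ 0 0) (.cut .v 16809984 (.cut .s 11878400 (.pos 45 .mp ⟨⟨198960738, 0, 0, 0, 0, 148946301, 0, 0, 0,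 ⟨0, 0⟩, 0⟩, 0, 0⟩ 0 0) (.pos 45 .mp ⟨⟨200880597, 0, 0, 0, 0, 150443303, 0, 0, 0, ⟨0, 0⟩, 0⟩, 0, 0⟩ 0 0)) (.pos 46 .mp ⟨⟨238842686, 0, 0, 0, 0, 88873890, 0, 0, 0, ⟨0, 0⟩, 0⟩, 0, 0⟩ 0 0)))) (.cut .v 16809984 (.cut .l 115343 (.cut .s 11878400 (.cut .v 16793600 (.cut .d (-4096) (.pos 57 .mp ⟨⟨199298373, 0, 0, 0, 0, 149121034, 0, 0, 0, ⟨0, 0⟩, 0⟩, 0, 0⟩ 0 0) (.cut .l 57671 (.cut .d (-2048) (.pos 57 .mp ⟨⟨202027942, 0, 0, 0, 0, 143894898, 0, 0, 0, ⟨0, 0⟩, 0⟩, 0, 0⟩ 0 0) (.cut .v 16785408 (.cut .s 11870208 (.pos 61 .mp ⟨⟨201504283, 0, 0, 0, 0, 141829903, 0, 0, 0, ⟨0, 0⟩, 0⟩, 0, 0⟩ 0 0) (.pos 61 .mp ⟨⟨202467677, 0, 0, 0, 0, 142546870,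 0, 0, 0, ⟨0, 0⟩, 0⟩, 0, 0⟩ 0 0)) (.pos 62 .mp ⟨⟨288461186, 0, 0, 0, 0, 0, 0, 0, 0, ⟨0, 0⟩, 0⟩, 0, 0⟩ 0 0))) (.pos 57 .mp ⟨⟨202300391, 0, 0, 0, 0, 139186154, 0, 0, 0, ⟨0, 0⟩, 0⟩, 0, 0⟩ 0 0))) (.pos 58 .mp ⟨⟨223393071, 0, 0, 0, 0, 110441601, 0, 0, 0, ⟨0, 0⟩, 0⟩, 0, 0⟩ 0 0)) (.cut .v 16793600 (.cut .d (-4096) (.pos 57 .mp ⟨⟨201213099, 0, 0, 0, 0, 150634027, 0, 0, 0, ⟨0, 0⟩, 0⟩, 0, 0⟩ 0 0) (.cut .l 57671 (.cut .d (-2048) (.pos 57 .mp ⟨⟨203926135, 0, 0, 0, 0, 145441191, 0, 0, 0, ⟨0, 0⟩, 0⟩, 0, 0⟩ 0 0) (.cut .v 16785408 (.cut .s 11886592 (.pos 61 .mp ⟨⟨203435578, 0, 0, 0, 0, 143273829, 0, 0, 0, ⟨0, 0⟩, 0⟩, 0, 0⟩ 0 0) (.cut .s 11890688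 (.pos 61 .mp ⟨⟨205615738, 0, 0, 0, 0, 141786552, 0, 0, 0, ⟨0, 0⟩, 0⟩, 0, 0⟩ 0 0) (.pos 61 .mp ⟨⟨206109967, 0, 0, 0, 0, 142147234, 0, 0, 0, ⟨0, 0⟩, 0⟩, 0, 0⟩ 0 0))) (.pos 62 .mp ⟨⟨291177698, 0, 0, 0, 0, 0, 0, 0, 0, ⟨0, 0⟩, 0⟩, 0, 0⟩ 0 0))) (.pos 57 .mp ⟨⟨204243287, 0, 0, 0, 0, 140609843, 0, 0, 0, ⟨0, 0⟩, 0⟩, 0, 0⟩ 0 0))) (.pos 58 .mp ⟨⟨225603586, 0, 0, 0, 0, 111456124, 0, 0, 0, ⟨0, 0⟩, 0⟩, 0, 0⟩ 0 0))) (.cut .s 11878400 (.pos 45 .mp ⟨⟨203054980, 0, 0, 0, 0, 138307300, 0, 0, 0, ⟨0, 0⟩, 0⟩, 0, 0⟩ 0 0) (.pos 45 .mp ⟨⟨205013340, 0, 0, 0, 0, 139710928, 0, 0, 0, ⟨0, 0⟩, 0⟩, 0, 0⟩ 0 0))) (.pos 46 .mp ⟨⟨290794682, 0, 0, 0, 0, 0, 0, 0, 0,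 ⟨0, 0⟩, 0⟩, 0, 0⟩ 0 0))) (.cut .d (-8192) (.cut .l 115343 (.void 37 ⟨⟨0, 0, 0, 0, 0, 100000, 0, 0, 0, ⟨0, 0⟩, 0⟩, 0, 0⟩ 0 0) (.cut .d (-12288) (.pos 37 .mp ⟨⟨205670062, 0, 0, 0, 0, 156175021, 0, 0, 0, ⟨0, 0⟩, 0⟩, 0, 0⟩ 0 0) (.cut .v 16809984 (.cut .s 11911168 (.pos 45 .mp ⟨⟨202818331, 0, 0, 0, 0, 151980778, 0, 0, 0, ⟨0, 0⟩, 0⟩, 0, 0⟩ 0 0) (.pos 45 .mp ⟨⟨204774111, 0, 0, 0, 0, 153558748, 0, 0, 0, ⟨0, 0⟩, 0⟩, 0, 0⟩ 0 0)) (.pos 46 .mp ⟨⟨243369592, 0, 0, 0, 0, 90773774, 0, 0, 0, ⟨0, 0⟩, 0⟩, 0, 0⟩ 0 0)))) (.cut .v 16809984 (.cut .l 115343 (.cut .s 11911168 (.cut .v 16793600 (.cut .d (-4096) (.pos 57 .mp ⟨⟨203145685, 0, 0, 0, 0, 152203243,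 0, 0, 0, ⟨0, 0⟩, 0⟩, 0, 0⟩ 0 0) (.cut .l 57671 (.cut .d (-2048) (.pos 57 .mp ⟨⟨205897710, 0, 0, 0, 0, 146924637, 0, 0, 0, ⟨0, 0⟩, 0⟩, 0, 0⟩ 0 0) (.cut .v 16785408 (.cut .s 11902976 (.pos 61 .mp ⟨⟨205384993, 0, 0, 0, 0, 144757727, 0, 0, 0, ⟨0, 0⟩, 0⟩, 0, 0⟩ 0 0) (.pos 61 .mp ⟨⟨206366550, 0, 0, 0, 0, 145514672, 0, 0, 0, ⟨0, 0⟩, 0⟩, 0, 0⟩ 0 0)) (.pos 62 .mp ⟨⟨293943800, 0, 0, 0, 0, 0, 0, 0, 0, ⟨0, 0⟩, 0⟩, 0, 0⟩ 0 0))) (.pos 57 .mp ⟨⟨206204396, 0, 0, 0, 0, 142048759, 0, 0, 0, ⟨0, 0⟩, 0⟩, 0, 0⟩ 0 0))) (.pos 58 .mp ⟨⟨227991904, 0, 0, 0, 0, 112258600, 0, 0, 0, ⟨0, 0⟩, 0⟩, 0, 0⟩ 0 0)) (.cut .v 16793600 (.cut .d (-4096) (.pos 57 .mp ⟨⟨205096304,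 0, 0, 0, 0, 153829321, 0, 0, 0, ⟨0, 0⟩, 0⟩, 0, 0⟩ 0 0) (.cut .l 57671 (.cut .d (-2048) (.pos 57 .mp ⟨⟨207944361, 0, 0, 0, 0, 148342195, 0, 0, 0, ⟨0, 0⟩, 0⟩, 0, 0⟩ 0 0) (.cut .s 11919360 (.cut .s 11915264 (.pos 57 .mp ⟨⟨207731183, 0, 0, 0, 0, 145392724, 0, 0, 0, ⟨0, 0⟩, 0⟩, 0, 0⟩ 0 0) (.pos 57 .mp ⟨⟨208245888, 0, 0, 0, 0, 145749098, 0, 0, 0, ⟨0, 0⟩, 0⟩, 0, 0⟩ 0 0)) (.pos 57 .mp ⟨⟨208542733, 0, 0, 0, 0, 146744375, 0, 0, 0, ⟨0, 0⟩, 0⟩, 0, 0⟩ 0 0))) (.pos 57 .mp ⟨⟨208183894, 0, 0, 0, 0, 143502344, 0, 0, 0, ⟨0, 0⟩, 0⟩, 0, 0⟩ 0 0))) (.pos 58 .mp ⟨⟨230562980, 0, 0, 0, 0, 112840745, 0, 0, 0, ⟨0, 0⟩, 0⟩, 0, 0⟩ 0 0))) (.cut .s 11911168 (.pos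 45 .mp ⟨⟨206990105, 0, 0, 0, 0, 141129506, 0, 0, 0, ⟨0, 0⟩, 0⟩, 0, 0⟩ 0 0) (.pos 45 .mp ⟨⟨208985454, 0, 0, 0, 0, 142562474, 0, 0, 0, ⟨0, 0⟩, 0⟩, 0, 0⟩ 0 0))) (.pos 46 .mp ⟨⟨296338485, 0, 0, 0, 0, 0, 0, 0, 0, ⟨0, 0⟩, 0⟩, 0, 0⟩ 0 0)))) (.cut .s 11960320 (.cut .d (-8192) (.cut .v 16809984 (.cut .s 11943936 (.pos 45 .mp ⟨⟨206748111, 0, 0, 0, 0, 156583442, 0, 0, 0, ⟨0, 0⟩, 0⟩, 0, 0⟩ 0 0) (.pos 45 .mp ⟨⟨208740509, 0, 0, 0, 0, 158322986, 0, 0, 0, ⟨0, 0⟩, 0⟩, 0, 0⟩ 0 0)) (.pos 46 .mp ⟨⟨240143551, 0, 0, 0, 0, 107357037, 0, 0, 0, ⟨0, 0⟩, 0⟩, 0, 0⟩ 0 0)) (.cut .v 16809984 (.cut .l 115343 (.cut .s 11943936 (.cut .d (-4096) (.pos 45 .mp ⟨⟨209630863,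 0, 0, 0, 0, 151188758, 0, 0, 0, ⟨0, 0⟩, 0⟩, 0, 0⟩ 0 0) (.cut .v 16793600 (.cut .l 57671 (.cut .d (-2048) (.pos 57 .mp ⟨⟨210067800, 0, 0, 0, 0, 149690790, 0, 0, 0, ⟨0, 0⟩, 0⟩, 0, 0⟩ 0 0) (.cut .s 11935744 (.pos 57 .mp ⟨⟨209539043, 0, 0, 0, 0, 147529744, 0, 0, 0, ⟨0, 0⟩, 0⟩, 0, 0⟩ 0 0) (.pos 57 .mp ⟨⟨210540020, 0, 0, 0, 0, 148325111, 0, 0, 0, ⟨0, 0⟩, 0⟩, 0, 0⟩ 0 0))) (.pos 57 .mp ⟨⟨210181958, 0, 0, 0, 0, 144970038, 0, 0, 0, ⟨0, 0⟩, 0⟩, 0, 0⟩ 0 0)) (.pos 58 .mp ⟨⟨299793835, 0, 0, 0, 0, 0, 0, 0, 0, ⟨0, 0⟩, 0⟩, 0, 0⟩ 0 0))) (.cut .d (-4096) (.pos 45 .mp ⟨⟨211828051, 0, 0, 0, 0, 152484647, 0, 0, 0, ⟨0, 0⟩, 0⟩, 0, 0⟩ 0 0) (.cut .v 16793600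 (.cut .l 57671 (.cut .d (-2048) (.pos 57 .mp ⟨⟨212269751, 0, 0, 0, 0, 150967316, 0, 0, 0, ⟨0, 0⟩, 0⟩, 0, 0⟩ 0 0) (.cut .s 11952128 (.pos 57 .mp ⟨⟨211526771, 0, 0, 0, 0, 149165811, 0, 0, 0, ⟨0, 0⟩, 0⟩, 0, 0⟩ 0 0) (.pos 57 .mp ⟨⟨212490928, 0, 0, 0, 0, 150067569, 0, 0, 0, ⟨0, 0⟩, 0⟩, 0, 0⟩ 0 0))) (.pos 57 .mp ⟨⟨212198769, 0, 0, 0, 0, 146451279, 0, 0, 0, ⟨0, 0⟩, 0⟩, 0, 0⟩ 0 0)) (.pos 58 .mp ⟨⟨302713051, 0, 0, 0, 0, 0, 0, 0, 0, ⟨0, 0⟩, 0⟩, 0, 0⟩ 0 0)))) (.pos 45 .mp ⟨⟨213032627, 0, 0, 0, 0, 141600245, 0, 0, 0, ⟨0, 0⟩, 0⟩, 0, 0⟩ 0 0)) (.pos 46 .mp ⟨⟨302083131, 0, 0, 0, 0, 0, 0, 0, 0, ⟨0, 0⟩, 0⟩, 0, 0⟩ 0 0))) (.cut .d (-8192) (.cut .d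 (-12288) (.pos 37 .mp ⟨⟨213404670, 0, 0, 0, 0, 163934184, 0, 0, 0, ⟨0, 0⟩, 0⟩, 0, 0⟩ 0 0) (.cut .v 16809984 (.cut .s 11976704 (.pos 45 .mp ⟨⟨210751482, 0, 0, 0, 0, 160121422, 0, 0, 0, ⟨0, 0⟩, 0⟩, 0, 0⟩ 0 0) (.pos 45 .mp ⟨⟨212781213, 0, 0, 0, 0, 161979425, 0, 0, 0, ⟨0, 0⟩, 0⟩, 0, 0⟩ 0 0)) (.pos 46 .mp ⟨⟨257459555, 0, 0, 0, 0, 87877844, 0, 0, 0, ⟨0, 0⟩, 0⟩, 0, 0⟩ 0 0))) (.cut .v 16809984 (.cut .l 115343 (.cut .v 16793600 (.cut .s 11976704 (.cut .d (-4096) (.pos 57 .mp ⟨⟨211058110, 0, 0, 0, 0, 159055262, 0, 0, 0, ⟨0, 0⟩, 0⟩, 0, 0⟩ 0 0) (.cut .s 11968512 (.pos 57 .mp ⟨⟨214361543, 0, 0, 0, 0, 149562889, 0, 0, 0, ⟨0, 0⟩, 0⟩, 0, 0⟩ 0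 0) (.pos 57 .mp ⟨⟨215387434, 0, 0, 0, 0, 150388526, 0, 0, 0, ⟨0, 0⟩, 0⟩, 0, 0⟩ 0 0))) (.cut .s 11984896 (.cut .s 11980800 (.pos 57 .mp ⟨⟨218567016, 0, 0, 0, 0, 147355662, 0, 0, 0, ⟨0, 0⟩, 0⟩, 0, 0⟩ 0 0) (.pos 57 .mp ⟨⟨219239133, 0, 0, 0, 0, 147526224, 0, 0, 0, ⟨0, 0⟩, 0⟩, 0, 0⟩ 0 0)) (.pos 57 .mp ⟨⟨215855745, 0, 0, 0, 0, 154914432, 0, 0, 0, ⟨0, 0⟩, 0⟩, 0, 0⟩ 0 0))) (.pos 58 .mp ⟨⟨256666418, 0, 0, 0, 0, 89400147, 0, 0, 0, ⟨0, 0⟩, 0⟩, 0, 0⟩ 0 0)) (.pos 45 .mp ⟨⟨217156327, 0, 0, 0, 0, 144456489, 0, 0, 0, ⟨0, 0⟩, 0⟩, 0, 0⟩ 0 0)) (.pos 46 .mp ⟨⟨308032274, 0, 0, 0, 0, 0, 0, 0, 0, ⟨0, 0⟩, 0⟩, 0, 0⟩ 0 0))))) (.pos 38 .mp ⟨⟨310010819, 0,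 0, 0, 0, 0, 0, 0, 0, ⟨0, 0⟩, 0⟩, 0, 0⟩ 0 0))) (.pos 36 .mp ⟨⟨308699831, 0, 0, 0, 0, 0, 0, 0, 0, ⟨0, 0⟩, 0⟩, 0, 0⟩ 0 0)) (.void 34 ⟨⟨100000, 0, 0, 0, 0, 0, 0, 0, 0, ⟨0, 0⟩, 0⟩, 0, 0⟩ 0 0)) (.void 32 ⟨⟨100000, 0, 0, 0, 0, 0, 0, 0, 0, ⟨0, 0⟩, 0⟩, 0, 0⟩ 0 0)))))))) (.void 30 ⟨⟨100000, 0, 0, 0, 0, 0, 0, 0, 0, ⟨0, 0⟩, 0⟩, 0, 0⟩ 0 0))) (.void 28 ⟨⟨100000, 0, 0, 0, 0, 0, 0, 0, 0, ⟨0, 0⟩, 0⟩, 0, 0⟩ 0 0)))) (.void 26 ⟨⟨100000, 0, 0, 0, 0, 0, 0, 0, 0, ⟨0, 0⟩, 0⟩, 0, 0⟩ 0 0))) (.void 24 ⟨⟨100000, 0, 0, 0, 0, 0, 0, 0, 0, ⟨0, 0⟩, 0⟩, 0, 0⟩ 0 0)) (.void 97 ⟨⟨100000, 0, 0, 0, 0, 0, 0, 0, 0, ⟨0, 0⟩, 0⟩, 0, 0⟩ 0 0)) (.void 120 ⟨⟨100000, 0, 0, 0,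 0, 0, 0, 0, 0, ⟨0, 0⟩, 0⟩, 0, 0⟩ 0 0)) (.void 125 ⟨⟨96461, 0, 0, 4085, 0, 0, 0, 0, 0, ⟨0, 0⟩, 0⟩, 0, 0⟩ 0 0))) (.cut .v 16777216 (.cut .v 8388608 (.cut .v 4194304 (.cut .v 2097152 (.cut .v 1048576 (.pos 126 .pm ⟨⟨0, 0, 22344997, 0, 0, 0, 0, 0, 0, ⟨0, 0⟩, 0⟩, 0, 12159⟩ 0 0) (.pos 127 .pm ⟨⟨0, 0, 22361928, 0, 0, 0, 0, 0, 0, ⟨0, 0⟩, 0⟩, 0, 33774⟩ 0 0)) (.pos 7 .pm ⟨⟨0, 0, 25899700, 0, 0, 0, 0, 0, 0, ⟨0, 0⟩, 0⟩, 0, 52408⟩ 0 0)) (.pos 5 .pm ⟨⟨0, 0, 5670862, 0, 0, 0, 0, 0, 0, ⟨0, 0⟩, 0⟩, 0, 0⟩ 0 0)) (.pos 3 .pm ⟨⟨0, 0, 0, 0, 0, 0, 0, 0, 0, ⟨0, 0⟩, 0⟩, 0, 0⟩ 0 0)) (.cut .v 268435456 (.cut .v 67108864 (.cut .d 3608508 (.cut .d 1804254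 (.cut .v 33554432 (.cut .d 902127 (.cut .v 25165824 (.cut .d 451063 (.cut .v 20971520 (.cut .v 18874368 (.cut .s 11862016 (.pos 27 .pp ⟨⟨175172109, 0, 0, 0, 0, 0, 0, 0, 0, ⟨0, 0⟩, 0⟩, 9462903, 0⟩ 0 0) (.pos 27 .pp ⟨⟨192621391, 0, 0, 0, 0, 0, 0, 0, 0, ⟨0, 0⟩, 0⟩, 9731251, 0⟩ 0 0)) (.pos 28 .pp ⟨⟨337336623, 0, 0, 0, 0, 0, 0, 0, 0, ⟨0, 0⟩, 0⟩, 0, 0⟩ 0 0)) (.pos 26 .pp ⟨⟨0, 0, 0, 0, 0, 0, 0, 0, 0, ⟨0, 0⟩, 0⟩, 42982707, 0⟩ 0 0)) (.pos 23 .pp ⟨⟨0, 0, 0, 0, 0, 0, 0, 0, 0, ⟨0, 0⟩, 0⟩, 21350193, 76327⟩ 0 0)) (.pos 24 .pp ⟨⟨0, 0, 0, 0, 0, 0, 0, 0, 0, ⟨0, 0⟩, 0⟩, 56182670, 0⟩ 0 0)) (.pos 22 .pp ⟨⟨0, 0, 0, 0, 0, 0, 0, 0, 0, ⟨0, 0⟩, 0⟩, 23148313,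 66690⟩ 0 0)) (.cut .d 902127 (.void 97 ⟨⟨0, 0, 0, 0, 0, 0, 0, 0, 0, ⟨0, 0⟩, 0⟩, 100000, 0⟩ 0 0) (.pos 97 .pp ⟨⟨0, 0, 0, 0, 0, 0, 0, 0, 0, ⟨0, 0⟩, 0⟩, 67237115, 0⟩ 0 0))) (.pos 96 .pp ⟨⟨0, 0, 0, 0, 0, 0, 0, 0, 0, ⟨0, 0⟩, 0⟩, 17079168, 99217⟩ 0 0)) (.pos 96 .pp ⟨⟨0, 0, 0, 0, 0, 0, 0, 0, 0, ⟨0, 0⟩, 0⟩, 0, 190752⟩ 0 0)) (.void 120 ⟨⟨0, 93128, 0, 0, 0, 0, 0, 0, 0, ⟨0, 0⟩, 0⟩, 6872, 0⟩ 0 0)) (.void 125 ⟨⟨0, 0, 0, 0, 0, 0, 0, 0, 0, ⟨0, 0⟩, 0⟩, 100000, 0⟩ 0 0)))),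
    by decide +kernel⟩

def covers18 : cell.Covers Vale.Agent.P237.Petty.Cor.Grid.N16.table row18.1 :=
  ⟨(.cut .d 0 (.cut .v 16777216 (.cut .d (-8388608) (.void 1 ⟨⟨0, 0, 0, 0, 0, 100000, 0, 0, 0, ⟨0, 0⟩, 0⟩, 0, 0⟩ 0 0) (.cut .d (-4194304) (.void 1 ⟨⟨0, 0, 0, 0, 0, 100000, 0, 0, 0, ⟨0, 0⟩, 0⟩, 0, 0⟩ 0 0) (.cut .d (-2097152) (.void 1 ⟨⟨0, 0, 0, 0, 0, 100000, 0, 0, 0, ⟨0, 0⟩, 0⟩, 0, 0⟩ 0 0) (.cut .d (-1048576) (.void 1 ⟨⟨0, 0, 0, 0, 0, 100000, 0, 0, 0, ⟨0, 0⟩, 0⟩, 0, 0⟩ 0 0) (.cut .d (-524288) (.void 1 ⟨⟨0, 0, 0, 0, 0, 100000, 0, 0, 0, ⟨0, 0⟩, 0⟩, 0, 0⟩ 0 0) (.cut .d (-262144) (.void 1 ⟨⟨0, 0, 0, 0, 0, 100000, 0, 0, 0, ⟨0, 0⟩, 0⟩,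 0, 0⟩ 0 0) (.cut .d (-131072) (.void 1 ⟨⟨0, 0, 0, 0, 0, 100000, 0, 0, 0, ⟨0, 0⟩, 0⟩, 0, 0⟩ 0 0) (.cut .d (-65536) (.void 1 ⟨⟨0, 0, 0, 0, 0, 100000, 0, 0, 0, ⟨0, 0⟩, 0⟩, 0, 0⟩ 0 0) (.cut .d (-32768) (.void 1 ⟨⟨0, 0, 0, 0, 0, 100000, 0, 0, 0, ⟨0, 0⟩, 0⟩, 0, 0⟩ 0 0) (.cut .d (-16384) (.void 1 ⟨⟨0, 0, 0, 0, 0, 100000, 0, 0, 0, ⟨0, 0⟩, 0⟩, 0, 0⟩ 0 0) (.cut .v 8388608 (.cut .v 4194304 (.void 4 ⟨⟨0, 0, 100000, 0, 0, 0, 0, 0, 0, ⟨0, 0⟩, 0⟩, 0, 0⟩ 0 0) (.pos 5 .mm ⟨⟨0, 0, 6954188, 0, 0, 193098513, 0, 0, 0, ⟨0, 0⟩, 0⟩, 0, 0⟩ 0 0)) (.cut .s 12124160 (.pos 3 .mm ⟨⟨0, 0, 0, 0, 0, 514300848, 0, 0, 0, ⟨0, 0⟩, 0⟩, 0, 0⟩ 0 0) (.pos 3 .mm ⟨⟨0, 0,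 0, 0, 0, 559257731, 0, 0, 0, ⟨0, 0⟩, 0⟩, 0, 0⟩ 0 0))))))))))))) (.cut .v 268435456 (.cut .v 67108864 (.cut .v 33554432 (.cut .v 25165824 (.cut .d (-8388608) (.void 23 ⟨⟨100000, 0, 0, 0, 0, 0, 0, 0, 0, ⟨0, 0⟩, 0⟩, 0, 0⟩ 0 0) (.cut .d (-4194304) (.void 23 ⟨⟨100000, 0, 0, 0, 0, 0, 0, 0, 0, ⟨0, 0⟩, 0⟩, 0, 0⟩ 0 0) (.cut .v 20971520 (.cut .d (-2097152) (.void 25 ⟨⟨100000, 0, 0, 0, 0, 0, 0, 0, 0, ⟨0, 0⟩, 0⟩, 0, 0⟩ 0 0) (.cut .v 18874368 (.cut .d (-1048576) (.void 27 ⟨⟨100000, 0, 0, 0, 0, 0, 0, 0, 0, ⟨0, 0⟩, 0⟩, 0, 0⟩ 0 0) (.cut .v 17825792 (.cut .d (-524288) (.void 29 ⟨⟨100000, 0, 0, 0, 0, 0, 0, 0, 0, ⟨0, 0⟩, 0⟩, 0, 0⟩ 0 0) (.cut .d (-262144)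 (.void 29 ⟨⟨100000, 0, 0, 0, 0, 0, 0, 0, 0, ⟨0, 0⟩, 0⟩, 0, 0⟩ 0 0) (.cut .d (-131072) (.void 29 ⟨⟨100000, 0, 0, 0, 0, 0, 0, 0, 0, ⟨0, 0⟩, 0⟩, 0, 0⟩ 0 0) (.cut .d (-65536) (.void 29 ⟨⟨100000, 0, 0, 0, 0, 0, 0, 0, 0, ⟨0, 0⟩, 0⟩, 0, 0⟩ 0 0) (.cut .d (-32768) (.void 29 ⟨⟨100000, 0, 0, 0, 0, 0, 0, 0, 0, ⟨0, 0⟩, 0⟩, 0, 0⟩ 0 0) (.cut .d (-16384) (.void 29 ⟨⟨0, 0, 0, 0, 0, 100000, 0, 0, 0, ⟨0, 0⟩, 0⟩, 0, 0⟩ 0 0) (.cut .v 17301504 (.cut .v 17039360 (.cut .v 16908288 (.cut .s 12124160 (.cut .v 16842752 (.cut .s 12058624 (.cut .s 12025856 (.cut .d (-8192) (.cut .s 12009472 (.pos 37 .mp ⟨⟨215656942, 0, 0, 0, 0, 164115719, 0, 0, 0, ⟨0, 0⟩,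 0⟩, 0, 0⟩ 0 0) (.cut .s 12017664 (.pos 37 .mp ⟨⟨217736947, 0, 0, 0, 0, 163513831, 0, 0, 0, ⟨0, 0⟩, 0⟩, 0, 0⟩ 0 0) (.pos 37 .mp ⟨⟨218784299, 0, 0, 0, 0, 164234938, 0, 0, 0, ⟨0, 0⟩, 0⟩, 0, 0⟩ 0 0))) (.cut .v 16809984 (.cut .l 115343 (.cut .s 12009472 (.cut .d (-4096) (.pos 45 .mp ⟨⟨215539260, 0, 0, 0, 0, 163189285, 0, 0, 0, ⟨0, 0⟩, 0⟩, 0, 0⟩ 0 0) (.cut .s 12001280 (.pos 45 .mp ⟨⟨218873456, 0, 0, 0, 0, 152335137, 0, 0, 0, ⟨0, 0⟩, 0⟩, 0, 0⟩ 0 0) (.pos 45 .mp ⟨⟨219958120, 0, 0, 0, 0, 152960026, 0, 0, 0, ⟨0, 0⟩, 0⟩, 0, 0⟩ 0 0))) (.cut .d (-4096) (.pos 45 .mp ⟨⟨217607970, 0, 0, 0, 0, 164622013, 0, 0, 0, ⟨0, 0⟩, 0⟩, 0, 0⟩ 0 0) (.cut .s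 12017664 (.pos 45 .mp ⟨⟨221010431, 0, 0, 0, 0, 153667092, 0, 0, 0, ⟨0, 0⟩, 0⟩, 0, 0⟩ 0 0) (.pos 45 .mp ⟨⟨222067760, 0, 0, 0, 0, 154386432, 0, 0, 0, ⟨0, 0⟩, 0⟩, 0, 0⟩ 0 0)))) (.pos 45 .mp ⟨⟨221363796, 0, 0, 0, 0, 148211275, 0, 0, 0, ⟨0, 0⟩, 0⟩, 0, 0⟩ 0 0)) (.pos 46 .mp ⟨⟨314195431, 0, 0, 0, 0, 0, 0, 0, 0, ⟨0, 0⟩, 0⟩, 0, 0⟩ 0 0))) (.cut .d (-8192) (.cut .d (-12288) (.pos 37 .mp ⟨⟨223890707, 0, 0, 0, 0, 166324751, 0, 0, 0, ⟨0, 0⟩, 0⟩, 0, 0⟩ 0 0) (.cut .d (-10240) (.pos 37 .mp ⟨⟨220671317, 0, 0, 0, 0, 171337216, 0, 0, 0, ⟨0, 0⟩, 0⟩, 0, 0⟩ 0 0) (.cut .v 16809984 (.cut .s 12042240 (.pos 45 .mp ⟨⟨218995071, 0, 0, 0, 0, 166806100, 0, 0,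 0, ⟨0, 0⟩, 0⟩, 0, 0⟩ 0 0) (.pos 45 .mp ⟨⟨221106879, 0, 0, 0, 0, 168361861, 0, 0, 0, ⟨0, 0⟩, 0⟩, 0, 0⟩ 0 0)) (.pos 46 .mp ⟨⟨320819782, 0, 0, 0, 0, 0, 0, 0, 0, ⟨0, 0⟩, 0⟩, 0, 0⟩ 0 0)))) (.cut .v 16809984 (.cut .l 115343 (.cut .s 12042240 (.cut .d (-4096) (.pos 45 .mp ⟨⟨219696239, 0, 0, 0, 0, 166121025, 0, 0, 0, ⟨0, 0⟩, 0⟩, 0, 0⟩ 0 0) (.cut .v 16793600 (.cut .s 12034048 (.pos 57 .mp ⟨⟨222706518, 0, 0, 0, 0, 155790379, 0, 0, 0, ⟨0, 0⟩, 0⟩, 0, 0⟩ 0 0) (.cut .s 12038144 (.pos 57 .mp ⟨⟨224705967, 0, 0, 0, 0, 154664723, 0, 0, 0, ⟨0, 0⟩, 0⟩, 0, 0⟩ 0 0) (.pos 57 .mp ⟨⟨225170316, 0, 0, 0, 0, 155149020, 0, 0, 0, ⟨0, 0⟩, 0⟩, 0, 0⟩ 0 0))) (.pos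 58 .mp ⟨⟨317442695, 0, 0, 0, 0, 0, 0, 0, 0, ⟨0, 0⟩, 0⟩, 0, 0⟩ 0 0))) (.cut .d (-4096) (.pos 45 .mp ⟨⟨221804262, 0, 0, 0, 0, 167687099, 0, 0, 0, ⟨0, 0⟩, 0⟩, 0, 0⟩ 0 0) (.cut .v 16793600 (.cut .l 57671 (.cut .d (-2048) (.pos 57 .mp ⟨⟨221729771, 0, 0, 0, 0, 167233068, 0, 0, 0, ⟨0, 0⟩, 0⟩, 0, 0⟩ 0 0) (.cut .s 12050432 (.pos 57 .mp ⟨⟨223984087, 0, 0, 0, 0, 158617429, 0, 0, 0, ⟨0, 0⟩, 0⟩, 0, 0⟩ 0 0) (.pos 57 .mp ⟨⟨225059108, 0, 0, 0, 0, 159388968, 0, 0, 0, ⟨0, 0⟩, 0⟩, 0, 0⟩ 0 0))) (.pos 57 .mp ⟨⟨224710857, 0, 0, 0, 0, 156083342, 0, 0, 0, ⟨0, 0⟩, 0⟩, 0, 0⟩ 0 0)) (.pos 58 .mp ⟨⟨320360049, 0, 0, 0, 0, 0, 0, 0, 0, ⟨0, 0⟩, 0⟩, 0, 0⟩ 0 0))))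 (.cut .s 12042240 (.pos 45 .mp ⟨⟨223497373, 0, 0, 0, 0, 153401344, 0, 0, 0, ⟨0, 0⟩, 0⟩, 0, 0⟩ 0 0) (.pos 45 .mp ⟨⟨225651316, 0, 0, 0, 0, 154961235, 0, 0, 0, ⟨0, 0⟩, 0⟩, 0, 0⟩ 0 0))) (.pos 46 .mp ⟨⟨319929387, 0, 0, 0, 0, 0, 0, 0, 0, ⟨0, 0⟩, 0⟩, 0, 0⟩ 0 0)))) (.cut .s 12091392 (.cut .d (-8192) (.cut .d (-12288) (.void 37 ⟨⟨0, 0, 0, 0, 0, 100000, 0, 0, 0, ⟨0, 0⟩, 0⟩, 0, 0⟩ 0 0) (.cut .v 16809984 (.cut .s 12075008 (.pos 45 .mp ⟨⟨223238637, 0, 0, 0, 0, 169985402, 0, 0, 0, ⟨0, 0⟩, 0⟩, 0, 0⟩ 0 0) (.pos 45 .mp ⟨⟨225390545, 0, 0, 0, 0, 171677519, 0, 0, 0, ⟨0, 0⟩, 0⟩, 0, 0⟩ 0 0)) (.pos 46 .mp ⟨⟨270926261, 0, 0, 0, 0, 96076220, 0, 0, 0, ⟨0,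 0⟩, 0⟩, 0, 0⟩ 0 0))) (.cut .v 16809984 (.cut .l 115343 (.cut .s 12075008 (.cut .d (-4096) (.pos 45 .mp ⟨⟨223932235, 0, 0, 0, 0, 169321024, 0, 0, 0, ⟨0, 0⟩, 0⟩, 0, 0⟩ 0 0) (.cut .v 16793600 (.cut .l 57671 (.cut .d (-2048) (.pos 57 .mp ⟨⟨223852012, 0, 0, 0, 0, 168870745, 0, 0, 0, ⟨0, 0⟩, 0⟩, 0, 0⟩ 0 0) (.cut .s 12066816 (.pos 57 .mp ⟨⟨226133384, 0, 0, 0, 0, 160183841, 0, 0, 0, ⟨0, 0⟩, 0⟩, 0, 0⟩ 0 0) (.pos 57 .mp ⟨⟨227212766, 0, 0, 0, 0, 160991124, 0, 0, 0, ⟨0, 0⟩, 0⟩, 0, 0⟩ 0 0))) (.pos 57 .mp ⟨⟨226866394, 0, 0, 0, 0, 157690644, 0, 0, 0, ⟨0, 0⟩, 0⟩, 0, 0⟩ 0 0)) (.pos 58 .mp ⟨⟨323335496, 0, 0, 0, 0, 0, 0, 0, 0, ⟨0, 0⟩, 0⟩, 0, 0⟩ 0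 0))) (.cut .d (-4096) (.pos 45 .mp ⟨⟨226080357, 0, 0, 0, 0, 171023599, 0, 0, 0, ⟨0, 0⟩, 0⟩, 0, 0⟩ 0 0) (.cut .v 16793600 (.cut .l 57671 (.cut .d (-2048) (.pos 57 .mp ⟨⟨225994366, 0, 0, 0, 0, 170577041, 0, 0, 0, ⟨0, 0⟩, 0⟩, 0, 0⟩ 0 0) (.cut .v 16785408 (.cut .s 12083200 (.pos 61 .mp ⟨⟨228080178, 0, 0, 0, 0, 162156436, 0, 0, 0, ⟨0, 0⟩, 0⟩, 0, 0⟩ 0 0) (.pos 61 .mp ⟨⟨229168867, 0, 0, 0, 0, 162990289, 0, 0, 0, ⟨0, 0⟩, 0⟩, 0, 0⟩ 0 0)) (.pos 62 .mp ⟨⟨326187350, 0, 0, 0, 0, 0, 0, 0, 0, ⟨0, 0⟩, 0⟩, 0, 0⟩ 0 0))) (.pos 57 .mp ⟨⟨229042458, 0, 0, 0, 0, 159319973, 0, 0, 0, ⟨0, 0⟩, 0⟩, 0, 0⟩ 0 0)) (.pos 58 .mp ⟨⟨326369578, 0, 0, 0, 0, 0, 0, 0,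 0, ⟨0, 0⟩, 0⟩, 0, 0⟩ 0 0)))) (.cut .s 12075008 (.pos 45 .mp ⟨⟨227825830, 0, 0, 0, 0, 156543462, 0, 0, 0, ⟨0, 0⟩, 0⟩, 0, 0⟩ 0 0) (.pos 45 .mp ⟨⟨230021121, 0, 0, 0, 0, 158147363, 0, 0, 0, ⟨0, 0⟩, 0⟩, 0, 0⟩ 0 0))) (.pos 46 .mp ⟨⟨325894331, 0, 0, 0, 0, 0, 0, 0, 0, ⟨0, 0⟩, 0⟩, 0, 0⟩ 0 0))) (.cut .d (-8192) (.cut .d (-12288) (.void 37 ⟨⟨0, 0, 0, 0, 0, 100000, 0, 0, 0, ⟨0, 0⟩, 0⟩, 0, 0⟩ 0 0) (.cut .v 16809984 (.cut .s 12107776 (.pos 45 .mp ⟨⟨227562805, 0, 0, 0, 0, 173439024, 0, 0, 0, ⟨0, 0⟩, 0⟩, 0, 0⟩ 0 0) (.pos 45 .mp ⟨⟨229755621, 0, 0, 0, 0, 175270734, 0, 0, 0, ⟨0, 0⟩, 0⟩, 0, 0⟩ 0 0)) (.pos 46 .mp ⟨⟨277486184, 0, 0, 0, 0, 95862588,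 0, 0, 0, ⟨0, 0⟩, 0⟩, 0, 0⟩ 0 0))) (.cut .v 16809984 (.cut .l 115343 (.cut .s 12107776 (.cut .d (-4096) (.pos 45 .mp ⟨⟨228248832, 0, 0, 0, 0, 172795633, 0, 0, 0, ⟨0, 0⟩, 0⟩, 0, 0⟩ 0 0) (.cut .v 16793600 (.cut .l 57671 (.cut .d (-2048) (.pos 57 .mp ⟨⟨228157037, 0, 0, 0, 0, 172352765, 0, 0, 0, ⟨0, 0⟩, 0⟩, 0, 0⟩ 0 0) (.cut .v 16785408 (.cut .s 12099584 (.pos 61 .mp ⟨⟨230262734, 0, 0, 0, 0, 163836571, 0, 0, 0, ⟨0, 0⟩, 0⟩, 0, 0⟩ 0 0) (.pos 61 .mp ⟨⟨231361807, 0, 0, 0, 0, 164695288, 0, 0, 0, ⟨0, 0⟩, 0⟩, 0, 0⟩ 0 0)) (.pos 62 .mp ⟨⟨329278872, 0, 0, 0, 0, 0, 0, 0, 0, ⟨0, 0⟩, 0⟩, 0, 0⟩ 0 0))) (.pos 57 .mp ⟨⟨231239257, 0, 0, 0, 0, 160970668,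 0, 0, 0, ⟨0, 0⟩, 0⟩, 0, 0⟩ 0 0)) (.pos 58 .mp ⟨⟨329462844, 0, 0, 0, 0, 0, 0, 0, 0, ⟨0, 0⟩, 0⟩, 0, 0⟩ 0 0))) (.cut .d (-4096) (.pos 45 .mp ⟨⟨230437864, 0, 0, 0, 0, 174637949, 0, 0, 0, ⟨0, 0⟩, 0⟩, 0, 0⟩ 0 0) (.cut .v 16793600 (.cut .l 57671 (.cut .d (-2048) (.pos 57 .mp ⟨⟨230340228, 0, 0, 0, 0, 174198736, 0, 0, 0, ⟨0, 0⟩, 0⟩, 0, 0⟩ 0 0) (.cut .v 16785408 (.cut .s 12115968 (.pos 61 .mp ⟨⟨232466112, 0, 0, 0, 0, 165566442, 0, 0, 0, ⟨0, 0⟩, 0⟩, 0, 0⟩ 0 0) (.pos 61 .mp ⟨⟨233575674, 0, 0, 0, 0, 166450037, 0, 0, 0, ⟨0, 0⟩, 0⟩, 0, 0⟩ 0 0)) (.pos 62 .mp ⟨⟨332430103, 0, 0, 0, 0, 0, 0, 0, 0, ⟨0, 0⟩, 0⟩, 0, 0⟩ 0 0))) (.pos 57 .mp ⟨⟨233457000,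 0, 0, 0, 0, 162642063, 0, 0, 0, ⟨0, 0⟩, 0⟩, 0, 0⟩ 0 0)) (.pos 58 .mp ⟨⟨332615851, 0, 0, 0, 0, 0, 0, 0, 0, ⟨0, 0⟩, 0⟩, 0, 0⟩ 0 0)))) (.cut .s 12107776 (.pos 45 .mp ⟨⟨232237397, 0, 0, 0, 0, 159772272, 0, 0, 0, ⟨0, 0⟩, 0⟩, 0, 0⟩ 0 0) (.pos 45 .mp ⟨⟨234474871, 0, 0, 0, 0, 161417517, 0, 0, 0, ⟨0, 0⟩, 0⟩, 0, 0⟩ 0 0))) (.pos 46 .mp ⟨⟨332094574, 0, 0, 0, 0, 0, 0, 0, 0, ⟨0, 0⟩, 0⟩, 0, 0⟩ 0 0))))) (.pos 38 .mp ⟨⟨335006707, 0, 0, 0, 0, 0, 0, 0, 0, ⟨0, 0⟩, 0⟩, 0, 0⟩ 0 0)) (.cut .v 16842752 (.cut .s 12189696 (.cut .s 12156928 (.cut .d (-8192) (.cut .d (-12288) (.void 37 ⟨⟨0, 0, 0, 0, 0, 100000, 0, 0, 0, ⟨0, 0⟩, 0⟩, 0, 0⟩ 0 0) (.cut .d (-10240)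 (.pos 37 .mp ⟨⟨233772384, 0, 0, 0, 0, 182142223, 0, 0, 0, ⟨0, 0⟩, 0⟩, 0, 0⟩ 0 0) (.cut .v 16809984 (.cut .s 12140544 (.pos 45 .mp ⟨⟨231969203, 0, 0, 0, 0, 177173483, 0, 0, 0, ⟨0, 0⟩, 0⟩, 0, 0⟩ 0 0) (.pos 45 .mp ⟨⟨234203761, 0, 0, 0, 0, 179148113, 0, 0, 0, ⟨0, 0⟩, 0⟩, 0, 0⟩ 0 0)) (.pos 46 .mp ⟨⟨339513569, 0, 0, 0, 0, 0, 0, 0, 0, ⟨0, 0⟩, 0⟩, 0, 0⟩ 0 0)))) (.cut .v 16809984 (.cut .l 115343 (.cut .s 12140544 (.cut .d (-4096) (.pos 45 .mp ⟨⟨232647662, 0, 0, 0, 0, 176551377, 0, 0, 0, ⟨0, 0⟩, 0⟩, 0, 0⟩ 0 0) (.cut .v 16793600 (.cut .l 57671 (.cut .d (-2048) (.pos 57 .mp ⟨⟨232544147, 0, 0, 0, 0, 176115788, 0, 0, 0, ⟨0, 0⟩, 0⟩, 0, 0⟩ 0 0)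 (.cut .s 12132352 (.pos 57 .mp ⟨⟨234913593, 0, 0, 0, 0, 166989886, 0, 0, 0, ⟨0, 0⟩, 0⟩, 0, 0⟩ 0 0) (.pos 57 .mp ⟨⟨236034762, 0, 0, 0, 0, 167896578, 0, 0, 0, ⟨0, 0⟩, 0⟩, 0, 0⟩ 0 0))) (.pos 57 .mp ⟨⟨235695901, 0, 0, 0, 0, 164333487, 0, 0, 0, ⟨0, 0⟩, 0⟩, 0, 0⟩ 0 0)) (.pos 58 .mp ⟨⟨335829165, 0, 0, 0, 0, 0, 0, 0, 0, ⟨0, 0⟩, 0⟩, 0, 0⟩ 0 0))) (.cut .d (-4096) (.pos 45 .mp ⟨⟨234878435, 0, 0, 0, 0, 178536762, 0, 0, 0, ⟨0, 0⟩, 0⟩, 0, 0⟩ 0 0) (.cut .v 16793600 (.cut .l 57671 (.cut .d (-2048) (.pos 57 .mp ⟨⟨234769006, 0, 0, 0, 0, 178104763, 0, 0, 0, ⟨0, 0⟩, 0⟩, 0, 0⟩ 0 0) (.cut .s 12148736 (.pos 57 .mp ⟨⟨237161276, 0, 0, 0, 0, 168815708,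 0, 0, 0, ⟨0, 0⟩, 0⟩, 0, 0⟩ 0 0) (.pos 57 .mp ⟨⟨238293159, 0, 0, 0, 0, 169747281, 0, 0, 0, ⟨0, 0⟩, 0⟩, 0, 0⟩ 0 0))) (.pos 57 .mp ⟨⟨237956174, 0, 0, 0, 0, 166044266, 0, 0, 0, ⟨0, 0⟩, 0⟩, 0, 0⟩ 0 0)) (.pos 58 .mp ⟨⟨339103359, 0, 0, 0, 0, 0, 0, 0, 0, ⟨0, 0⟩, 0⟩, 0, 0⟩ 0 0)))) (.cut .s 12140544 (.pos 45 .mp ⟨⟨236733758, 0, 0, 0, 0, 163082423, 0, 0, 0, ⟨0, 0⟩, 0⟩, 0, 0⟩ 0 0) (.pos 45 .mp ⟨⟨239014277, 0, 0, 0, 0, 164766310, 0, 0, 0, ⟨0, 0⟩, 0⟩, 0, 0⟩ 0 0))) (.pos 46 .mp ⟨⟨338534554, 0, 0, 0, 0, 0, 0, 0, 0, ⟨0, 0⟩, 0⟩, 0, 0⟩ 0 0))) (.cut .d (-8192) (.cut .s 12173312 (.cut .s 12165120 (.pos 37 .mp ⟨⟨237364280, 0, 0, 0, 0, 179120008, 0,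 0, 0, ⟨0, 0⟩, 0⟩, 0, 0⟩ 0 0) (.pos 37 .mp ⟨⟨238504281, 0, 0, 0, 0, 180155954, 0, 0, 0, ⟨0, 0⟩, 0⟩, 0, 0⟩ 0 0)) (.pos 37 .mp ⟨⟨239649681, 0, 0, 0, 0, 183571350, 0, 0, 0, ⟨0, 0⟩, 0⟩, 0, 0⟩ 0 0)) (.cut .v 16809984 (.cut .l 115343 (.cut .s 12173312 (.cut .d (-4096) (.pos 45 .mp ⟨⟨237130399, 0, 0, 0, 0, 180594960, 0, 0, 0, ⟨0, 0⟩, 0⟩, 0, 0⟩ 0 0) (.cut .v 16793600 (.cut .s 12165120 (.cut .s 12161024 (.pos 57 .mp ⟨⟨241410777, 0, 0, 0, 0, 167132621, 0, 0, 0, ⟨0, 0⟩, 0⟩, 0, 0⟩ 0 0) (.pos 57 .mp ⟨⟨242074334, 0, 0, 0, 0, 167462438, 0, 0, 0, ⟨0, 0⟩, 0⟩, 0, 0⟩ 0 0)) (.pos 57 .mp ⟨⟨241529228, 0, 0, 0, 0, 170170589, 0, 0, 0, ⟨0, 0⟩, 0⟩, 0, 0⟩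 0 0)) (.pos 58 .mp ⟨⟨342439014, 0, 0, 0, 0, 0, 0, 0, 0, ⟨0, 0⟩, 0⟩, 0, 0⟩ 0 0))) (.cut .d (-4096) (.pos 45 .mp ⟨⟨239403769, 0, 0, 0, 0, 182726838, 0, 0, 0, ⟨0, 0⟩, 0⟩, 0, 0⟩ 0 0) (.cut .s 12181504 (.pos 45 .mp ⟨⟨243144277, 0, 0, 0, 0, 170391576, 0, 0, 0, ⟨0, 0⟩, 0⟩, 0, 0⟩ 0 0) (.pos 45 .mp ⟨⟨244307393, 0, 0, 0, 0, 171357183, 0, 0, 0, ⟨0, 0⟩, 0⟩, 0, 0⟩ 0 0)))) (.cut .s 12173312 (.pos 45 .mp ⟨⟨241316648, 0, 0, 0, 0, 166468491, 0, 0, 0, ⟨0, 0⟩, 0⟩, 0, 0⟩ 0 0) (.pos 45 .mp ⟨⟨243641096, 0, 0, 0, 0, 168188276, 0, 0, 0, ⟨0, 0⟩, 0⟩, 0, 0⟩ 0 0))) (.pos 46 .mp ⟨⟨345218834, 0, 0, 0, 0, 0, 0, 0, 0, ⟨0, 0⟩, 0⟩, 0, 0⟩ 0 0)))) (.cut .s 12222464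 (.cut .d (-8192) (.cut .s 12206080 (.pos 37 .mp ⟨⟨241956787, 0, 0, 0, 0, 185770732, 0, 0, 0, ⟨0, 0⟩, 0⟩, 0, 0⟩ 0 0) (.pos 37 .mp ⟨⟨244285822, 0, 0, 0, 0, 188045634, 0, 0, 0, ⟨0, 0⟩, 0⟩, 0, 0⟩ 0 0)) (.cut .v 16809984 (.cut .l 115343 (.cut .v 16793600 (.cut .d (-4096) (.pos 57 .mp ⟨⟨241238861, 0, 0, 0, 0, 188770938, 0, 0, 0, ⟨0, 0⟩, 0⟩, 0, 0⟩ 0 0) (.cut .l 57671 (.cut .v 16785408 (.cut .d (-2048) (.pos 61 .mp ⟨⟨241341550, 0, 0, 0, 0, 188271072, 0, 0, 0, ⟨0, 0⟩, 0⟩, 0, 0⟩ 0 0) (.cut .l 28835 (.cut .s 12206080 (.cut .s 12197888 (.pos 61 .mp ⟨⟨244635430, 0, 0, 0, 0, 173572887, 0, 0, 0, ⟨0, 0⟩, 0⟩, 0, 0⟩ 0 0) (.pos 61 .mp ⟨⟨246043726,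 0, 0, 0, 0, 174187353, 0, 0, 0, ⟨0, 0⟩, 0⟩, 0, 0⟩ 0 0)) (.cut .s 12214272 (.pos 61 .mp ⟨⟨247480435, 0, 0, 0, 0, 174777210, 0, 0, 0, ⟨0, 0⟩, 0⟩, 0, 0⟩ 0 0) (.pos 61 .mp ⟨⟨248945943, 0, 0, 0, 0, 175341836, 0, 0, 0, ⟨0, 0⟩, 0⟩, 0, 0⟩ 0 0))) (.pos 61 .mp ⟨⟨246645553, 0, 0, 0, 0, 169409237, 0, 0, 0, ⟨0, 0⟩, 0⟩, 0, 0⟩ 0 0))) (.pos 62 .mp ⟨⟨295466179, 0, 0, 0, 0, 99663343, 0, 0, 0, ⟨0, 0⟩, 0⟩, 0, 0⟩ 0 0)) (.pos 57 .mp ⟨⟨247215419, 0, 0, 0, 0, 168715663, 0, 0, 0, ⟨0, 0⟩, 0⟩, 0, 0⟩ 0 0))) (.pos 58 .mp ⟨⟨294323395, 0, 0, 0, 0, 101946989, 0, 0, 0, ⟨0, 0⟩, 0⟩, 0, 0⟩ 0 0)) (.pos 45 .mp ⟨⟨248357139, 0, 0, 0, 0, 167326151, 0, 0, 0, ⟨0, 0⟩, 0⟩,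 0, 0⟩ 0 0)) (.pos 46 .mp ⟨⟨352152110, 0, 0, 0, 0, 0, 0, 0, 0, ⟨0, 0⟩, 0⟩, 0, 0⟩ 0 0))) (.cut .v 16809984 (.cut .d (-8192) (.pos 45 .mp ⟨⟨245698793, 0, 0, 0, 0, 194512706, 0, 0, 0, ⟨0, 0⟩, 0⟩, 0, 0⟩ 0 0) (.cut .l 115343 (.cut .d (-4096) (.pos 45 .mp ⟨⟨246354544, 0, 0, 0, 0, 194522618, 0, 0, 0, ⟨0, 0⟩, 0⟩, 0, 0⟩ 0 0) (.cut .v 16793600 (.cut .l 57671 (.cut .d (-2048) (.pos 57 .mp ⟨⟨246214967, 0, 0, 0, 0, 194100154, 0, 0, 0, ⟨0, 0⟩, 0⟩, 0, 0⟩ 0 0) (.cut .v 16785408 (.cut .l 28835 (.cut .d (-1024) (.pos 61 .mp ⟨⟨246145539, 0, 0, 0, 0, 193888440, 0, 0, 0, ⟨0, 0⟩, 0⟩, 0, 0⟩ 0 0) (.cut .v 16781312 (.cut .l 14417 (.cut .d (-512) (.pos 63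 .mp ⟨⟨246110832, 0, 0, 0, 0, 193782827, 0, 0, 0, ⟨0, 0⟩, 0⟩, 0, 0⟩ 0 0) (.cut .v 16779264 (.cut .l 7208 (.cut .s 12238848 (.cut .s 12230656 (.pos 114 .mp ⟨⟨250410816, 0, 0, 0, 0, 175928467, 0, 0, 0, ⟨0, 0⟩, 0⟩, 0, 0⟩ 0 0) (.pos 114 .mp ⟨⟨251934903, 0, 0, 0, 0, 176441039, 0, 0, 0, ⟨0, 0⟩, 0⟩, 0, 0⟩ 0 0)) (.cut .s 12247040 (.pos 114 .mp ⟨⟨253488953, 0, 0, 0, 0, 176926478, 0, 0, 0, ⟨0, 0⟩, 0⟩, 0, 0⟩ 0 0) (.pos 114 .mp ⟨⟨255073360, 0, 0, 0, 0, 177384137, 0, 0, 0, ⟨0, 0⟩, 0⟩, 0, 0⟩ 0 0))) (.pos 114 .mp ⟨⟨250944253, 0, 0, 0, 0, 173474021, 0, 0, 0, ⟨0, 0⟩, 0⟩, 0, 0⟩ 0 0)) (.pos 115 .mp ⟨⟨358572442, 0, 0, 0, 0, 0, 0, 0, 0, ⟨0, 0⟩, 0⟩,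 0, 0⟩ 0 0))) (.pos 63 .mp ⟨⟨251091980, 0, 0, 0, 0, 173292996, 0, 0, 0, ⟨0, 0⟩, 0⟩, 0, 0⟩ 0 0)) (.pos 64 .mp ⟨⟨358630273, 0, 0, 0, 0, 0, 0, 0, 0, ⟨0, 0⟩, 0⟩, 0, 0⟩ 0 0))) (.pos 61 .mp ⟨⟨251387577, 0, 0, 0, 0, 172931687, 0, 0, 0, ⟨0, 0⟩, 0⟩, 0, 0⟩ 0 0)) (.pos 62 .mp ⟨⟨358733428, 0, 0, 0, 0, 0, 0, 0, 0, ⟨0, 0⟩, 0⟩, 0, 0⟩ 0 0))) (.pos 57 .mp ⟨⟨251979120, 0, 0, 0, 0, 172209106, 0, 0, 0, ⟨0, 0⟩, 0⟩, 0, 0⟩ 0 0)) (.pos 58 .mp ⟨⟨358936106, 0, 0, 0, 0, 0, 0, 0, 0, ⟨0, 0⟩, 0⟩, 0, 0⟩ 0 0))) (.pos 45 .mp ⟨⟨253164268, 0, 0, 0, 0, 170761483, 0, 0, 0, ⟨0, 0⟩, 0⟩, 0, 0⟩ 0 0))) (.pos 46 .mp ⟨⟨301549067, 0, 0, 0, 0, 102974816, 0, 0, 0, ⟨0, 0⟩, 0⟩,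 0, 0⟩ 0 0)))) (.pos 38 .mp ⟨⟨361235970, 0, 0, 0, 0, 0, 0, 0, 0, ⟨0, 0⟩, 0⟩, 0, 0⟩ 0 0))) (.pos 36 .mp ⟨⟨359551174, 0, 0, 0, 0, 0, 0, 0, 0, ⟨0, 0⟩, 0⟩, 0, 0⟩ 0 0)) (.void 34 ⟨⟨100000, 0, 0, 0, 0, 0, 0, 0, 0, ⟨0, 0⟩, 0⟩, 0, 0⟩ 0 0)) (.void 32 ⟨⟨100000, 0, 0, 0, 0, 0, 0, 0, 0, ⟨0, 0⟩, 0⟩, 0, 0⟩ 0 0)))))))) (.void 30 ⟨⟨100000, 0, 0, 0, 0, 0, 0, 0, 0, ⟨0, 0⟩, 0⟩, 0, 0⟩ 0 0))) (.void 28 ⟨⟨100000, 0, 0, 0, 0, 0, 0, 0, 0, ⟨0, 0⟩, 0⟩, 0, 0⟩ 0 0))) (.void 26 ⟨⟨100000, 0, 0, 0, 0, 0, 0, 0, 0, ⟨0, 0⟩, 0⟩, 0, 0⟩ 0 0)))) (.void 24 ⟨⟨100000, 0, 0, 0, 0, 0, 0, 0, 0, ⟨0, 0⟩, 0⟩, 0, 0⟩ 0 0)) (.void 97 ⟨⟨100000, 0, 0, 0, 0, 0, 0, 0, 0, ⟨0, 0⟩, 0⟩,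 0, 0⟩ 0 0)) (.void 120 ⟨⟨100000, 0, 0, 0, 0, 0, 0, 0, 0, ⟨0, 0⟩, 0⟩, 0, 0⟩ 0 0)) (.void 125 ⟨⟨97455, 0, 0, 4147, 0, 0, 0, 0, 0, ⟨0, 0⟩, 0⟩, 0, 0⟩ 0 0))) (.cut .v 16777216 (.cut .v 8388608 (.cut .v 4194304 (.cut .v 2097152 (.cut .v 1048576 (.pos 126 .pm ⟨⟨0, 0, 21337001, 0, 0, 0, 0, 0, 0, ⟨0, 0⟩, 0⟩, 0, 9483⟩ 0 0) (.pos 127 .pm ⟨⟨0, 0, 19936133, 0, 0, 0, 0, 0, 0, ⟨0, 0⟩, 0⟩, 0, 26343⟩ 0 0)) (.pos 7 .pm ⟨⟨0, 0, 21876467, 0, 0, 0, 0, 0, 0, ⟨0, 0⟩, 0⟩, 0, 40877⟩ 0 0)) (.pos 5 .pm ⟨⟨0, 0, 6853640, 0, 0, 0, 0, 0, 0, ⟨0, 0⟩, 0⟩, 0, 0⟩ 0 0)) (.pos 3 .pm ⟨⟨0, 0, 0, 0, 0, 0, 0, 0, 0, ⟨0, 0⟩, 0⟩, 0, 0⟩ 0 0)) (.cut .v 268435456 (.cut .v 67108864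 (.cut .d 3346276 (.cut .d 1673138 (.cut .v 33554432 (.cut .d 836569 (.cut .v 25165824 (.cut .d 418284 (.cut .v 20971520 (.cut .v 18874368 (.cut .v 17825792 (.pos 29 .pp ⟨⟨188374817, 0, 0, 0, 0, 0, 0, 0, 0, ⟨0, 0⟩, 0⟩, 12572480, 0⟩ 0 0) (.pos 30 .pp ⟨⟨340245437, 0, 0, 0, 0, 0, 0, 0, 0, ⟨0, 0⟩, 0⟩, 0, 0⟩ 0 0)) (.pos 28 .pp ⟨⟨391015448, 0, 0, 0, 0, 0, 0, 0, 0, ⟨0, 0⟩, 0⟩, 0, 0⟩ 0 0)) (.pos 26 .pp ⟨⟨0, 0, 0, 0, 0, 0, 0, 0, 0, ⟨0, 0⟩, 0⟩, 49863703, 0⟩ 0 0)) (.pos 23 .pp ⟨⟨0, 0, 0, 0, 0, 0, 0, 0, 0, ⟨0, 0⟩, 0⟩, 24056537, 63416⟩ 0 0)) (.pos 24 .pp ⟨⟨0, 0, 0, 0, 0, 0, 0, 0, 0, ⟨0, 0⟩, 0⟩, 64965020, 0⟩ 0 0)) (.pos 22 .pp ⟨⟨0, 0, 0, 0, 0,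 0, 0, 0, 0, ⟨0, 0⟩, 0⟩, 25209384, 59174⟩ 0 0)) (.cut .d 836569 (.void 97 ⟨⟨0, 0, 0, 0, 0, 0, 0, 0, 0, ⟨0, 0⟩, 0⟩, 100000, 0⟩ 0 0) (.pos 97 .pp ⟨⟨0, 0, 0, 0, 0, 0, 0, 0, 0, ⟨0, 0⟩, 0⟩, 75368725, 0⟩ 0 0))) (.pos 96 .pp ⟨⟨0, 0, 0, 0, 0, 0, 0, 0, 0, ⟨0, 0⟩, 0⟩, 17083178, 89076⟩ 0 0)) (.pos 96 .pp ⟨⟨0, 0, 0, 0, 0, 0, 0, 0, 0, ⟨0, 0⟩, 0⟩, 0, 151935⟩ 0 0)) (.void 120 ⟨⟨0, 93237, 0, 0, 0, 0, 0, 0, 0, ⟨0, 0⟩, 0⟩, 6763, 0⟩ 0 0)) (.void 125 ⟨⟨0, 0, 0, 0, 0, 0, 0, 0, 0, ⟨0, 0⟩, 0⟩, 100000, 0⟩ 0 0)))),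
    by decide +kernel⟩

end Vale.Agent.P237.Petty.Cor.Grid.Tiny.N16
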