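import Vale.Agent.P237.Petty.Cor.Grid.Tiny.N16.Cert

/-!
# P237: a cell down to zero in dimension 16, checks of rows
-/

namespace Vale.Agent.P237.Petty.Cor.Grid.Tiny.N16

def row23_ok : cell.rowOk Vale.Agent.P237.Petty.Cor.Grid.N16.table row23 = true := by decide +kernel

def row24_ok : cell.rowOk Vale.Agent.P237.Petty.Cor.Grid.N16.table row24 = true := by decide +kernel

def row25_ok : cell.rowOk Vale.Agent.P237.Petty.Cor.Grid.N16.table row25 = true := by decide +kernel

def row26_ok : cell.rowOk Vale.Agent.P237.Petty.Cor.Grid.N16.table row26 = true := by decide +kernel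

def row27_ok : cell.rowOk Vale.Agent.P237.Petty.Cor.Grid.N16.table row27 = true := by decide +kernel

def row28_ok : cell.rowOk Vale.Agent.P237.Petty.Cor.Grid.N16.table row28 = true := by decide +kernel

def row29_ok : cell.rowOk Vale.Agent.P237.Petty.Cor.Grid.N16.table row29 = true := by decide +kernel

def row30_ok : cell.rowOk Vale.Agent.P237.Petty.Cor.Grid.N16.table row30 = true := by decide +kernel

def row31_ok : cell.rowOk Vale.Agent.P237.Petty.Cor.Grid.N16.table row31 = true := by decide +kernel

def row32_ok : cell.rowOk Vale.Agent.P237.Petty.Cor.Grid.N16.table row32 = true := by decide +kernel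

def row33_ok : cell.rowOk Vale.Agent.P237.Petty.Cor.Grid.N16.table row33 = true := by decide +kernel

def row34_ok : cell.rowOk Vale.Agent.P237.Petty.Cor.Grid.N16.table row34 = true := by decide +kernel

def row35_ok : cell.rowOk Vale.Agent.P237.Petty.Cor.Grid.N16.table row35 = true := by decide +kernel

def row36_ok : cell.rowOk Vale.Agent.P237.Petty.Cor.Grid.N16.table row36 = true := by decide +kernel

def row37_ok : cell.rowOk Vale.Agent.P237.Petty.Cor.Grid.N16.table row37 = true := by decide +kernel

def row38_ok : cell.rowOk Vale.Agent.P237.Petty.Cor.Grid.N16.table row38 = true := by decide +kernel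

def row39_ok : cell.rowOk Vale.Agent.P237.Petty.Cor.Grid.N16.table row39 = true := by decide +kernel

def row40_ok : cell.rowOk Vale.Agent.P237.Petty.Cor.Grid.N16.table row40 = true := by decide +kernel

def row41_ok : cell.rowOk Vale.Agent.P237.Petty.Cor.Grid.N16.table row41 = true := by decide +kernel

def row42_ok : cell.rowOk Vale.Agent.P237.Petty.Cor.Grid.N16.table row42 = true := by decide +kernel

def row43_ok : cell.rowOk Vale.Agent.P237.Petty.Cor.Grid.N16.table row43 = true := by decide +kernel

def row44_ok : cell.rowOk Vale.Agent.P237.Petty.Cor.Grid.N16.table row44 = true := by decide +kernel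

def row45_ok : cell.rowOk Vale.Agent.P237.Petty.Cor.Grid.N16.table row45 = true := by decide +kernel

end Vale.Agent.P237.Petty.Cor.Grid.Tiny.N16
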